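import Claimed.Agent.R285.Read.B8
import Claimed.Agent.R285.Flow.Defs
import Claimed.Agent.R285.Alg.Comps
import Claimed.Agent.R285.Ker.Cac

/-!
# ROW 285, post BP-READ-B8, part 2: the EXPORT of [B] P8.3, P8.5 to the MAP unit (`B10.Raw`, `B10.Tor`, pure entries, quadratic coefficients)      (owner helper202)

K1 verdicts: header of `R285/Read/B8.lean`.  Spaces: `R285/Base/Spaces.lean` (`ActSp`, `BulkSp`, `Copy`, `cutW`).  Abstract side: `R285/Flow/Defs.lean` (namespace `B10`).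

* `Cfg` = all fixed parameters; `Reg` = regulators + observation cells of a tower (`Reg.zero` for [B] s8 itself; `Vobs` for [C], [F], [E]).
* `Cfg.Pl j` = plane remainders (`BulkSp` over all RETAINED tori `h > j`, `h ≥ 𝓡.hmin`), `Cfg.To j h` = torus remainders (`ActSp`), TOTAL in `(j, h)` (grid side `L^{min j h}`), so `B10.Tor` needs no casts.
* `Cfg.Phi j` = plane map (scalars read on the smallest retained torus `𝓡.bot j = max (j + 1) hmin`; componentwise `Step.Phi`, then `cutW`); `Cfg.Psi j h` = torus remainder map driven by `(t, z)`.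
* `Cfg.rV`, `Cfg.rP` = the two terminal read-outs ([B] (10.3), (10.4)) in their simplest form; `Cfg.eExp`, `Cfg.eExpT` = exponential entries (`z = 0`: pure Gaussians of L10.3).
* **`raw_system`** = the one contract: `RawOK`, `TorOK`, `PureOK`, holomorphy of `Psi`, read-outs, copying, and P8.5 as BOUNDED BLOCK SUMS (`CoefBlock`) with `b_* = 2 log L`, `H > 0`.
  `CoefRate` (= [F] L5.3, rate `j⁻²`) is NOT claimed here: its only known proof is the complexity count of [F] l.400-560 (expensive).  helper94 (F5) has re-derived [F] s5.4 from the block sums.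
  PROPOSAL to Flow/B10: replace the hypothesis `|Hc j - H|, |bc j - b_*| ≤ C/j²` of `to_flow` and the term `wn²/j²` of `eord` by sequences `H_j`, `b_j` with `CoefBlock`.
* s.9: plan of the proof of the block sums and its two kernel inputs `cac_diag`, `neutral_sum`.
-/

set_option autoImplicit false

namespace Claimed.Agent.R285.B8

open scoped BigOperators ENNReal NNReal
open MeasureTheory ProbabilityTheory Polynomial Filter Topology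
open Claimed.Agent.R285.RG

noncomputable section

/-! ## 8. The Banach packaging: from `WeakOK` (one step, one torus) to `B10.RawOK`, `B10.TorOK` -/

/-- regulators and observation cells of a tower of tori -/
structure Reg (s : Sc) where
  gs : ∀ h, Grid (s.T h)
  V : ∀ h j, Extra (s.lev h j)
  /-- the smallest RETAINED torus: the plane is the family of the tori `h ≥ hmin` (the physical entry exists only on tori of side `≥ s R⁵`); [B] s8 itself: `hmin = 0` -/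
  hmin : ℕ

/-- the retained tori at the level `j` -/
abbrev Reg.Ix {s : Sc} (𝓡 : Reg s) (j : ℕ) : Type := {h : ℕ // j < h ∧ 𝓡.hmin ≤ h}

/-- the smallest retained torus at the level `j` (the plane scalars are read there) -/
def Reg.bot {s : Sc} (𝓡 : Reg s) (j : ℕ) : 𝓡.Ix j := ⟨max (j + 1) 𝓡.hmin, lt_of_lt_of_le (Nat.lt_succ_self j) (le_max_left _ _), le_max_right _ _⟩

/-- a torus retained at the level `j + 1` is retained at the level `j` -/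
def Reg.dn {s : Sc} (𝓡 : Reg s) {j : ℕ} (i : 𝓡.Ix (j + 1)) : 𝓡.Ix j := ⟨i.1, Nat.lt_of_succ_lt i.2.1, i.2.2⟩

/-- no cells (cells of side one), no extra regulator: [B] s8 itself -/
def Reg.zero (s : Sc) : Reg s := ⟨fun h => s.lev h 0, fun _ _ => Extra.zero _, 0⟩

/-- everything which is fixed -/
structure Cfg where
  c : Geo
  p : Par
  /-- padding of the unwrapped supports, in blocks -/
  c0 : ℕ
  s : Sc
  /-- the family of covariances -/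
  F : Fam
  cosOn : Bool

namespace Cfg

variable (K : Cfg) (𝓡 : Reg K.s)

/-- the step `j → j + 1` on the torus `h > j` -/
def step (h j : ℕ) (hj : j < h) : Step (K.s.T h) (K.s.D0 - 1) K.s.ℓ :=
  ⟨K.s.pair h j hj, shell (K.s.T h) K.F (K.s.L ^ j) (K.s.L ^ (j + 1)), 𝓡.V h j, 𝓡.V h (j + 1)⟩

/-- the family of retained tori at the level `j` -/
def fam (j : ℕ) : 𝓡.Ix j → Lvl := fun i => ⟨K.s.T i.1, K.s.lev i.1 j, 𝓡.gs i.1, 𝓡.V i.1 j⟩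

/-- **plane remainders at the level `j`** = copy-consistent families of unwrapped activities over all tori `h > j` -/
abbrev Pl (j : ℕ) : Type := ↥(BulkSp K.p K.c.col K.c.R K.c0 (K.fam 𝓡 j))

/-- **torus remainders at the level `j` behind the stop `h`** -/
abbrev To (j h : ℕ) : Type := ↥(ActSp K.p K.c.col K.c.R (K.s.lev h j) (𝓡.gs h) (𝓡.V h j))

open Classical in
/-- the component of a plane remainder on the torus `i` -/
def plAct {j : ℕ} (a : K.Pl 𝓡 j) (i : 𝓡.Ix j) : Act (K.s.lev i.1 j) := fun X z =>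
  if z ∈ strip K.p.h0 (K.s.lev i.1 j) X then
    ((Wt (K.s.lev i.1 j) K.p.δ K.p.κ (𝓡.V i.1 j) X (fun v => (z v).re) / K.p.A ^ X.card : ℝ) : ℂ) *
      a.1 ⟨i, (X, (fun v => (z v).re), fun v => ((z v).im : ℂ) * Complex.I)⟩
  else 0

/-- the activity of a torus remainder -/
def toAct {j h : ℕ} (a : K.To 𝓡 j h) : Act (K.s.lev h j) := Amb.act K.p (K.s.lev h j) (𝓡.V h j) a.1

/-- a plane remainder with prescribed components (junk `0` if there is none) -/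
def plMk (j : ℕ) (R : ∀ i : 𝓡.Ix j, Act (K.s.lev i.1 j)) : K.Pl 𝓡 j :=
  open Classical in if hx : ∃ b : K.Pl 𝓡 j, ∀ i, EqOn K.p.h0 (K.plAct 𝓡 b i) (R i) then hx.choose else 0

/-- a torus remainder with a prescribed activity (junk `0` if there is none) -/
def toMk (j h : ℕ) (R : Act (K.s.lev h j)) : K.To 𝓡 j h :=
  open Classical in if hx : ∃ b : K.To 𝓡 j h, EqOn K.p.h0 (K.toAct 𝓡 b) R then hx.choose else 0

/-- the weak map on the torus `h`, in activities -/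
def PhiT (h j : ℕ) (hj : j < h) (x : ℂ × ℂ × Act (K.s.lev h j)) : ℂ × ℂ × Act (K.s.lev h (j + 1)) :=
  (K.step 𝓡 h j hj).Phi K.c K.p.ω K.cosOn x

/-- **the plane map** `Φ_j`: scalars read on the smallest retained torus, remainder = componentwise weak map followed by `cutW` -/
def Phi (j : ℕ) (x : ℂ × ℂ × K.Pl 𝓡 j) : ℂ × ℂ × K.Pl 𝓡 (j + 1) :=
  ((K.PhiT 𝓡 (𝓡.bot j).1 j (𝓡.bot j).2.1 (x.1, x.2.1, K.plAct 𝓡 x.2.2 (𝓡.bot j))).1,
   (K.PhiT 𝓡 (𝓡.bot j).1 j (𝓡.bot j).2.1 (x.1, x.2.1, K.plAct 𝓡 x.2.2 (𝓡.bot j))).2.1,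
   K.plMk 𝓡 (j + 1) fun i =>
     cutW K.c0 (K.PhiT 𝓡 i.1 j (𝓡.dn i).2.1 (x.1, x.2.1, K.plAct 𝓡 x.2.2 (𝓡.dn i))).2.2)

/-- **the torus remainder map**, driven by the scalars `(t, z)` -/
def Psi (j h : ℕ) (X : (ℂ × ℂ) × K.To 𝓡 j h) : K.To 𝓡 (j + 1) h :=
  if hj : j < h then K.toMk 𝓡 (j + 1) h (K.PhiT 𝓡 h j hj (X.1.1, X.1.2, K.toAct 𝓡 X.2)).2.2 else 0

/-- the exact multiplier `λ_j` (the same on all retained tori) -/
def lam (j : ℕ) : ℝ := (K.step 𝓡 (j + 1) j (Nat.lt_succ_self j)).lam K.p.ω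

/-- the linear operators, the half-period translation, the complex conjugation -/
structure Ops where
  Pt : ∀ j, K.Pl 𝓡 j →L[ℂ] ℂ
  Pz : ∀ j, K.Pl 𝓡 j →L[ℂ] ℂ
  Cc : ∀ j, K.Pl 𝓡 j →L[ℂ] K.Pl 𝓡 (j + 1)
  σ : ∀ j, K.Pl 𝓡 j →L[ℂ] K.Pl 𝓡 j
  cj : ∀ j, K.Pl 𝓡 j → K.Pl 𝓡 j
  /-- half-period translation on the torus remainders (`B10.Tor.σT`, `Flow.Hist.σT`) -/
  σT : ∀ j h, K.To 𝓡 j h →L[ℂ] K.To 𝓡 j h

/-- what the operators are.  (`Pt`, `Pz`, `Cc` are the blocks of the Fréchet derivative of `Φ_j` at `0`, see `Pack.ops`; they are characterised by `B10.RawOK.quad`.) -/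
structure OpsOK (j0 : ℕ) (o : K.Ops 𝓡) : Prop where
  σ : ∀ j (a : K.Pl 𝓡 j) i, EqOn K.p.h0 (K.plAct 𝓡 (o.σ j a) i) (halfShift K.p.ω (K.plAct 𝓡 a i))
  cj : ∀ j (a : K.Pl 𝓡 j) i, EqOn K.p.h0 (K.plAct 𝓡 (o.cj j a) i)
    (conjAct (K.plAct 𝓡 a i))
  σT : ∀ j h (a : K.To 𝓡 j h), EqOn K.p.h0 (K.toAct 𝓡 (o.σT j h a)) (halfShift K.p.ω (K.toAct 𝓡 a))

/-- **the raw data of `B10`** -/
def raw (hA : 0 < K.p.A) (j0 : ℕ) (o : K.Ops 𝓡) : B10.Raw where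
  j0 := j0
  A := K.Pl 𝓡
  cA := fun j => (bulkSp_isClosed K.p hA K.c.col K.c.R K.c0 (K.fam 𝓡 j)).completeSpace_coe
  Φ := K.Phi 𝓡
  Pt := o.Pt
  Pz := o.Pz
  Cc := o.Cc
  lam := fun j => (K.lam 𝓡 j : ℂ)
  σ := o.σ
  cj := o.cj

/-- hypotheses on a tower (supplied by `B4`: L4.1/L8.1, L4.3, L4.4/L9.2) -/
structure TowerOK (j0 : ℕ) : Prop where
  step : ∀ h j, j0 ≤ j → ∀ hj : j < h, StepOK K.c K.p (𝓡.gs h) (K.step 𝓡 h j hj)
  /-- the cells are aligned copies of each other -/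
  cells : ∃ sd : ℕ, 0 < sd ∧ ∀ h, j0 < h → (𝓡.gs h).m = sd ∧ ∀ x y : ℤ × ℤ, x.1 / sd = y.1 / sd → x.2 / sd = y.2 / sd →
    (𝓡.gs h).blk ((K.s.T h).π x) = (𝓡.gs h).blk ((K.s.T h).π y)

end Cfg

/-- the marginal period `ω = 2π/√(8π)` -/
def ω8 : ℝ := 2 * Real.pi / Real.sqrt k0

/-! ### terminal read-outs ([B] (10.2)-(10.4), [F] (trj:neutral-response)); only what the Gaussian curve and P8.5 need -/

/-- a terminal covariance (it exists and is unique: `B4.exists_terminal`) -/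
def termCov (G : Geom) (F : Fam) (u : ℕ) : Matrix G.V G.V ℝ :=
  open Classical in if h : ∃ Γ, IsTerminal G F u Γ then h.choose else 0

/-- `E^{ter}`: terminal covariance and uniform common phase, against the character `e^{-i q α θ}` of the phase -/
def Eter (G : Geom) (Γ : Matrix G.V G.V ℝ) (ω : ℝ) (q : ℤ) (Z : Fn G) (Fb : G.V → ℂ) : ℂ :=
  ((1 / ω : ℝ) : ℂ) * ∫ θ in (0 : ℝ)..ω, Complex.exp (-(Complex.I * q * ((2 * Real.pi / ω : ℝ) : ℂ) * θ)) * conv Γ Z fun v => Fb v + (θ : ℂ)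

namespace Cfg

variable (K : Cfg) (𝓡 : Reg K.s)

/-- the terminal partition functional of the state `X` at the stop `h` -/
def Zter (h : ℕ) (X : (ℂ × ℂ) × K.To 𝓡 h h) : Fn (K.s.T h) :=
  ZA (K.s.lev h h) K.c.R (Kof (K.s.lev h h) (Step.alpha K.p.ω) (X.1.1, X.1.2, K.toAct 𝓡 X.2))

/-- the neutral response `𝒲_h (K; w q_n)` -/
def Wn (h : ℕ) (X : (ℂ × ℂ) × K.To 𝓡 h h) (w : ℂ) : ℂ :=
  Complex.log (Eter (K.s.T h) (termCov (K.s.T h) K.F (K.s.L ^ h)) K.p.ω 0 (K.Zter 𝓡 h X) (fun v => w * (cos1 (K.s.T h) v : ℝ))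
    / Eter (K.s.T h) (termCov (K.s.T h) K.F (K.s.L ^ h)) K.p.ω 0 (K.Zter 𝓡 h X) 0)

/-- the gradient read-out `∂_w² 𝒲 |_{w=0}` -/
def rV (h : ℕ) (X : (ℂ × ℂ) × K.To 𝓡 h h) : ℂ := iteratedDeriv 2 (K.Wn 𝓡 h X) 0

/-- its multiplier `⟨q_n, A q_n⟩ = 2 n² sin² (π/n)` -/
def kV (h : ℕ) : ℝ := cos1 (K.s.T h) ⬝ᵥ (lap (K.s.T h)).mulVec (cos1 (K.s.T h))

/-- the phase read-out: the fundamental Fourier coefficient in the common phase, normalised -/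
def rP (h : ℕ) (X : (ℂ × ℂ) × K.To 𝓡 h h) : ℂ :=
  Eter (K.s.T h) (termCov (K.s.T h) K.F (K.s.L ^ h)) K.p.ω 1 (K.Zter 𝓡 h X) 0
    / Eter (K.s.T h) (termCov (K.s.T h) K.F (K.s.L ^ h)) K.p.ω 0 (K.Zter 𝓡 h X) 0

/-- its multiplier `(D₀²/2) e^{-α² Γ_*(0,0)/2}` -/
def kP (h : ℕ) : ℝ :=
  (K.s.D0 : ℝ) ^ 2 / 2 * Real.exp (-(Step.alpha K.p.ω) ^ 2 * termCov (K.s.T h) K.F (K.s.L ^ h) (org _) (org _) / 2)

/-- **the torus data of `B10`** -/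
def tor (o : K.Ops 𝓡) : B10.Tor where
  T := K.To 𝓡
  Ψ := K.Psi 𝓡
  rV := K.rV 𝓡
  kV := K.kV
  σT := o.σT

/-! ### exponential entries: pure Gaussians ([B] L10.3, [F] (trj:gaussian-curve)) and the two-parameter family of P8.5 -/

open Classical in
/-- `K^{exp} (X) = ∏_{B ∈ X} (e^{t e_B^0/2 + z c_B^α} - 1)` on polymers: `𝒵 (K^{exp}) = exp ∑_B (t e_B^0/2 + z c_B^α)` -/
def Kexp {G : Geom} (g : Grid G) (R : ℕ) (α : ℝ) (t z : ℂ) : Act g := fun X ζ =>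
  if g.Conn R X then ∏ B ∈ X, (Complex.exp (t / 2 * eBC g B ζ + z * cBC g α B ζ) - 1) else 0

/-- its remainder -/
def Rexp {G : Geom} (g : Grid G) (R : ℕ) (α : ℝ) (t z : ℂ) : Act g := Kexp g R α t z - single g α t z

/-- exponential entry at the level `j`, plane -/
def eExp (j : ℕ) (t z : ℂ) : ℂ × ℂ × K.Pl 𝓡 j :=
  (t, z, K.plMk 𝓡 j fun i => cutW K.c0 (Rexp (K.s.lev i.1 j) K.c.R (Step.alpha K.p.ω) t z))

/-- exponential entry at the level `j`, torus `h` -/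
def eExpT (j h : ℕ) (t z : ℂ) : K.To 𝓡 j h := K.toMk 𝓡 j h (Rexp (K.s.lev h j) K.c.R (Step.alpha K.p.ω) t z)

end Cfg

/-- terminal regulator bound (`B4.regulator_terminal`; with observation regulators: [B] L9.2 at the stop), backgrounds `w q_n`, `|w| ≤ 1` -/
def Cfg.TermOK (K : Cfg) (𝓡 : Reg K.s) (j0 : ℕ) (cT : ℝ≥0) : Prop :=
  ∀ h, j0 ≤ h → ∀ (X : Finset (K.s.lev h h).I) (w : ℝ), |w| ≤ 1 →
    ∫⁻ ζ, ENNReal.ofReal (Wt (K.s.lev h h) K.p.δ K.p.κ (𝓡.V h h) X (fun v => ζ v + w * cos1 (K.s.T h) v))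
      ∂(gauss (K.s.T h) (termCov (K.s.T h) K.F (K.s.L ^ h))) ≤ (cT : ℝ≥0∞) ^ X.card

/-- bounded block sums of the balanced quadratic coefficients (what [F] s5.4 really uses, see `Read/F5.lean`) -/
def CoefBlock (F : B10.Raw) (nf : B10.NF F) (Hq bs Cb : ℝ) : Prop :=
  ∀ j j', F.j0 ≤ j → j ≤ j' → ‖∑ i ∈ Finset.Ico j j', (nf.bzz i + Hq)‖ ≤ Cb ∧ ‖∑ i ∈ Finset.Ico j j', (nf.btz i + bs)‖ ≤ Cb

/-- the rate of [F] L5.3 -/
def CoefRate (F : B10.Raw) (nf : B10.NF F) (Hq bs Cb : ℝ) : Prop :=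
  ∀ j, F.j0 ≤ j → ‖nf.bzz j + Hq‖ ≤ Cb / (j : ℝ) ^ 2 ∧ ‖nf.btz j + bs‖ ≤ Cb / (j : ℝ) ^ 2

theorem ZA_Kexp {G : Geom} (g : Grid G) (R : ℕ) (α : ℝ) (t z : ℂ) (ζ : G.V → ℂ) :
    ZA g R (Cfg.Kexp g R α t z) ζ = Complex.exp (∑ B : g.I, (t / 2 * eBC g B ζ + z * cBC g α B ζ)) := by
  classical
  have h1 : ∀ V : Finset g.I, (∏ X ∈ g.comps R V, Cfg.Kexp g R α t z X) ζ
      = ∏ B ∈ V, (Complex.exp (t / 2 * eBC g B ζ + z * cBC g α B ζ) - 1) := by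
    intro V
    rw [Finset.prod_apply]
    have h2 : ∀ X ∈ g.comps R V, Cfg.Kexp g R α t z X ζ
        = ∏ B ∈ X, (Complex.exp (t / 2 * eBC g B ζ + z * cBC g α B ζ) - 1) := by
      intro X hX
      simp only [Cfg.Kexp, if_pos (Alg.comps_conn hX)]
    rw [Finset.prod_congr rfl h2]
    conv_rhs => rw [← Alg.comps_biUnion (R := R) V]
    rw [Finset.prod_biUnion]
    · rfl
    · intro X hX X' hX' hne
      exact Alg.comps_disjoint hX hX' hne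
  unfold ZA
  rw [Finset.sum_apply]
  simp only [h1]
  rw [Complex.exp_sum]
  have h3 := Finset.prod_add_one (Finset.univ : Finset g.I) (f := fun B => Complex.exp (t / 2 * eBC g B ζ + z * cBC g α B ζ) - 1)
  simp only [sub_add_cancel, Finset.powerset_univ] at h3
  exact h3.symm

/-- the configuration of the marginal entry-family map -/
def cfg8 (c : Geo) (δ κ : ℝ) (h0 : ℝ≥0) (A : ℝ) (c0 ℓ D0 : ℕ) (hD : 0 < D0) : Cfg :=
  ⟨c, ⟨δ, κ, h0, A, ω8⟩, c0, ⟨ℓ, D0, hD⟩, Fam.entry, true⟩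

/-- everything `B10` and the dynamics need about one tower.
**SUPERSEDED by `Pack.Sys8` (`R285/Map/Sys8.lean`, PROVED export `Pack.raw_system`)**: this structure and `raw_system` below will be DELETED as soon as the consumers have switched. -/
structure Sys8 (K : Cfg) (𝓡 : Reg K.s) (j0 : ℕ) (hA : 0 < K.p.A) (κr : B10.RawC) (d1 Hq : ℝ) (Cb : ℝ → ℝ) (o : K.Ops 𝓡) : Prop where
  ops : K.OpsOK 𝓡 j0 o
  raw : B10.RawOK κr (K.raw 𝓡 hA j0 o)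
  tor : B10.TorOK κr j0 (K.tor 𝓡 o)
  pure : B10.PureOK κr d1 (K.raw 𝓡 hA j0 o) (K.tor 𝓡 o) (fun j d => K.eExp 𝓡 j d 0) (fun j h d => K.eExpT 𝓡 j h d 0)
  Ψ_an : ∀ j h, j0 ≤ j → j < h → DifferentiableOn ℂ (K.Psi 𝓡 j h) (Metric.ball 0 κr.ρ)
  /-- the half-period translation of the torus remainders is an isometric involution (`Asm.RawMapOK.σT_inv`, `σT_iso`), at ALL indices -/
  σT_inv : ∀ j h q, o.σT j h (o.σT j h q) = q
  σT_iso : ∀ j h q, ‖o.σT j h q‖ = ‖q‖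
  rV_an : ∀ h, j0 ≤ h → DifferentiableOn ℂ (K.rV 𝓡 h) (Metric.ball 0 κr.ρ)
  rP_an : ∀ h, j0 ≤ h → DifferentiableOn ℂ (K.rP 𝓡 h) (Metric.ball 0 κr.ρ)
  rP_bd : ∀ h, j0 ≤ h → ∀ X ∈ Metric.ball (0 : (ℂ × ℂ) × K.To 𝓡 h h) κr.ρ, ‖K.rP 𝓡 h X - K.kP h * X.1.2‖ ≤ κr.C * (‖X.2‖ + ‖X‖ ^ 2)
  kP_bd : ∀ h, j0 ≤ h → 1 / κr.C ≤ K.kP h ∧ K.kP h ≤ κr.C
  /-- **copying**: a torus remainder which is a copy of the plane remainder has the plane scalars, and stays a copy -/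
  copy : ∀ j h, j0 ≤ j → ∀ (hj : j < h) (hm : 𝓡.hmin ≤ h), ∀ (x : ℂ × ℂ × K.Pl 𝓡 j) (a : K.To 𝓡 j h), ‖x‖ < κr.ρ → ‖a‖ < κr.ρ →
    EqOn K.p.h0 (cutW K.c0 (K.toAct 𝓡 a)) (K.plAct 𝓡 x.2.2 ⟨h, hj, hm⟩) →
    (K.PhiT 𝓡 h j hj (x.1, x.2.1, K.toAct 𝓡 a)).1 = (K.Phi 𝓡 j x).1 ∧ (K.PhiT 𝓡 h j hj (x.1, x.2.1, K.toAct 𝓡 a)).2.1 = (K.Phi 𝓡 j x).2.1 ∧
    EqOn K.p.h0 (K.toAct 𝓡 (K.Psi 𝓡 j h ((x.1, x.2.1), a))) (K.PhiT 𝓡 h j hj (x.1, x.2.1, K.toAct 𝓡 a)).2.2 ∧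
    ∀ hj' : j + 1 < h, EqOn K.p.h0 (cutW K.c0 (K.toAct 𝓡 (K.Psi 𝓡 j h ((x.1, x.2.1), a)))) (K.plAct 𝓡 (K.Phi 𝓡 j x).2.2 ⟨h, hj', hm⟩)
  /-- **P8.5** in the form of bounded block sums; `b_* = 2 log L` -/
  coef : ∀ (nf : B10.NF (K.raw 𝓡 hA j0 o)) (C1 : ℝ), B10.BalOK κr C1 (K.raw 𝓡 hA j0 o) nf →
    CoefBlock (K.raw 𝓡 hA j0 o) nf Hq (2 * (K.s.ℓ * Real.log 2)) (Cb C1)

/-- **THE EXPORT OF P8.3 + P8.5 TO `B10`, `Flow`** (marginal reference `a' = 8π`, entry family, arbitrary regulators).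
Order: geometry, per-block costs; `δ, κ`; `h₀ ≥ C₁`; `θ`; `L = 2^ℓ`; `A`; then the raw constants `κr`, the first scale `jmin`, the disc `d1`, `H > 0`, `C_b`.
They may depend on `D₀ ≥ D₁` (number of terminal blocks) but NOT on the regulators / cells, nor on the entry index `j0 ≥ jmin`. -/
theorem raw_system (c : Geo) (hc : c.Ok) (cT : ℝ≥0) (c0 : ℕ) (hc0 : 2 * (c.ρ + 4) ≤ c0) : ∃ C1 : ℝ≥0, ∀ (δ κ : ℝ) (h0 : ℝ≥0), 0 < δ → 0 < κ → C1 ≤ h0 →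
    ∀ θ : ℝ, 0 < θ → θ < 1 → ∃ (ℓ0 D1 : ℕ), ∀ ℓ ≥ ℓ0, ∃ A0 : ℝ, 0 < A0 ∧ ∀ A, A0 ≤ A → ∀ (D0 : ℕ) (hD : 0 < D0), D1 ≤ D0 →
      ∃ (κr : B10.RawC) (jmin : ℕ) (d1 Hq : ℝ) (Cb : ℝ → ℝ), κr.θ = θ ∧ 0 < d1 ∧ 0 < Hq ∧
      ∀ (𝓡 : Reg (cfg8 c δ κ h0 A c0 ℓ D0 hD).s) (j0 : ℕ), jmin ≤ j0 →
        (cfg8 c δ κ h0 A c0 ℓ D0 hD).TowerOK 𝓡 j0 → (cfg8 c δ κ h0 A c0 ℓ D0 hD).TermOK 𝓡 j0 cT → ∀ hA' : 0 < (cfg8 c δ κ h0 A c0 ℓ D0 hD).p.A,
        ∃ o : (cfg8 c δ κ h0 A c0 ℓ D0 hD).Ops 𝓡, Sys8 (cfg8 c δ κ h0 A c0 ℓ D0 hD) 𝓡 j0 hA' κr d1 Hq Cb o := by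
  sorry

/-! ## 9. P8.5: the plan of the proof of `Sys8.coef`, and its kernel inputs

Fix `j ≤ h`, `m = L^j`, `n = D₀ L^h`, `Γ = C_{≥ m}` on the torus `n` (`termCov .. (L^j)`), `α² = 8π`.  Start the plane and the torus `h` at the level `j` with the exponential entries `eExp j t z`, `eExpT j h t z`.
 (a) JETS (abstract, `Raw` + `BalOK`): first order `R^{(1)} = 0`, `T^{(1)} = t`, `Z^{(1)} = ℓ_j z`; second order `‖R_i^{(2)}‖ ≤ C` uniformly (`R^{(2)}_{i+1} = C_i R^{(2)}_i + O(1)`), and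
     `[z²] T_h = [z²] T_j + ℓ_j² ∑_{j ≤ i < h} b_i^{zz}`,  `[tz] Z_h = [tz] Z_j + ℓ_j ∑ b_i^{tz}`; hence `[z²] t_h = ℓ_j² ∑ b_i^{zz} + O(1)`, `[tz] z_h = (ℓ_j/ℓ_h) ∑ b_i^{tz} + O(1)`.  One-parameter curves `s ↦ (s t₀, s z₀)` and parity suffice.
 (b) READ-OUTS (`tor.rV_bd`, `rP_bd` + Cauchy): `[z²] rV = kV_h [z²] t_h + O(1)`, `[z] rP = kP_h ℓ_j/ℓ_h`, `[tz] rP = kP_h [tz] z_h + O(1)`.
 (c) STOPPED IDENTITY (`WeakOK.exact` composed along the torus history + `copy` + `ZA_Kexp` + telescoping of the covariances): for small `(t, z)`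
     `Eter Γ_* q (Zter X_h) F = cst · Eter Γ q (exp ∑_B (t e_B/2 + z c_B)) F`, `cst` independent of `q`, `F`.
 (d) GAUSSIAN CALCULUS (finite sums): `[z²] rV = -(α²/4) Nsum`, `[tz] rP / [z] rP = -(α²/2) (Γ A Γ)(0,0)`.
 (e) KERNELS: `cac_diag`, `neutral_sum` below.
Result: `∑ b_i^{tz} = -(α²/4π) log (n/m) + O(1) = -2 (h - j) log L + O(1)`, `∑ b_i^{zz} = -H (h - j) + O(1)`. -/

/-- `δ_i = Γ_{L^i} (0,0) - log L / 2π` -/
def delK (s : Sc) (i : ℕ) : ℝ :=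
  shell (s.T (i + 1)) Fam.entry (s.L ^ i) (s.L ^ (i + 1)) (org _) (org _) - s.ℓ * Real.log 2 / (2 * Real.pi)

/-- `ℓ_j = ∏_{i ≥ j} λ_i = exp (-(α²/2) ∑_{i ≥ j} δ_i)` at `α² = 8π` -/
def ellK (s : Sc) (j : ℕ) : ℝ := Real.exp (-(k0 / 2) * ∑' i, delK s (j + i))

/-- `N = m^{-4} ∑_{x,y} (q_x - q_y)² e^{-α² (Γ(0,0) - Γ(x,y))}` -/
def Nsum (s : Sc) (j h : ℕ) : ℝ :=
  ((s.L : ℝ) ^ j) ⁻¹ ^ 4 * ∑ x : (s.T h).V, ∑ y : (s.T h).V, (cos1 (s.T h) x - cos1 (s.T h) y) ^ 2 *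
    Real.exp (-k0 * (termCov (s.T h) Fam.entry (s.L ^ j) (org _) (org _) - termCov (s.T h) Fam.entry (s.L ^ j) x y))

/-- **kernel input for `b`**: `(Γ A Γ)(0,0) = n^{-2} ∑_{k ≠ 0} 𝖯_m (λ_k)² / λ_k = log (n/m) / 2π + O(1)` -/
theorem cac_diag (ℓ : ℕ) (hℓ : 1 ≤ ℓ) : ∃ C : ℝ, ∀ (s : Sc), s.ℓ = ℓ → 2 ≤ s.D0 → ∀ (j h : ℕ), j ≤ h →
    ∀ Γ : Matrix (s.T h).V (s.T h).V ℝ, Γ = termCov (s.T h) Fam.entry (s.L ^ j) →
    |(Γ * lap (s.T h) * Γ) (org _) (org _) - (((h - j : ℕ) : ℝ) * (ℓ * Real.log 2) + Real.log s.D0) / (2 * Real.pi)| ≤ C := by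
  obtain ⟨C, hC⟩ := Claimed.Agent.R285.Ker.ker_cac_diag
  refine ⟨C, ?_⟩
  intro s hs hD j h hjh Γ hΓ
  have hL : 0 < s.L := s.L_pos
  have hu : 1 ≤ s.L ^ j := Nat.pow_pos hL
  have hex : ∃ Γ', IsTerminal (s.T h) Fam.entry (s.L ^ j) Γ' :=
    Claimed.Agent.R285.Ker.ker_exists_terminal (s.T h) Fam.entry Claimed.Agent.R285.Ker.ker_entry_adm (s.L ^ j) hu
  have hT : IsTerminal (s.T h) Fam.entry (s.L ^ j) Γ := by
    rw [hΓ]
    unfold termCov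
    rw [dif_pos hex]
    exact hex.choose_spec
  have hM : (s.T h).M = s.D0 * s.L ^ h := rfl
  have hpow : s.L ^ h = s.L ^ (h - j) * s.L ^ j := by
    rw [← pow_add]
    congr 1
    omega
  have h2 : 2 * s.L ^ j ≤ (s.T h).M := by
    rw [hM]
    exact Nat.mul_le_mul hD (Nat.pow_le_pow_right hL hjh)
  have key := hC (s.T h) rfl (s.L ^ j) hu h2 Γ hT (org _)
  have hD0 : (0 : ℝ) < (s.D0 : ℝ) := by exact_mod_cast s.hD
  have hLr : ((s.L : ℕ) : ℝ) = (2 : ℝ) ^ ℓ := by simp [Sc.L, hs]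
  have hlog : Real.log (((s.T h).M : ℝ) / ((s.L ^ j : ℕ) : ℝ))
      = ((h - j : ℕ) : ℝ) * (ℓ * Real.log 2) + Real.log s.D0 := by
    have hj0 : (0 : ℝ) < ((s.L ^ j : ℕ) : ℝ) := by exact_mod_cast hu
    have e : ((s.T h).M : ℝ) / ((s.L ^ j : ℕ) : ℝ) = (s.D0 : ℝ) * ((2 : ℝ) ^ ℓ) ^ (h - j) := by
      rw [hM, hpow, div_eq_iff hj0.ne']
      push_cast
      rw [hLr]
      ring
    rw [e, Real.log_mul hD0.ne' (by positivity), Real.log_pow, Real.log_pow]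
    ring
  rw [hlog] at key
  exact key

/- `neutral_sum` (kernel input for `H`) DELETED 18:15Z (ruling R3 of helper87): no consumer, route (E) of `Map/Coef` replaced it. -/

end

end Claimed.Agent.R285.B8
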