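import Claimed.Agent.R285.Defs
import Claimed.Agent.R285.Base.RG
import Claimed.Agent.R285.Green.Top
import Claimed.Agent.R285.Alg.Step1
import Claimed.Agent.R285.Alg.Step2
import Claimed.Agent.R285.Alg.Step3
import Claimed.Agent.R285.Est.Final
import Claimed.Agent.R285.Hol.Sz
import Claimed.Agent.R285.Hol.Ch
import Claimed.Agent.R285.Loc.Main
import Claimed.Agent.R285.Chg.Main
import Claimed.Agent.R285.Reg.Main
import Claimed.Agent.R285.Ker.Main
import Claimed.Agent.R285.Geo.Four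
import Claimed.Agent.R285.Scal.Exact
import Claimed.Agent.R285.Scal.Nl
import Claimed.Agent.R285.Obs.VReg

/-!
# ROW 285, post BP-READ-B4: [B] Section 4 = `toolkit.tex` (finite-range integration and local partition algebra)   (owner helper165)

Definitions: `R285/Base/RG.lean`.  Here: K1 verdicts and the sorried CONTRACTS.  Everything typechecks.
VERSION 2 (13:25Z): the calculus (L4.4-P4.8) is stated for an ABSTRACT covariance with `ShellOK`, for regulators `W^κ e^V` (`Extra`), general radii and collars: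
so the SAME contracts serve [B] s5, s8 (`wh:kernels` "consequently L4.4 applies"), s9 (L9.2), [F] P4.2 (`prop:local-map`) and [E] s3.  [B] L9.2 is included (K1: OK).
VERSION 11 (16:50Z, helper276): L4.5 (`neutral_localization`, `loc_isotropic`) is PROVED (`R285/Loc/*.lean`, 0 sorry, statements unchanged).  The proof uses NO Taylor formula on a real segment: see the header of `Loc/Main.lean`.
VERSION 10 (16:45Z, helper218): the scalar representation (`scalarSizes`, `conv_factor`, `exact_map`, `Kprime_ok`, `nonlinear_map`) is PROVED (`R285/Scal/*.lean`, 0 sorry).  NEW HYPOTHESES (the old statements were false / unprovable):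
  `max 5 Vf.sep ≤ R` resp. `Vf.sep ≤ sepV` (the FINE regulators of the `R`-components must multiply), `0 < p.A` (otherwise `actNorm ≠ ⊤` says nothing), `R ≤ 2 ^ ℓ` in `conv_factor`, `exact_map` (`hL` is back: for `ℓ = 0` an `R`-polymer straddles two `r`-components).
  EXTRA EXPORTS in `Scal`: `Kprime_congr`, `Klin_congr` (values in the strips only depend on the data in the strips), `Kprime_hol`, `Klin_hol` (Gateaux holomorphy in a parameter), `Klin_ok`, the closure principle `FamCls`, `localFn_*`, `gauss_indep_mul`, `dist_far`.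
VERSION 11 (16:30Z, helper165): `obs_extra`, `obs_regulator` ([B] L9.2) wired to `R285/Obs/VReg.lean` (helper49's cut, 0 sorry).  LEFT: `neutral_localization`, `loc_isotropic` (PK-LOC), `green_continuum` (not to be used).
VERSION 9 (15:45Z, helper165): section 1 (L4.1, all 16 statements) wired to `R285/Ker/Main.lean` (helper198's cut, 0 sorry), section 2 (L4.3, C4.7, 6 statements) wired to `R285/Geo/{Main,Four}.lean` (helper241, 0 sorry).
VERSION 8 (15:05Z, helper165): `conv_factor`, `exact_map` at complex `z` in `strip p.h0 P.g' univ` only (junk outside); `exact_map` PROVED from `conv_factor` (`Alg.exact_step1_hom`); hypothesis `hL` dropped.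
VERSION 8 (15:50Z, helper278): `charged_gain`, `charged_contraction` wired to `R285/Chg/Main.lean` (helper15's cut; `Chg/*` has 0 sorry, it cites `Reg/Lat`, `Geo/*`, `Hol/*`).
VERSION 7 (15:20Z, helper278): section 4 (`tnorm_*`, `ptNorm_*`, `hol_*`, `strip_isOpen`, `gauss_shift`, `gauss_shift_im`, `eB_size`, `cB_size`) and `charge_inversion`, `charge_proj` are PROVED (`R285/Hol/*.lean`, 0 sorry).
VERSION 6 (15:00Z): `nonlinear_map_abs`, `large_linear_abs` are PROVED from `geometry_closure`, `geometry_fibre`, `geometry_four` (`R285/Est/*.lean`, 0 sorry; NO lattice animal count is used).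
VERSION 5 (14:50Z): `exact_step1..3` are PROVED (`R285/Alg/*.lean`, 0 sorry).
VERSION 4 (14:00Z): the collar `col` is quantified AFTER all constants (it is a fraction of `u` in [F] P4.1); `green_compare`.
VERSION 3 (13:45Z): D4' ADOPTED (complex fields, sup norm, see `Base/RG.lean`); proofs of L4.5, L4.6 re-derived for this norm AND for extra regulators (sketches at the statements).

## K1 verdicts (file `toolkit.tex`; numbering L4.1 kernels, L4.2 green, L4.3 geometry, L4.4 regulator, L4.5 localization, L4.6 charged,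
   C4.7 placement, P4.8 partition map).  NO FATAL ITEM.
* **L4.1 OK.**  Checked: `Q_{2t} = Q_t cos^{2p}(tz/2)`; degree `p (S - 1)`, range; telescoping is a polynomial identity; `Q_t(1-λ/16) = 1 - (t²-1)λ/3 + ..`;
  binary symbol bound (l.62); polar integrals converge for `r ≤ 12` because `2p = 64`; `cos²θ + cos²2θ ≥ 7/16` (min at `cos²θ = 3/8`); terminal bounds.
  Work: Fourier analysis on the discrete torus + even reflection.  The plane version is not needed.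
* **L4.2 OK** (standard).  The continuum limit needs a definition of the Dirichlet Green kernel (`greenCont`, heat kernel series).
  By the conventions of Plan.lean it should be AVOIDED by the consumers ([B] s5, s10); only `green_bounds` is a safe contract.
* **L4.3 OK.**  Spanning-tree traversal arguments; the constants are chosen in the order `C₀, n₀, L`.
* **L4.4 OK** (the crux of the section).  Checked line by line: additivity `g_{D'} = g_D + g_E`; (rg:det-comparison); the summation by parts (rg:ibp)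
  at inner, inner-boundary and outer-boundary sites; the three variances; the row sum `∑_j (1 + log⁺ (S/(m+j))) ≤ C S` uniformly in `L`;
  the coefficients `κ(-1+2Cδ+4Cκ)`, `κ(2δ/L+4Cκ-δ)`, `κ(C(1+δ)L⁻²+4Cκ-1)`; the trace/operator bound of the stacked vector `Z` (orders 1..4, this is why
  L4.1 needs `r ≤ 6`); `-½ log(1-x) ≤ x` for `x ≤ ½`.  REMARK: products need NON-ADJACENT collars (index distance `> 5`, not `> 4`): otherwise
  the boundary terms `P` of the union are smaller than the sum.  Harmless (`r₀ = 148`).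
* **L4.5 OK.**  Taylor with integral remainder at the real fields `t (φ - φ(v₀))`, radius allocation `C h₀ / L < h₀ / 2`.  The formula for `Loc` sums to `d e_B / 2`.
* **L4.6 OK.**  Large `α` only; the marginal fundamental charge is NOT covered here (as the paper says).
* **C4.7 OK** (counting).
* **P4.8 repairable = a schema, made explicit here.**  (a) "Under the hypotheses already specified .. define activities" : replaced by the explicit formula
  `Kprime` (D6).  Steps 2 and 3 were checked by brute force on a toy model (exact rational arithmetic, random data).  (b) the norm estimate uses ONLY the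
  properties collected in `SizeSys`; I re-derived it in that generality (families `j ≥ 2`: `∑_j (C_{L} ε)^j`; relocation: rooted count with atoms; decorations:
  `∑_V 2^{-|V|} (A d_*)^{|Y∖V|}`), so the sentence "the same finite algebra and spatial enumeration apply to a separately specified representation" becomes
  the theorem `nonlinear_map_abs`.  (c) "separately measured singleton polynomials" and "separately retained components" are corollaries:
  `‖t P‖_{m,A,κ} ≤ A C_pol |t|` and `C = C_{L,A}` may depend on `A`.  (d) "complex analytic map with derivative bounds": `K'` is a convergent power series in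
  `(K, F, a)`; consumers need Lipschitz / Cauchy bounds; stated as `nonlinear_lipschitz`.  If [E]/[F] need holomorphy in `b`, it follows from: `K'` is a
  locally uniform limit of polynomials in the inputs (finite volume: a polynomial in `K, F` and rational in `a`).
* **[B] L9.2 (`en:regulator`, entry.tex l.350-452) OK.**  Checked: `E_D (B_s α ζ + e) ≤ ‖ζ‖²_{C_{<u}} + ‖e‖²` (trial function `α ζ`, `A^{1/2} C_{<u} A^{1/2} ≤ 1`); the optimised form;
  the Gaussian identity (en:sup-composition) `E e^{q} = det^{-1/2} exp sup (q - |z|²/2)`; stability margin `p₁ · 2 V (T z) ≤ p₁ h_* |z|² < (p₁/p₂) |z|²`; trace `≤ C |X|`; Hölder `(p₁, p₁')`, which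
  needs L4.4 at `κ p₁'`.  Additivity needs a separation larger than the range of `C_{<u}` (32 blocks): field `Extra.sep`.
* Parameter order (last paragraph of the section): radii, `n₀`; `δ`; `κ`; `h₀`; `L`; `A`; radius `ε₀`; (`α₀` after `h₀, L`).  Visible in the quantifiers below.

## D4' (adopted): what changes in the proofs
* product, coarsening, integration, translation (`ptNorm_*`): one-liners, NO regularity hypothesis (`lintegral_mono`, `enorm_integral_le_lintegral_enorm`).  Hence `scalarSizes` needs no regularity.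
* holomorphy is used only in: `hol_conv` (closure), `charge_*` (continuation in the constant mode), L4.5 (Cauchy in one variable, bilinearity of `D²H(0)`), L4.6 (complex Cameron-Martin).
  Mathlib has no Osgood/Hartogs: the general lemma `hol_fderiv` (`DifferentiableOn ℂ F U → DifferentiableOn ℂ (fderiv ℂ F) U`, finite dimension; Cauchy formula on a circle in the
  direction `b` + differentiation under the integral) gives `iteratedFDeriv ℂ 2` bilinear and symmetric.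
* L4.5: `w = ψ + f`, `w̃ = w - w(v₀)`, `G(t) = H (t w̃)`, `t ∈ [0,1]`.  `G^{(r)}(t) = ∂_s^r H (tψ̃ + [t f̃ + s w̃])|_{s=0}`: real centre `tψ̃`, direction of fine norm `≤ C h₀/L + |s| (a + C h₀/L)`,
  `a = ‖ψ̃‖_{m,D_m(X)} ≤ (C/L) N(ψ)`, `N(ψ)² ≤ C U_{Lm}(\bar X, ψ)`.  Cauchy with `|s| = σ = (h₀/2)/(a + C h₀/L)`; regulators at `tψ`, `t ≤ 1`, are `≤` regulators at `ψ` (this is why the circle must NOT be
  taken in `t`: `e^{V}` has no reserve); `σ^{-r} ≤ (C/L)^r (1 + N)^r ≤ (C/L)^r C_r e^{(κ/2) U}`, paid by the half-exponent reserve `RegStable.small`.  `taylor_mean_remainder_bound`.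
* L4.6: `E F_q (φ + f + ζ) = e^{a²Γ₀₀/2} E [e^{-iaτζ(v₀)} F_q (φ + ζ + f + iaτ w)]`, `w = Γ(·,v₀)`, `τ = sgn q`; `f = f(v₀) + f̃`, `w = Γ₀₀ + w̃`; constants come out as
  `e^{iqα f(v₀)} e^{-a|q|αΓ₀₀}`; the direction `f̃ + iaτ w̃` has fine norm `≤ C h₀/L + C a < h₀`; the regulator stays at the real centre `φ + ζ`.

## (i) Imports from other posts: none.   (ii) External theorems really used: none beyond Mathlib
(multivariate Gaussians: `multivariateGaussian`, `charFun_multivariateGaussian`; independence from vanishing covariance has to be proved; discrete Fourier analysis on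
`ZMod M`; Chebyshev `T_real_cos`).  The citations [BGM04, Bau13, BY90, Bry09, BPR24] are for context only: every estimate is proved in the section.

## Consumers
[B] s5 (21 citations), s8 (13), s9 (8): scalar representation, also with `2κ` and enlarged collars; [B] s6, s7: `exact_step1..3`, `nonlinear_map_abs`, `geometry_*` with enlarged radii
(`xyh:calculus` (ii), `xyh:history`).

## Size estimate (lines of Lean): L4.1 6-8k, L4.2 bounds 2k (+4k continuum), L4.3 3k, L4.4 6k, L9.2 3k, norm calculus + holomorphy 1.5k, L4.5 2.5k, L4.6 2.5k, P4.8 algebra 3k, estimate 5k.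
-/

set_option autoImplicit false

namespace Claimed.Agent.R285.B4

open scoped BigOperators ENNReal NNReal
open MeasureTheory ProbabilityTheory Polynomial
open Claimed.Agent.R285.RG

noncomputable section

variable (G : Geom)

/-! ## 1. Lemma 4.1 (`rg:kernels`), for every admissible family (also [B] `wh:kernels`, entry family; [F] (ent:reference-split)) -/

theorem Q_spec (t : ℕ) (ht : 1 ≤ t) (z : ℝ) (hz : Real.sin (z / 2) ≠ 0) :
    (Q t).eval (Real.cos z) = (Real.sin (t * z / 2) / (t * Real.sin (z / 2))) ^ (2 * pp) :=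
  Ker.Q_spec t ht z hz

theorem Q_double (t : ℕ) (ht : 1 ≤ t) (z : ℝ) :
    (Q (2 * t)).eval (Real.cos z) = (Q t).eval (Real.cos z) * Real.cos (t * z / 2) ^ (2 * pp) :=
  Ker.Q_double t ht z

theorem toolkit_adm (s : ℝ) (hs : |s| ≤ 1 / 4) : (Fam.toolkit s).Adm (2 / 5) (4 / 3) 1 :=
  Ker.toolkit_adm s hs

theorem entry_adm : Fam.entry.Adm 1 1 0 :=
  Ker.entry_adm

/-- telescoping, as an identity of polynomials: `λ (C_{<u} + ∑_j Γ_{L^j u}) + λ C_{≥ L^n u} = pref` -/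
theorem fam_telescope (F : Fam) (L u n : ℕ) (hL : 1 ≤ L) (hu : 1 ≤ u) :
    X * (F.lowP u + ∑ j ∈ Finset.range n, F.shellP (L ^ j * u) (L ^ (j + 1) * u)) + F.termP (L ^ n * u) = F.pref :=
  Ker.fam_telescope F L u n hL hu

/-- [B] L4.1: with the independent variance `γ/(1+s)` the pieces sum to `(1+s)⁻¹ 𝓛⁻¹` -/
theorem toolkit_total (s : ℝ) : X * C (gam / (1 + s)) + (Fam.toolkit s).pref = C (1 + s)⁻¹ :=
  Ker.toolkit_total s

theorem exists_terminal (F : Fam) {b0 b1 : ℝ} {d : ℕ} (hF : F.Adm b0 b1 d) (u : ℕ) (hu : 1 ≤ u) :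
    ∃ Γ, IsTerminal G F u Γ :=
  Ker.exists_terminal G F hF u hu

theorem lap_spectrum (f : G.V → ℝ) :
    0 ≤ f ⬝ᵥ (lap G).mulVec f ∧ f ⬝ᵥ (lap G).mulVec f ≤ 8 * (f ⬝ᵥ f) :=
  Ker.lap_spectrum G f

theorem shell_psd (F : Fam) {b0 b1 : ℝ} {d : ℕ} (hF : F.Adm b0 b1 d) (ℓ u : ℕ) (hu : 1 ≤ u) :
    (shell G F u (2 ^ ℓ * u)).PosSemidef :=
  Ker.shell_psd G F hF ℓ u hu

theorem low_psd (F : Fam) {b0 b1 : ℝ} {d : ℕ} (hF : F.Adm b0 b1 d) (u : ℕ) (hu : 1 ≤ u) : (low G F u).PosSemidef :=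
  Ker.low_psd G F hF u hu

theorem shell_range (F : Fam) {b0 b1 : ℝ} {d : ℕ} (hF : F.Adm b0 b1 d) (m S : ℕ) (hm : 1 ≤ m) (hS : m ≤ S) :
    FinRange (shell G F m S) (pp * S + d) :=
  Ker.shell_range G F hF m S hm hS

theorem low_range (F : Fam) {b0 b1 : ℝ} {d : ℕ} (hF : F.Adm b0 b1 d) (u : ℕ) (hu : 1 ≤ u) :
    FinRange (low G F u) (pp * u + d) :=
  Ker.low_range G F hF u hu

/-- `0 ≤ A^{1/2} C_{<u} A^{1/2} ≤ 1` for the entry family ([B] `wh:kernels`), as a bound of quadratic forms -/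
theorem low_contraction (u : ℕ) (hu : 1 ≤ u) (f : G.V → ℝ) :
    f ⬝ᵥ (lap G * low G Fam.entry u * lap G).mulVec f ≤ f ⬝ᵥ (lap G).mulVec f :=
  Ker.low_contraction G u hu f

/-- **Lemma 4.1, estimates.**  `C, c, D₀` depend only on the admissibility constants: not on `L`, the scale, the volume, the boundary convention. -/
theorem kernels_bounds (b0 b1 cmax : ℝ) (d : ℕ) : ∃ (D0 : ℕ) (C c : ℝ), 2 ≤ D0 ∧ 0 < c ∧
    ∀ (G : Geom) (F : Fam), F.Adm b0 b1 d → F.c ≤ cmax → ∀ ℓ u : ℕ, 1 ≤ ℓ → 1 ≤ u → D0 * (2 ^ ℓ * u) < G.M →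
      ShellBounds G C c (2 ^ ℓ) u (shell G F u (2 ^ ℓ * u)) :=
  Ker.kernels_bounds b0 b1 cmax d

/-- **Lemma 4.1, terminal covariance**: positive-order bounds at scale `m_*`, for `M ≥ 2 m_*`. -/
theorem terminal_bounds (b0 b1 cmax : ℝ) (d : ℕ) : ∃ C : ℝ, ∀ (G : Geom) (F : Fam), F.Adm b0 b1 d → F.c ≤ cmax →
    ∀ u : ℕ, 1 ≤ u → 2 * u ≤ G.M → ∀ Γ, IsTerminal G F u Γ → TermBounds G C u Γ :=
  Ker.terminal_bounds b0 b1 cmax d

/-- summary: the shells of an admissible family are `ShellOK` with range `ρ = p + 1 = 33` coarse blocks -/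
theorem shellOK_of_fam (b0 b1 cmax : ℝ) (d : ℕ) : ∃ (D1 : ℕ) (Ck ck : ℝ), 0 < ck ∧ ∀ D0 ≥ D1, ∀ (G : Geom) (F : Fam),
    F.Adm b0 b1 d → F.c ≤ cmax → ∀ (ℓ : ℕ), 1 ≤ ℓ → ∀ P : Pair G D0 ℓ, d ≤ P.g'.m →
      ShellOK Ck ck (pp + 1) P (shell G F P.g.m P.g'.m) :=
  Ker.shellOK_of_fam b0 b1 cmax d

variable {G}

/-! ## 2. Lemma 4.3 (`rg:geometry`), radii `r` (temporary), `R` (polymers) as parameters -/

/-- **Lemma 4.3, closure.** -/
theorem geometry_closure (r R : ℕ) (hr : 2 ≤ r) : ∃ (C0 : ℝ) (n0 ℓ0 D1 : ℕ), ∀ D0 ≥ D1, ∀ (G : Geom) (ℓ : ℕ), ℓ0 ≤ ℓ →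
    ∀ P : Pair G D0 ℓ, ∀ X : Finset P.g.I, P.g.Conn R X →
      ((P.N.cl X).card : ℝ) ≤ C0 * (1 + R * X.card / 2 ^ ℓ) ∧ (P.N.cl X).card ≤ X.card ∧
      P.g'.Conn r (P.N.cl X) ∧ (n0 < X.card → 2 * (P.N.cl X).card ≤ X.card) ∧
      (X.card ≤ n0 → P.g'.idiam (P.N.cl X) ≤ 1) :=
  Geo.geo_closure r R hr

open Classical in
/-- **Lemma 4.3, lattice animals.** -/
theorem geometry_animals (R : ℕ) : ∃ C : ℕ, ∀ (G : Geom) (g : Grid G), g.Ok → ∀ (b : g.I) (n : ℕ),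
    (Finset.univ.filter fun X : Finset g.I => g.Conn R X ∧ b ∈ X ∧ X.card = n).card ≤ C ^ n :=
  Geo.geo_animals R

open Classical in
/-- **Lemma 4.3, families** (rg:family-count). -/
theorem geometry_families (r R : ℕ) : ∃ (C ℓ0 D1 : ℕ), ∀ D0 ≥ D1, ∀ (G : Geom) (ℓ : ℕ), ℓ0 ≤ ℓ → ∀ P : Pair G D0 ℓ,
    ∀ (b : P.g'.I) (n j : ℕ),
      (Finset.univ.filter fun V : Finset P.g.I => V.card = n ∧ (P.g.comps R V).card = j ∧
        P.g'.Conn r (P.N.cl V) ∧ b ∈ P.N.cl V).card ≤ C ^ n * (C * (2 ^ ℓ) ^ 2) ^ (2 * j) :=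
  Geo.geo_families r R

open Classical in
/-- **Corollary 4.7**, bulk placements: small polymers with a given closure. -/
theorem placements_bulk (R n0 : ℕ) : ∃ (C ℓ0 D1 : ℕ), ∀ D0 ≥ D1, ∀ (G : Geom) (ℓ : ℕ), ℓ0 ≤ ℓ → ∀ P : Pair G D0 ℓ,
    ∀ Y : Finset P.g'.I,
      (Finset.univ.filter fun X : Finset P.g.I => P.g.Conn R X ∧ X.card ≤ n0 ∧ P.N.cl X = Y).card
        ≤ C * (2 ^ ℓ) ^ 2 :=
  Geo.geo_placements R n0

/-- the number of fine blocks in a coarse block -/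
theorem geometry_fibre {D0 ℓ : ℕ} (P : Pair G D0 ℓ) (y : P.g'.I) : (Est.fib P y).card ≤ (2 ^ (ℓ + 1)) ^ 2 :=
  Geo.geo_fibre P y

/-- sets of index diameter `≤ 1` have at most four blocks (needs `n' ≥ 4` on the torus) -/
theorem geometry_four : ∃ D1 : ℕ, ∀ D0 ≥ D1, ∀ (G : Geom) (ℓ : ℕ) (P : Pair G D0 ℓ) (Y : Finset P.g'.I),
    P.g'.idiam Y ≤ 1 → Y.card ≤ 4 :=
  Geo.geo_four

/-- the geometric input of the estimate of P4.8 -/
theorem geometry_hyp (r R : ℕ) (hr : 2 ≤ r) : ∃ (n0 ℓ0 D1 : ℕ), ∀ D0 ≥ D1, ∀ (G : Geom) (ℓ : ℕ), ℓ0 ≤ ℓ → ∀ P : Pair G D0 ℓ,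
    Est.GeoHyp P r R n0 ((2 ^ (ℓ + 1)) ^ 2) := by
  obtain ⟨C0, n0, ℓ0, D1, h⟩ := geometry_closure r R hr
  obtain ⟨D2, h4⟩ := geometry_four
  refine ⟨n0, ℓ0, max D1 D2, fun D0 hD G ℓ hℓ P => ⟨?_, geometry_fibre P, ?_, h4 D0 (le_trans (le_max_right _ _) hD) G ℓ P⟩⟩
  · intro X hX
    exact (h D0 (le_trans (le_max_left _ _) hD) G ℓ hℓ P X hX).2.2.2.1
  · intro X hX
    exact (h D0 (le_trans (le_max_left _ _) hD) G ℓ hℓ P X hX).2.2.1

/-! ## 3. Lemma 4.4 (`rg:regulator`) and [B] Lemma 9.2 (`en:regulator`) -/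

/-- **Lemma 4.4** with its order of choices (rg:choice-order), for every covariance with the bounds of L4.1.
`κ` and `2κ` (more generally all `κ' ≤ κ0`) are covered with the SAME `ℓ0` because `ℓ0` is chosen after `κmin ≤ κ'`. -/
theorem regulator (Ck ck : ℝ) (ρ R n0 : ℕ) : ∃ D1 : ℕ, ∃ δ0 > (0 : ℝ), ∀ δ ∈ Set.Ioc 0 δ0, ∃ κ0 > (0 : ℝ), ∀ κmin > (0 : ℝ),
    ∃ ℓ0 : ℕ, ∀ D0 ≥ D1, ∀ (G : Geom) (ℓ : ℕ), ℓ0 ≤ ℓ → ∀ (P : Pair G D0 ℓ) (Γ : Matrix G.V G.V ℝ), ShellOK Ck ck ρ P Γ →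
      ∀ κ ∈ Set.Icc κmin κ0, RegStable R n0 2 δ κ P (Extra.zero _) (Extra.zero _) Γ :=
  Reg.reg_regulator Ck ck ρ R n0

/-- **Lemma 4.4**, monotonicity at a fixed scale. -/
theorem regulator_mono : ∃ δ0 > (0 : ℝ), ∀ δ ∈ Set.Ioc 0 δ0, ∀ (G : Geom) (g : Grid G), g.Ok →
    ∀ X X' : Finset g.I, X ⊆ X' → ∀ φ, U g δ X φ ≤ U g δ X' φ :=
  Reg.reg_regulator_mono

/-- additivity of `U` on supports with disjoint NON-ADJACENT collars -/
theorem regulator_add (g : Grid G) (hg : g.Ok) (δ : ℝ) (X X' : Finset g.I) (h : g.Sep 5 X X') (φ : G.V → ℝ) :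
    U g δ (X ∪ X') φ = U g δ X φ + U g δ X' φ :=
  Reg.reg_regulator_add G g hg δ X X' h φ

/-- **Lemma 4.4**, terminal scale (rg:terminal-reg). -/
theorem regulator_terminal (Ct : ℝ) : ∃ δ0 > (0 : ℝ), ∀ δ ∈ Set.Ioc 0 δ0, ∃ κ0 > (0 : ℝ), ∃ C : ℝ≥0∞, C ≠ ⊤ ∧
    ∀ κ ∈ Set.Ioc 0 κ0, ∀ (G : Geom) (g : Grid G), g.Ok → ∀ Γ : Matrix G.V G.V ℝ, Γ.PosSemidef → TermBounds G Ct g.m Γ →
      ∀ X : Finset g.I, ∫⁻ ζ, ENNReal.ofReal (W g δ κ X ζ) ∂(gauss G Γ) ≤ C ^ X.card :=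
  Reg.reg_regulator_terminal Ct

/-- the parameters of the observation regulator, (en:reserve) -/
structure ObsPar where
  a : ℝ
  hstar : ℝ
  p1 : ℝ
  p2 : ℝ
  a_pos : 0 < a
  h_pos : 0 < hstar
  h_lt : hstar < 1 / p2
  one_lt : 1 < p1
  p_lt : p1 < p2

theorem obsPar_opar (o : ObsPar) : Obs.OPar o.a o.hstar o.p1 where
  a_pos := o.a_pos
  hs_pos := o.h_pos
  p1_gt := o.one_lt
  margin := by
    have h1 := o.one_lt
    have h2 := o.p_lt
    have h3 := o.h_lt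
    have hp2 : 0 < o.p2 := by linarith
    rw [lt_div_iff₀ hp2] at h3
    nlinarith [o.h_pos]

/-- **[B] L9.2, first half**: `Vobs` is an `Extra` regulator (finite, `≥ 0`, quadratic, monotone, additive), bounded by the energy.
`gs` = observation cells, nested in the blocks. -/
theorem obs_extra (o : ObsPar) (gs g : Grid G) (hgs : gs.Ok) (hg : g.Ok) (N : Nest gs g) :
    ∃ V : Extra g, V.sep ≤ 2 * pp + 8 ∧ (∀ X φ, V.V X φ = Vobs o.a o.hstar o.p1 gs g (low G Fam.entry g.m) X φ) ∧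
      ∀ X φ, V.V X φ ≤ (1 - o.p1 * o.hstar)⁻¹ * o.hstar / 2 * bondE (g.Dm X) φ :=
  Obs.obs_extra' (obsPar_opar o) gs g hgs hg (low G Fam.entry g.m) (low_psd G Fam.entry entry_adm g.m hg.pos)
    (Obs.obs_low_cac G g.m hg.pos) (by simpa using low_range G Fam.entry entry_adm g.m hg.pos)

/-- **[B] L9.2, second half** (composition): shell averaging for `W^κ e^V`, with a fixed `C^{|X|}`; the half-exponent reserve of `W` is preserved. -/
theorem obs_regulator (o : ObsPar) (Ck ck : ℝ) (R n0 : ℕ) : ∃ D1 : ℕ, ∃ δ0 > (0 : ℝ), ∀ δ ∈ Set.Ioc 0 δ0, ∃ κ0 > (0 : ℝ),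
    ∀ κmin > (0 : ℝ), ∃ (cst : ℝ≥0) (ℓ0 : ℕ), ∀ D0 ≥ D1, ∀ (G : Geom) (ℓ : ℕ), ℓ0 ≤ ℓ → ∀ (P : Pair G D0 ℓ) (gs : Grid G) (_ : gs.Ok)
      (_ : Nest gs P.g), ShellOK Ck ck (pp + 1) P (shell G Fam.entry P.g.m P.g'.m) →
      ∀ (Vf : Extra P.g) (Vc : Extra P.g'),
        (∀ X φ, Vf.V X φ = Vobs o.a o.hstar o.p1 gs P.g (low G Fam.entry P.g.m) X φ) →
        (∀ X φ, Vc.V X φ = Vobs o.a o.hstar o.p1 gs P.g' (low G Fam.entry P.g'.m) X φ) →
        ∀ κ ∈ Set.Icc κmin κ0, RegStable R n0 cst δ κ P Vf Vc (shell G Fam.entry P.g.m P.g'.m) :=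
  Obs.obs_regulator' (obsPar_opar o) (fun G u hu => low_psd G Fam.entry entry_adm u hu) Ck ck R n0

/-! ## 4. Calculus of the point norm (text after (rg:analytic-norm)), for the sup norm D4' -/

theorem tnorm_mono {α : Type} [NormedAddCommGroup α] (g : Grid G) (X Y : Finset g.I) (h : X ⊆ Y) (f : G.V → α) :
    tnorm g X f ≤ tnorm g Y f :=
  Hol.tnorm_mono g X Y h f

/-- coarse test directions are fine test directions -/
theorem tnorm_coarse {α : Type} [NormedAddCommGroup α] {D0 ℓ : ℕ} (P : Pair G D0 ℓ) (X : Finset P.g.I) (Y : Finset P.g'.I)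
    (h : P.N.cl X ⊆ Y) (f : G.V → α) : tnorm P.g X f ≤ tnorm P.g' Y f :=
  Hol.tnorm_coarse P X Y h f

theorem ptNorm_mul (h0 : ℝ≥0) (g : Grid G) (X X' Y : Finset g.I) (hX : X ⊆ Y) (hX' : X' ⊆ Y) (F F' : Fn G) (φ : G.V → ℝ) :
    ptNorm h0 g Y (F * F') φ ≤ ptNorm h0 g X F φ * ptNorm h0 g X' F' φ :=
  Hol.ptNorm_mul h0 g X X' Y hX hX' F F' φ

theorem ptNorm_coarse {D0 ℓ : ℕ} (P : Pair G D0 ℓ) (h0 : ℝ≥0) (X : Finset P.g.I) (Y : Finset P.g'.I)
    (h : P.N.cl X ⊆ Y) (F : Fn G) (φ : G.V → ℝ) : ptNorm h0 P.g' Y F φ ≤ ptNorm h0 P.g X F φ :=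
  Hol.ptNorm_coarse P h0 X Y h F φ

theorem ptNorm_conv (h0 : ℝ≥0) (g : Grid G) (X : Finset g.I) (Γ : Matrix G.V G.V ℝ) (F : Fn G) (φ : G.V → ℝ) :
    ptNorm h0 g X (conv Γ F) φ ≤ ∫⁻ ζ, ptNorm h0 g X F (φ + ζ) ∂(gauss G Γ) :=
  Hol.ptNorm_conv h0 g X Γ F φ

/-- re-centring: a real translation of norm `< h₀ - h₁` -/
theorem ptNorm_recentre (h0 h1 : ℝ≥0) (g : Grid G) (X : Finset g.I) (F : Fn G) (φ f : G.V → ℝ) (hf : tnorm g X f + h1 ≤ h0) :
    ptNorm h1 g X F (φ + f) ≤ ptNorm h0 g X F φ :=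
  Hol.ptNorm_recentre h0 h1 g X F φ f hf

/-- GENERAL (Mathlib level): a holomorphic function of finitely many variables has a holomorphic derivative -/
theorem hol_fderiv {E W : Type} [NormedAddCommGroup E] [NormedSpace ℂ E] [FiniteDimensional ℂ E] [NormedAddCommGroup W] [NormedSpace ℂ W]
    [CompleteSpace W] (U : Set E) (hU : IsOpen U) (F : E → W) (hF : DifferentiableOn ℂ F U) : DifferentiableOn ℂ (fderiv ℂ F) U :=
  Hol.hol_fderiv U hU F hF

/-- GENERAL: holomorphy of a parameter integral: locally dominated -/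
theorem hol_integral {E Ω : Type} [NormedAddCommGroup E] [NormedSpace ℂ E] [FiniteDimensional ℂ E] [MeasurableSpace Ω] (μ : Measure Ω)
    (U : Set E) (hU : IsOpen U) (F : E → Ω → ℂ) (hF : ∀ ω, DifferentiableOn ℂ (fun z => F z ω) U)
    (hm : ∀ z ∈ U, AEStronglyMeasurable (F z) μ)
    (hb : ∀ z ∈ U, ∃ ε > 0, ∃ b : Ω → ℝ, Integrable b μ ∧ ∀ z' ∈ Metric.ball z ε, ∀ ω, ‖F z' ω‖ ≤ b ω) :
    DifferentiableOn ℂ (fun z => ∫ ω, F z ω ∂μ) U :=
  Hol.hol_integral μ U hU F hF hm hb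

theorem strip_isOpen (h : ℝ≥0) (g : Grid G) (X : Finset g.I) : IsOpen (strip h g X) :=
  Hol.strip_isOpen h g X

/-- closure of `Hol` under Gaussian convolution (domination: `|F (x + ζ + f)| ≤ N Wt (X, x + ζ)` with the SAME real centre `x` for all `z'` near `z = x + i y`) -/
theorem hol_conv (p : Par) (g : Grid G) (V : Extra g) (X : Finset g.I) (Γ : Matrix G.V G.V ℝ) (F : Fn G) (hF : Hol p.h0 g X F)
    (hfin : fnSize p g V X F ≠ ⊤) (hint : ∀ φ : G.V → ℝ, ∫⁻ ζ, ENNReal.ofReal (Wt g p.δ p.κ V X (φ + ζ)) ∂(gauss G Γ) ≠ ⊤) :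
    Hol p.h0 g X (conv Γ F) :=
  Hol.hol_conv p g V X Γ F hF hfin hint

/-- Cameron-Martin for a degenerate Gaussian, real shift `Γ η`, as an identity of measures -/
theorem gauss_shift (Γ : Matrix G.V G.V ℝ) (hΓ : Γ.PosSemidef) (η : G.V → ℝ) :
    (gauss G Γ).map (fun ζ => ζ + Γ.mulVec η)
      = (gauss G Γ).withDensity fun ζ => ENNReal.ofReal (Real.exp (η ⬝ᵥ ζ - (η ⬝ᵥ Γ.mulVec η) / 2)) :=
  Hol.gauss_shift Γ hΓ η

/-- complex Cameron-Martin: imaginary shift `i s Γ η`, for functions holomorphic in the strip with a regulator bound.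
(`s' ↦ E [F (z + ζ + s' Γη) e^{- s' ⟨η,ζ⟩ - s'² q / 2}]` is holomorphic near `[0, i s]`, constant for real `s'`; the exponential moments of the regulator come from `hint` at the
shifted real centres and `gauss_shift`, so NO reserve in the exponent is needed.) -/
theorem gauss_shift_im (p : Par) (g : Grid G) (V : Extra g) (X : Finset g.I) (Γ : Matrix G.V G.V ℝ) (hΓ : Γ.PosSemidef) (F : Fn G)
    (hF : Hol p.h0 g X F) (hfin : fnSize p g V X F ≠ ⊤)
    (hint : ∀ φ : G.V → ℝ, ∫⁻ ζ, ENNReal.ofReal (Wt g p.δ p.κ V X (φ + ζ)) ∂(gauss G Γ) ≠ ⊤)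
    (η : G.V → ℝ) (s : ℝ) (z : G.V → ℂ)
    (hz : tnorm g X (fun v => (z v).im) + (‖s‖₊ : ℝ≥0) * tnorm g X (Γ.mulVec η) < p.h0) :
    conv Γ F z = Complex.exp ((s ^ 2 * (η ⬝ᵥ Γ.mulVec η) / 2 : ℝ)) *
      ∫ ζ, Complex.exp (-(Complex.I * ((s * (η ⬝ᵥ ζ) : ℝ) : ℂ))) * F (z + toC ζ + (Complex.I * s) • toC (Γ.mulVec η)) ∂(gauss G Γ) :=
  Hol.gauss_shift_im p g V X Γ hΓ F hF hfin hint η s z hz

/-- the retained singleton `e_B^0`: uniform local bound (proof of P4.8, "For `P = e_B/2` ..") -/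
theorem eB_size (δ κ : ℝ) (h0 : ℝ≥0) (hδ : 0 < δ) (hκ : 0 < κ) : ∃ C : ℝ≥0, ∀ p : Par, p.δ = δ → p.κ = κ → p.h0 = h0 →
    ∀ (G : Geom) (g : Grid G), g.Ok → ∀ (V : Extra g) (B : g.I), fnSize p g V {B} (eBC g B) ≤ C :=
  Hol.eB_size δ κ h0 hδ hκ

/-- the retained singleton `c_B^α` -/
theorem cB_size (p : Par) (hδ : 0 ≤ p.δ) (hκ : 0 ≤ p.κ) (α : ℝ) (g : Grid G) (hg : g.Ok) (V : Extra g) (B : g.I) :
    fnSize p g V {B} (cBC g α B) ≤ 4 * ENNReal.ofReal (Real.exp (|α| * p.h0)) :=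
  Hol.cB_size p hδ hκ α g hg V B

/-! ## 5. Lemma 4.5 (`rg:localization`), Lemma 4.6 (`rg:charged`)  (= the gains quoted in [F] P4.2) -/

/-- **Lemma 4.5.**  `C` is chosen before `L = 2^ℓ`; it depends on the regulator constants, `h₀`, the radii, `n₀`, `cst`.
The sizes are `fnSize` at the coarse level on `\bar X`, regulator `W^κ e^{V_c}`. -/
theorem neutral_localization (R n0 : ℕ) (cst : ℝ≥0) (δ κ : ℝ) (h0 : ℝ≥0) (hδ : 0 < δ) (hκ : 0 < κ) (hh : 0 < h0) :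
    ∃ (C : ℝ≥0) (ℓ0 D1 : ℕ), ∀ (p : Par) (col : ℕ), p.δ = δ → p.κ = κ → p.h0 = h0 → 0 < p.ω →
      ∀ D0 ≥ D1, ∀ (G : Geom) (ℓ : ℕ), ℓ0 ≤ ℓ → ∀ (P : Pair G D0 ℓ) (Γ : Matrix G.V G.V ℝ)
      (Vf : Extra P.g) (Vc : Extra P.g'), Γ.PosSemidef → RegStable R n0 cst p.δ p.κ P Vf Vc Γ →
      ∀ (X : Finset P.g.I) (F : Fn G) (u : ℝ≥0∞), LocalInput p col R n0 P.g Vf X F u →
      ∀ H, H = conv Γ (chargeProj p.ω 0 F) →
        -- no evenness: constants only, gain `L⁻¹` (also at irregular end blocks)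
        fnSize p P.g' Vc (P.N.cl X) (fun ψ => H ψ - H 0) ≤ C * u * (2 ^ ℓ : ℝ≥0∞)⁻¹ ∧
        ((∀ ψ ∈ strip p.h0 P.g X, F (-ψ) = F ψ) →
          -- even: constants only, gain `L⁻²`
          fnSize p P.g' Vc (P.N.cl X) (fun ψ => H ψ - H 0) ≤ C * u * (2 ^ ℓ : ℝ≥0∞)⁻¹ ^ 2 ∧
          -- even, bulk: quadratic localisation, gain `L⁻³`
          (P.g.Bulk X → ∀ v0 ∈ P.g.sites X,
            ((‖H 0‖₊ : ℝ≥0∞) + ∑ i, ∑ j, (‖DX P.g v0 H i j‖₊ : ℝ≥0∞) ≤ C * u) ∧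
            fnSize p P.g' Vc (P.N.cl X) (fun ψ => H ψ - ∑ B ∈ X, Loc P.g X v0 H B ψ) ≤ C * u * (2 ^ ℓ : ℝ≥0∞)⁻¹ ^ 3)) :=
  Claimed.Agent.R285.Loc.neutral_localization R n0 cst δ κ h0 hδ hκ hh

/-- **Lemma 4.5, last assertion**: for `D = d · Id` the quadratic pieces at a full block sum to `d e_B / 2` (exact identity). -/
theorem loc_isotropic (g : Grid G) (hg : g.Ok) (B : g.I) (d : ℂ) (z : G.V → ℂ) :
    (1 / (2 * (g.m : ℂ) ^ 2)) * ∑ v ∈ g.sites {B}, (1 / 4 : ℂ) * ∑ ε : Fin 2 → Bool, ∑ i, pvec g z v ε i * d * pvec g z v ε i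
      = d / 2 * eBC g B z :=
  Claimed.Agent.R285.Loc.loc_isotropic g hg B d z

/-- **Lemma 4.6**, general form (rg:general-charge-gain) = [B] (4.26) quoted in [F] P4.2: one charge, shift amplitude `a`, `h₀ ≥ C₁ a`. -/
theorem charged_gain (Ck ck : ℝ) (ρ R n0 : ℕ) (cst : ℝ≥0) : ∃ C1 : ℝ, ∀ (δ κ : ℝ) (h0 : ℝ≥0), 0 < δ → 0 < κ → ∀ a : ℝ, 0 < a →
    C1 * a ≤ h0 → ∃ (C : ℝ≥0) (ℓ0 D1 : ℕ), ∀ (p : Par) (col : ℕ), p.δ = δ → p.κ = κ → p.h0 = h0 → 0 < p.ω →
      ∀ D0 ≥ D1, ∀ (G : Geom) (ℓ : ℕ), ℓ0 ≤ ℓ → ∀ (P : Pair G D0 ℓ) (Γ : Matrix G.V G.V ℝ)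
      (Vf : Extra P.g) (Vc : Extra P.g'), ShellOK Ck ck ρ P Γ → RegStable R n0 cst p.δ p.κ P Vf Vc Γ →
      ∀ (X : Finset P.g.I) (F : Fn G) (u : ℝ≥0∞), LocalInput p col R n0 P.g Vf X F u →
      ∀ v0 ∈ P.g.sites X, ∀ q : ℤ, q ≠ 0 →
        fnSize ⟨p.δ, p.κ / 2, p.h0, p.A, p.ω⟩ P.g' Vc (P.N.cl X) (conv Γ (chargeProj p.ω q F))
          ≤ C * u * ENNReal.ofReal (Real.exp (-(a * |(q : ℝ)| * (2 * Real.pi / p.ω) - a ^ 2 / 2) * Γ v0 v0
                + p.h0 * |(q : ℝ)| * (2 * Real.pi / p.ω))) :=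
  Chg.chg_charged_gain Ck ck ρ R n0 cst

/-- **Lemma 4.6** (rg:charge-gain): choices `h₀`, then `L`, then `α₀`. -/
theorem charged_contraction (Ck ck : ℝ) (hck : 0 < ck) (ρ R n0 : ℕ) (cst : ℝ≥0) (δ κ : ℝ) (hδ : 0 < δ) (hκ : 0 < κ) :
    ∃ h0 : ℝ≥0, 0 < h0 ∧ ∃ (C : ℝ≥0) (ℓ0 D1 : ℕ), ∀ ℓ : ℕ, ℓ0 ≤ ℓ → ∃ α0 : ℝ, ∀ (A ω : ℝ) (col : ℕ), 0 < ω → α0 ≤ 2 * Real.pi / ω →
      ∀ D0 ≥ D1, ∀ (G : Geom) (P : Pair G D0 ℓ) (Γ : Matrix G.V G.V ℝ) (Vf : Extra P.g) (Vc : Extra P.g'),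
      ShellOK Ck ck ρ P Γ → RegStable R n0 cst δ κ P Vf Vc Γ →
      ∀ (X : Finset P.g.I) (F : Fn G) (u : ℝ≥0∞), LocalInput ⟨δ, κ, h0, A, ω⟩ col R n0 P.g Vf X F u →
        ∑' q : {q : ℤ // q ≠ 0}, fnSize ⟨δ, κ, h0, A, ω⟩ P.g' Vc (P.N.cl X) (conv Γ (chargeProj ω q F))
          ≤ C * u * (2 ^ ℓ : ℝ≥0∞)⁻¹ ^ 4 :=
  Chg.chg_charged_contraction Ck ck hck ρ R n0 cst δ κ hδ hκ

/-- Fourier inversion in the constant mode (last lines of the proof of Lemma 4.6). -/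
theorem charge_inversion (p : Par) (hω : 0 < p.ω) (col : ℕ) (g : Grid G) (X : Finset g.I) (F : Fn G)
    (hF : LocalFn p col g X F) (z : G.V → ℂ) (hz : z ∈ strip p.h0 g X) : HasSum (fun q : ℤ => chargeProj p.ω q F z) (F z) :=
  Hol.charge_inversion p hω col g X F hF z hz

/-- the charge-`q` part is local, of the same size, and equivariant under COMPLEX constants inside the strip -/
theorem charge_proj (p : Par) (hω : 0 < p.ω) (col : ℕ) (g : Grid G) (V : Extra g) (X : Finset g.I) (F : Fn G)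
    (hF : LocalFn p col g X F) (q : ℤ) :
    LocalFn p col g X (chargeProj p.ω q F) ∧ fnSize p g V X (chargeProj p.ω q F) ≤ fnSize p g V X F ∧
    ∀ (z : G.V → ℂ) (c : ℂ), z ∈ strip p.h0 g X → (fun v => z v + c) ∈ strip p.h0 g X →
      chargeProj p.ω q F (fun v => z v + c) = Complex.exp (Complex.I * q * ((2 * Real.pi / p.ω : ℝ) : ℂ) * c) * chargeProj p.ω q F z :=
  Hol.charge_proj p hω col g V X F hF q

/-! ## 6. Proposition 4.8 (`rg:partition-map`) -/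

section abstractMap

variable {𝔸 : Type} [CommRing 𝔸] [Algebra ℂ 𝔸] {D0 ℓ : ℕ} (P : Pair G D0 ℓ) (r R : ℕ) (g' : Grid G)

open Classical in
/-- **P4.8, algebra, step 1**: from additivity and factorisation of `E` over `r`-separated closures (pure finite algebra). -/
theorem exact_step1 (hL : ∀ a b : P.g.I, P.g.idist a b ≤ R → P.g'.idist (P.N.up a) (P.N.up b) ≤ r)
    (E : 𝔸 → 𝔸) (K : Finset P.g.I → 𝔸)
    (hsum : E (ZA P.g R K) = ∑ V : Finset P.g.I, E (∏ X ∈ P.g.comps R V, K X))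
    (hfac : ∀ V : Finset P.g.I, E (∏ X ∈ P.g.comps R V, K X)
      = ∏ Y ∈ P.g'.comps r (P.N.cl V), E (∏ X ∈ P.g.comps R (V.filter fun a => P.N.up a ∈ Y), K X)) :
    E (ZA P.g R K) = ZA P.g' r (Ktil P r R E K) :=
  Alg.exact_step1 P r R E K hsum hfac

/-- **P4.8, algebra, step 2** (pure finite algebra; checked by brute force in a toy model). -/
theorem exact_step2 (hrR : r + 2 < R) (hg : g'.Ok) (Kt : Finset g'.I → 𝔸) (hKt : ∀ Y, ¬ g'.Conn r Y → Kt Y = 0)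
    (d : Desig g' 𝔸) (hd : d.Small r g') : ZA g' r Kt = ZA g' R (Hrel r R g' Kt d) :=
  Alg.exact_step2 r R g' hrR Kt d hd

/-- **P4.8, algebra, step 3** (pure finite algebra; checked by brute force in a toy model). -/
theorem exact_step3 (H : Finset g'.I → 𝔸) (d : Desig g' 𝔸) (hd : ∀ b, 1 + d.a b ≠ 0) :
    ZA g' R H = (∏ b : g'.I, (1 + d.a b)) • ZA g' R (Kext R g' H d) :=
  Alg.exact_step3 g' R H d hd

end abstractMap

/-- **P4.8, (rg:nonlinear-map), abstract form** = the "purely spatial enumeration".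
Radii, separation, per-block cost fixed; then `L = 2^ℓ ≥ 2^{ℓ0}`; then `A ≥ A₀ (L)`; then `C = C_{L,A}`, `ε₀`.
Uniform in the volume, the scale, the algebra and the sizes. -/
theorem nonlinear_map_abs (r R sep : ℕ) (hr : 2 ≤ r) (hs : sep < r) (hrR : r + 2 < R) (cst Cd : ℝ≥0) : ∃ (ℓ0 D1 : ℕ), ∀ ℓ ≥ ℓ0, ∃ A0 : ℝ≥0,
    ∀ A ≥ A0, ∃ (C ε0 : ℝ≥0), 0 < ε0 ∧ ∀ D0 ≥ D1, ∀ (G : Geom) (P : Pair G D0 ℓ) (𝔸 : Type) [CommRing 𝔸] [Algebra ℂ 𝔸]
      (E : 𝔸 → 𝔸) (S : SizeSys P R E) (K : Finset P.g.I → 𝔸) (d : Desig P.g' 𝔸), S.sep ≤ sep → S.cst ≤ cst →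
      d.Small r P.g' →
      ∀ ε : ℝ≥0, ε ≤ ε0 → S.nf A K ≤ ε → S.nd d ≤ Cd * ε →
        S.nc A (Kprime P r R E K d - Klin P R E K d) ≤ C * ε ^ 2 := by
  obtain ⟨n0, ℓ0, D1, hG⟩ := geometry_hyp r R hr
  refine ⟨ℓ0, D1, fun ℓ hℓ => ?_⟩
  obtain ⟨A0, hA0⟩ := Est.nonlinear_core r R sep n0 ((2 ^ (ℓ + 1)) ^ 2) hs hrR cst Cd
  refine ⟨A0, fun A hA => ?_⟩
  obtain ⟨C, ε0, hε0, h⟩ := hA0 A hA
  exact ⟨C, ε0, hε0, fun D0 hD G P 𝔸 _ _ E S K d => h D0 ℓ G P (hG D0 hD G ℓ hℓ P) 𝔸 E S K d⟩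

open Classical in
/-- **P4.8, large linear inputs, abstract form.**  `n0` = any threshold with the half-size property of Lemma 4.3. -/
theorem large_linear_abs (R n0 : ℕ) (cst η : ℝ≥0) (hη : 0 < η) (ℓ : ℕ) : ∃ A0 : ℝ≥0, ∀ A ≥ A0,
    ∀ (D0 : ℕ) (G : Geom) (P : Pair G D0 ℓ), (∀ X : Finset P.g.I, P.g.Conn R X → n0 < X.card → 2 * (P.N.cl X).card ≤ X.card) →
      ∀ (𝔸 : Type) [CommRing 𝔸] [Algebra ℂ 𝔸] (E : 𝔸 → 𝔸) (S : SizeSys P R E) (K : Finset P.g.I → 𝔸), S.cst ≤ cst →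
        S.nc A (fun Y => ∑ X ∈ Finset.univ.filter
          (fun X : Finset P.g.I => P.g.Conn R X ∧ n0 < X.card ∧ P.N.cl X = Y), E (K X)) ≤ η * S.nf A K := by
  obtain ⟨A0, h⟩ := Est.large_linear_core R n0 ((2 ^ (ℓ + 1)) ^ 2) cst η hη
  exact ⟨A0, fun A hA D0 G P hhalf 𝔸 _ _ E S K hcst => h A hA D0 ℓ G P hhalf (geometry_fibre P) 𝔸 E S K hcst⟩

/-! ### the scalar representation -/

section scalar

variable {D0 ℓ : ℕ} (P : Pair G D0 ℓ) (Γ : Matrix G.V G.V ℝ) (Vf : Extra P.g) (Vc : Extra P.g')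

/-- the sizes of the scalar representation form a `SizeSys` (product inequality, L4.4 / L9.2, monotonicity).  `hR`: the regulators of the `R`-components of a fine set multiply. -/
def scalarSizes (p : Par) (R n0 : ℕ) (cst : ℝ≥0∞) (hreg : RegStable R n0 cst p.δ p.κ P Vf Vc Γ)
    (hp : p.Adm P.g') (hR : max 5 Vf.sep ≤ R) : SizeSys P R (conv Γ) :=
  Scal.scalarSizes P Γ Vf Vc p R n0 cst hreg hp hR

/-- independence from finite range: the two hypotheses of `Alg.exact_step1_hom` with `φ` = evaluation at `z`.  `ρ + 1 < r`: range plus collars fit in the temporary radius.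
ONLY for `z` in the smallest strip (helper202, 15:00Z): outside the strips the `K X` are junk, the Bochner integrals need not split. -/
theorem conv_factor (p : Par) (hA : 0 < p.A) (ρ col r R n0 : ℕ) (cst : ℝ≥0) (hρ : ρ + 1 < r) (hcol : 2 * col < P.g'.m)
    (hL : R ≤ 2 ^ ℓ) (hR : max 5 Vf.sep ≤ R) (hΓ : Γ.PosSemidef)
    (hr : FinRange Γ (ρ * P.g'.m)) (K : Act P.g) (hK : Act.Ok p col R K) (hfin : actNorm p P.g Vf K ≠ ⊤)
    (hreg : RegStable R n0 cst p.δ p.κ P Vf Vc Γ) (z : G.V → ℂ) (hz : z ∈ strip p.h0 P.g' Finset.univ) :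
    (conv Γ (ZA P.g R K) z = ∑ V : Finset P.g.I, conv Γ (∏ X ∈ P.g.comps R V, K X) z) ∧
    ∀ V : Finset P.g.I, conv Γ (∏ X ∈ P.g.comps R V, K X) z
      = ∏ Y ∈ P.g'.comps r (P.N.cl V), conv Γ (∏ X ∈ P.g.comps R (V.filter fun a => P.N.up a ∈ Y), K X) z := by
  have hz' : z ∈ strip p.h0 P.g Finset.univ := Scal.strip_coarse _ P (Finset.subset_univ _) hz
  refine ⟨Scal.conv_ZA_strip P.ok hR Γ (fun X => (hK.fn X).hol) (Scal.fnSize_ne_top p hA P.g Vf K hfin)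
    (fun W φ => Scal.lintegral_Wt_ne_top ENNReal.coe_ne_top hreg W φ) hz', fun V => ?_⟩
  have h := Scal.conv_factor_strip hρ hcol hL hΓ hr hK.fn V (Scal.strip_anti _ P.g (Finset.subset_univ V) hz')
  unfold Alg.above at h
  convert h using 1

/-- **Proposition 4.8, (rg:exact-map)** = [F] (eq:exact-local-map), scalar representation, at every COMPLEX field of the smallest strip. -/
theorem exact_map (p : Par) (hA : 0 < p.A) (ρ col r R n0 : ℕ) (cst : ℝ≥0) (hρ : ρ + 1 < r) (hrR : r + 2 < R) (hcol : 2 * col < P.g'.m)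
    (hL : R ≤ 2 ^ ℓ) (hR : max 5 Vf.sep ≤ R)
    (hΓ : Γ.PosSemidef) (hr : FinRange Γ (ρ * P.g'.m)) (K : Act P.g) (hK : Act.Ok p col R K)
    (hfin : actNorm p P.g Vf K ≠ ⊤) (hreg : RegStable R n0 cst p.δ p.κ P Vf Vc Γ)
    (d : Desig P.g' (Fn G)) (hd : d.Ok p col r) (z : G.V → ℂ) (hz : z ∈ strip p.h0 P.g' Finset.univ) :
    conv Γ (ZA P.g R K) z = (∏ b : P.g'.I, (1 + d.a b)) * ZA P.g' R (Kprime P r R (conv Γ) K d) z :=
  Scal.exact_map_strip P Γ Vf Vc p hA ρ col r R n0 cst hρ hrR hcol hL hR hΓ hr K hK hfin hreg d hd z hz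

/-- the map preserves admissibility (period, locality, analyticity); the collar does not grow -/
theorem Kprime_ok (p : Par) (hA : 0 < p.A) (col r R n0 : ℕ) (cst : ℝ≥0) (hR : max 5 Vf.sep ≤ R)
    (K : Act P.g) (hK : Act.Ok p col R K)
    (hfin : actNorm p P.g Vf K ≠ ⊤) (hreg : RegStable R n0 cst p.δ p.κ P Vf Vc Γ)
    (d : Desig P.g' (Fn G)) (hd : d.Ok p col r) :
    Act.Ok p col R (Kprime P r R (conv Γ) K d) :=
  Scal.Kprime_ok P Γ Vf Vc p hA col r R n0 cst hR K hK hfin hreg d hd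

end scalar

/-- **Proposition 4.8 / [F] P4.2**, scalar representation: quadratic bound and its Lipschitz form (replaces "complex analytic with derivative bounds").
The Lipschitz form is obtained from the quadratic bound by the Schwarz lemma along complex lines (`Scal/Lip.lean`). -/
theorem nonlinear_map (r R n0 sepV : ℕ) (hs : max 5 sepV < r) (hrR : r + 2 < R) (cst Cd : ℝ≥0)
    (δ κ : ℝ) (h0 : ℝ≥0) :
    ∃ (ℓ0 D1 : ℕ), ∀ ℓ ≥ ℓ0, ∃ A0 : ℝ, ∀ A ≥ A0, ∃ (C ε0 : ℝ≥0), 0 < ε0 ∧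
      ∀ D0 ≥ D1, ∀ (ω : ℝ) (col : ℕ) (G : Geom) (P : Pair G D0 ℓ) (Γ : Matrix G.V G.V ℝ) (Vf : Extra P.g) (Vc : Extra P.g'),
      RegStable R n0 cst δ κ P Vf Vc Γ → Par.Adm ⟨δ, κ, h0, A, ω⟩ P.g' → Vf.sep ≤ sepV → Vc.sep ≤ sepV →
      ∀ (ε : ℝ≥0), ε ≤ ε0 → ∀ (K K₂ : Act P.g) (d d₂ : Desig P.g' (Fn G)),
        Act.Ok ⟨δ, κ, h0, A, ω⟩ col R K → Act.Ok ⟨δ, κ, h0, A, ω⟩ col R K₂ → d.Ok ⟨δ, κ, h0, A, ω⟩ col r → d₂.Ok ⟨δ, κ, h0, A, ω⟩ col r →
        actNorm ⟨δ, κ, h0, A, ω⟩ P.g Vf K ≤ ε → actNorm ⟨δ, κ, h0, A, ω⟩ P.g Vf K₂ ≤ ε →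
        d.size ⟨δ, κ, h0, A, ω⟩ Vc ≤ Cd * ε → d₂.size ⟨δ, κ, h0, A, ω⟩ Vc ≤ Cd * ε →
        actNorm ⟨δ, κ, h0, A, ω⟩ P.g' Vc (Kprime P r R (conv Γ) K d - Klin P R (conv Γ) K d) ≤ C * ε ^ 2 ∧
        actNorm ⟨δ, κ, h0, A, ω⟩ P.g' Vc
            ((Kprime P r R (conv Γ) K d - Klin P R (conv Γ) K d) - (Kprime P r R (conv Γ) K₂ d₂ - Klin P R (conv Γ) K₂ d₂))
          ≤ C * ε * (actNorm ⟨δ, κ, h0, A, ω⟩ P.g Vf (K - K₂)
              + Desig.size ⟨δ, κ, h0, A, ω⟩ Vc ⟨d.F - d₂.F, d.a - d₂.a⟩) :=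
  Scal.nonlinear_map_of_abs r R n0 sepV hs hrR cst Cd δ κ h0
    (nonlinear_map_abs r R (max 5 sepV) (by omega) hs hrR cst (Cd + 1))

/-! ## 7. Lemma 4.2 (`rg:green`) -/

/-- **Lemma 4.2**, (rg:green-value), (rg:green-difference). -/
theorem green_bounds : ∃ C : ℝ, ∀ (M : ℕ), 2 ≤ M → ∀ v w : VD M,
    0 ≤ greenD M v w ∧ greenD M v w ≤ C * (1 + Real.posLog ((M : ℝ) / (1 + distD v w))) ∧
    ∀ r : ℕ, 1 ≤ r → r ≤ 6 → ∀ a : Fin r → Fin 4,
      |difs a (liftD M fun v' => greenD M v' w) (((v.1 : ℕ) : ℤ) + 1, ((v.2 : ℕ) : ℤ) + 1)|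
        ≤ C * ((1 + (distD v w : ℝ)) ^ r)⁻¹ :=
  Green.green_bounds

/-- [F] L4.2, second bound (NEED of helper251): two killed Green functions with the pole at the centre differ by a function which is smooth at the scale of the smaller square.
Centred coordinates: the centre of the square of side `2 n` has coordinates `(n, n)`. -/
theorem green_compare : ∃ C c0 : ℝ, 0 < c0 ∧ ∀ n n2 : ℕ, 1 ≤ n → n ≤ n2 → ∀ (c : VD (2 * n)) (c2 : VD (2 * n2)),
    (c.1 : ℕ) + 1 = n → (c.2 : ℕ) + 1 = n → (c2.1 : ℕ) + 1 = n2 → (c2.2 : ℕ) + 1 = n2 →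
    ∀ r : ℕ, 1 ≤ r → r ≤ 5 → ∀ (a : Fin r → Fin 4) (x : ℤ × ℤ), (max |x.1| |x.2| : ℝ) ≤ c0 * n →
      |difs a (fun y => liftD (2 * n) (fun v => greenD (2 * n) v c) (y + ((n : ℤ), (n : ℤ)))
          - liftD (2 * n2) (fun v => greenD (2 * n2) v c2) (y + ((n2 : ℤ), (n2 : ℤ)))) x| ≤ C * ((n : ℝ) ^ r)⁻¹ :=
  Green.green_compare

/- `green_continuum` (L4.2, continuum limit) DELETED 18:15Z (ruling R3 of helper87): no consumer. -/

end

end Claimed.Agent.R285.B4
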