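import Claimed.Agent.R285.Read.F4a
import Claimed.Agent.R285.Base.Spaces
import Claimed.Agent.R285.Ent.Top

/-!
# ROW 285, post BP-READ-F4b: [F] `cutoff-entry.tex` l.952-end  (owner helper56)
   s4.5 "The initialization statement" (reserve, parameter order, **Theorem 4.6** `ent:initialization`), s4.6 "The finite expansion and the occupied cover",
   s4.7 "Bounds for the pattern sums" (**Lemma 4.7** `ent:pattern-estimate`, completion of T4.6).   Read together with [B] s9 (`entry.tex`), [E] s3.1-3.2, [C] s5.3.
VERSION 2 (14:40Z): vocabulary of `Read/F4a.lean` v3 (`Top c`, `Hav`, `tauU`, `ZA1`, `TargetOrd`, `TargetLab`, `IsObs`) and `Base/RG.lean` v3.1 (COMPLEX fields, `Par`), `Base/Spaces.lean` (plane = copy-consistent families).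
  No plane object is left: all copy statements are between TWO finite volumes (`CopyAt`).  The base point `b₀` and `a = aLim b₀ > 0` are VARIABLES.

## K1 verdicts.  NO FATAL ITEM.
* **(ent:large-field-reserve) OK**: two lines from (ent:pointwise-cutoff) + (ent:face-energy-upper) (F4a).  I re-derived (ent:face-tilt) and the choice `t_f = δ sgn(w_f) min(|w_f|, s)`: correct.
* **Parameter order OK**; it is made visible in the quantifiers of `initialization`: radii; `c_*`, `q`; norms (`h_*, p_1, p_2`; `δ, κ`; `h₀`, strips; `A_w`); `R` (`P = R⁵`); `U_big`; `s`.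
  `L` plays NO role in T4.6 (only `q R s = L^{j₀}` for the later use), so it does not occur below.
* **T4.6 statement: repairable prose bundle, REPAIRED here.**
  (a) `v_n`, `v_∞` are eliminated: `𝓗^τ(ψ)` depends on `ψ + v/α` only, so all unit-sector objects are functions of the TOTAL field `Ψ = ψ + v_n/α` (`KT`, `JT`; identity = `TargetLab` with `v = 0`);
      `v_n` only enters the NORM bounds (`normK`, `normJ`).  (ent:plane-background) becomes "`KT`, `JT` of two centred squares are copies of each other" (`copyK`, `copyJ`): no plane branch is needed;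
      in the variables of the paper: `K^{τ,n₁}(X, ψ) = K^{τ,n₀}(X, ψ + (v_{n₁} - v_{n₀})/α)`.
  (b) (ent:translated-copy): `λ_X = v_n/α + ω κ`, `κ` an integral gauge with `∇κ = τ` on the rectangle spanned by `D_m(X)`; such a `κ` exists iff the rectangle misses the source (`transl`).
  (c) plane activities are replaced by `CopyAt` between two volumes (torus-torus = `RG.Copy`, torus-square, square-square); "unwraps / misses the wall" = `Fits` (bounding square + `c0` blocks of padding).
  (d) "finite list of norms": the construction `D : EntryData` is chosen BEFORE the norms; "the sector norm may use the weaker weight and stronger regulator": absorbed, because the bound is asserted for EVERY admissible norm.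
  (e) [E] P3.1 is the same statement with `b` in the complex disk `|b - b_c| < c_R s⁻²`: merged (`BulkOK.hol`, `.norm`, `.ident` for real `b`).  (eq:entry-cauchy) follows by Cauchy (`Spaces.lp_differentiableOn`).
* **s4.6 finite expansion: OK as algebra** (checked: the binary identity is a trivial telescope for ANY numbers `𝓑_i`; the no-mark divisor; one marker per term; the `D_s σ_z²` terms telescope).  It is a PROSE ALGORITHM:
  the real content is four locality lemmas: (α) the proxy of a considered event does not depend on the signed choices of earlier marks (skip radius > patch + core radius); (β) proxies and tile factors off the halos coincide with the no-mark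
  ones; (γ) the halo factor of far apart groups of marks factorises; (δ) every volume-dependent link coefficient carries a tag which obstructs the copy test.
  **REPAIR of (δ) (no plane inverse, no periodisation, no infinite sums, no wall links):** DYADIC BOX TELESCOPING.  With `T_i` the no-mark path and `O_i^k` the box of radius `2^k · 5R` around the event `i` (`O_i^0` = open patch, `O_i^k` = everything for large `k`),
  `E_𝒢 - E_asm = ∑_i ∑_{k ≥ 0} [(E_{T_{i-1}|O_i^{k+1}} - E_{T_i|O_i^{k+1}}) - (E_{T_{i-1}|O_i^k} - E_{T_i|O_i^k})]`: every bracket is a four-graph difference of `F4a.guarded_face_error` with guard distance `≥ c 2^k R`, so its matrix entries are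
  `≤ C exp(-c (2^k R + d(f,f') + d({f,f'}, core_i)))`.  A link is `(i, k, f, f')`; its cover is the CROSS through the event with arm length `rad O_i^{k+1}` plus paths to `f, f'` (linear length).  If the bounding square of the cover fits in two volumes, the
  box `O_i^{k+1}` is the same graph in both: exact copying, finitely many links, torus and free square treated alike.
* **L4.7: OK, no gap found; very long.**  Checked step by step: `δ_i ≤ 1` and conditional integration (no independence used); double telescoping of centred normalisers (restoration ratio = probability of a centred lattice event, so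
  open patch ≤ true ≤ zero guard, gap ≤ `D(H,p)`); seam inequality (ent:seam-joint) = ratio monotonicity on the fibre; simultaneous Markov for the translate; (ent:one-mark-identity) (re-derived); `|(x-1)/(x+1)| ≤ min(1, |log x|)`;
  Hölder over the marks of a box; threshold charge; form domination (ent:dominating-open-energy); Gaussian completion (ent:entry-completion) (exact); trace bound; order `U_big` before `s`;
  **(ent:complex-comparison) is TRUE and has a 3-line proof from the doubling identity**: `w(x+ik) w(0) = ∑_d z_d(x+ik)²`, `w(ik) w(x) = ∑_d |z_d(x+ik)|²` (= `lsys_master` of Base/Height, `Entry.lsys_theta`);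
  (ent:imaginary-shape) exact; three lines with damping `exp(-γ z² |X|)`; with the sup norm D4' Cauchy + polarisation disappear.  SOFT INPUTS (no rate): [C] T3.1 (Laplace limits with penalties), T3.2 + L3.9 (conditional pins), only on FINITELY many box shapes.
  The factor `W ≥ 1` is free in the real estimate; it is only used for translations.
* **Completion: OK** (placement sum, tree bound `T ≤ ε_R`, labelled root, Tonelli; filled entries: half-rectangle `t ≥ m/3`, `λ_ext = c + χ(t/m)(λ_X - c)`, `|∇λ_ext| ≤ C/m`, `|∇²λ_ext| ≤ C/m²`).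

## (i) Imports from other posts
F4a: L4.2 (`ent:center-background`), L4.3, L4.4 (`ent:cutoff-bounds`), L4.5 (`ent:face-localization`);  B4: `obs_extra`, norm calculus;  B9 toolkit `R285/Entry/*`: [B] (9.16), (9.26), (9.29), (9.31), (9.34);
B3: Gaussian localisation [B] P3.14, pin interaction;  C2: comparisons ([F] P2.2);  C3: [C] T3.1, T3.2, L3.9 (= [F] P2.3);  E23: [E] L2.x `lem:finite-perturbation`.
## (ii) External theorems really used: none (Hadamard three lines, two-constants theorem, Gaussian integrals: Mathlib or elementary).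

## ONE ENGINE.  [B] T9.1, [C] L5.3, [F] T4.6, [E] P3.1 are four runs of the same expansion with different physical weights.  The cut of this post is in `R285/Ent/*.lean` (see `R285/Ent/If.lean`).
ALL DEFINITIONS of this contract (`Vol`, `Fits`, `CopyAt`, `NormLE`, `shiftA`, `EntryData`, `Vol.Adm`, `BulkOK`, `UnitOK`, `CopyOK`; namespace `F4b`, unchanged) now live in `R285/Ent/Vol.lean` (no sorry), so that the proof can import them.
-/

set_option autoImplicit false

namespace Claimed.Agent.R285.F4b

open scoped BigOperators ENNReal NNReal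
open MeasureTheory ProbabilityTheory
open Claimed.Agent.R285 Claimed.Agent.R285.RG Claimed.Agent.R285.B4 Claimed.Agent.R285.F4a

noncomputable section

/-- **[F] Theorem 4.6 (cutoff entry with one compulsory component) + [E] Proposition 3.1 (analytic initialization).**
`b₀ > 0` with `a = aLim b₀ > 0` (in [F], [E]: `b₀ = b_c`, `a = 8π`).  Polymer radius `RR`, collar `0`.
Order of the choices: `c_*`, `δ₀`, `q = 2^{kq}`, the multiple `cmk` of `sP`, the padding `c0` and THE CONSTRUCTION `D`; then the norm (`o`, `δ`, `κ`, `h₀`, `A_w`);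
then `C, c`; then `R = 2^{kR}` large; then `C_R, c_R`; then `s = 2^{ks}` large; then the volumes. -/
theorem initialization (b0 a : ℝ) (hb0 : 0 < b0) (ha : 0 < a) (hab : aLim b0 = a) :
    ∃ (cstar δ0 : ℝ) (kq cmk c0 : ℕ) (D : EntryData), 0 < cstar ∧ cstar < 1 ∧ 0 < δ0 ∧
    ∀ o : ObsPar, o.a = a → 1 - cstar < o.hstar → ∀ δ ∈ Set.Ioc 0 δ0, ∃ κ0 > (0 : ℝ), ∀ κ ∈ Set.Ioc 0 κ0,
    ∀ (h0 : ℝ≥0) (A : ℝ), 1 ≤ A →
    ∃ (C c : ℝ) (k1 : ℕ), 0 < c ∧ ∀ kR ≥ k1, ∃ (CR cR : ℝ) (k0 : ℕ), 0 < cR ∧ ∀ ks ≥ k0,
      ((D.Cst (2 ^ ks) (2 ^ kq * 2 ^ kR * 2 ^ ks)).card ≤ CR ∧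
        {(0, 0), (-1, 0), (0, -1), (-1, -1)} ⊆ D.Cst (2 ^ ks) (2 ^ kq * 2 ^ kR * 2 ^ ks)) ∧
      ∀ 𝒱 : Vol, 𝒱.Adm (2 ^ kq) (2 ^ kR) (2 ^ ks) →
        BulkOK D b0 a ⟨δ, κ, h0, A, 2 * Real.pi / Real.sqrt a⟩ o (cR / ((2 : ℝ) ^ ks) ^ 2) (C * Real.exp (-c * 2 ^ kR)) 𝒱 ∧
        (𝒱.G.bc = BC.free → cmk * (2 ^ ks * (2 ^ kR) ^ 5) ≤ 𝒱.G.M →
          UnitOK D b0 a ⟨δ, κ, h0, A, 2 * Real.pi / Real.sqrt a⟩ o (C * Real.exp (-c * 2 ^ kR)) (CR * ((2 : ℝ) ^ ks) ^ CR) 𝒱) ∧
        ∀ 𝒱' : Vol, 𝒱'.Adm (2 ^ kq) (2 ^ kR) (2 ^ ks) →
          CopyOK D b0 h0 c0 (cR / ((2 : ℝ) ^ ks) ^ 2) (cmk * (2 ^ ks * (2 ^ kR) ^ 5)) 𝒱 𝒱' :=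
  Ent.ent_main Ent.top_phys Ent.mj_main Ent.ent_link Ent.ent_ident (Ent.cx_norm Ent.av_avg Ent.av_cost) Ent.cx_hol_main Ent.ent_prop Ent.etr_sym
    Ent.top_copy Ent.etr_gauge Ent.eta_main (Ent.cx_normU Ent.av_avg Ent.av_cost) Ent.cx_holU_main Ent.geo_unit b0 a hb0 ha hab

end

end Claimed.Agent.R285.F4b
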