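import Claimed.Agent.R285.Dg.Uv
import Claimed.Agent.R285.Dg.Tow
import Claimed.Agent.R285.Dg.Ref
import Claimed.Agent.R285.Dg.Lat

/-!
# ROW 285, post BP-BC-2 (owner helper136): `bc1_dg_rough` = roughness of ONE discrete Gaussian torus law      ([B] P8.2, P8.3 no cosine, P8.6 (ii))

LAYOUT v2 (helper12, 17:50Z): definitions `Dg/Defs.lean` (+ `IsRef`, `refCov`); contracts: `Dg/Pure.lean` (U0, S2a, R5; Mathlib only), `Dg/Uv.lean` (U1, U2, U4, S4), `Dg/Tow.lean` (S1, S2, S3a, S3), `Dg/Ref.lean` (U3, R1, R2), `Dg/Lat.lean` (R3, R4, R6).  THIS FILE = the glue only (no sorry here).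
FIX (helper172, helper136): the polynomial shells carry a constant mode, so `C₁ := refCov = shell (L^j0) (L^(j0+n)) + Γ_*` is `IsRef` (terminal + constant mode), not `IsTerminal`.

TARGET `dg_rough2` = `BC1.bc1_dg_rough` verbatim: `∃ κ L c, 0 < κ ∧ 2 ≤ L ∧ 0 < c ∧ ∀ᶠ N, c ≤ dgTorVar κ (L^N)`.   PROVED here from (T1) `rg_part` (PROVED from the contracts of s5-6) and (T2) `lattice_part`.
This file REPLACES s6-7 of `Read/B8.lean` (`uv_rep`, `dg_complete`, `shooting`, `terminal_small`, `dgVarG_eq`, `dg_shot`): those statements are correct but more expensive.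

## K1 ([B] weak-height.tex l.428-570 P8.2, l.641-733 P8.3, l.1043-1125 P8.6 (ii)): NO FATAL.  Everything re-derived by hand; FOUR SIMPLIFICATIONS of the route:
* **(1) P8.2 disappears** (idea of helper49).  `dgTorVar κ n ≥` second moment of ANY lattice Gaussian with more precision (R3).  Reference law: `σ = φ + η + t`, `σ ∈ ω ℤ^V`, `η` white noise of variance `v`,
  `φ ~ C₁ = C_{≥ u}` (terminal covariance of `Fam.entry` at the side `u = L^{j0}` = all shells from `u` on), weight `exp (s (φ, A φ)/2)` on the SMOOTH field, `t` free constant.  Summing the comb: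
  `∏_x w (φ_x + t)`, `w (y) = ω ∑_n g_v (ω n - y) → 1` in every strip as `v → ∞`.  So `Z₀ = ∏_B (1 + k_B)`, `k_B = e^{s e_B/2} ∏_{x ∈ B} w - 1`: NO polymer expansion, NO `C_uv`, NO conditional comb expectations, `a'` FIXED; `v` is chosen LAST.
  Price: `κ = ω²/(2 (12 v + 1))` is tiny (irrelevant) and the reference precision `Q = (v + C₁ (1 - s A C₁)⁻¹)⁻¹` must be compared with `κ' A` (R2: polynomials in `A` and ONE matrix inverse).
* **(2) shooting PER TORUS, in RAW coordinates.**  `t₊ = t + P_j R` exactly, `|P_j| ≤ C_P`.  Window `|t_j| ≤ D x θ₃^j` with `C_P < D (1 - θ₃)`: a history on the boundary of the window leaves it at the next step, so nested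
  intervals + IVT give a survivor (`shoot_raw`).  No balancing (8.17), no plane/torus consistency (`Copy`), no limit `N → ∞` of `s`: `s = s_N` may depend on the torus because (R3) compares EVERY `Q_N (s_N)`, `|s_N| ≤ 1/4`, with the same `κ`.
* **(3) REAL sources only.**  `E cosh (rX) ≥ 1 + η` and `E cosh (2rX) ≤ K` imply `E X² ≥ η e^{-T²/2}/r²` (R5).  No second logarithmic derivative, no complex Cameron-Martin shift, no Cauchy estimate in the source.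
* **(4) only smallness** (not decay) of the last activity is used; the terminal integration is a bounded sum of polymers (`Tow.OK.term`).
Checked identities: source `f` (`∑ f = 0`), `η = f - s v A f`, `F = C₁ η + v f`, `E = (η, C₁ η)/2 + v |f|²/2 - s v² (f, A f)/2`:
  `∑_h e^{(f, ω h)} refW (ω h) = e^E ω^{-|V|} ∫_0^ω E_{C₁} Z₀ (· + F + t) dt` for ANY psd `C₁`;  first cosine, `a M² = 4 w₁`: `E → a² M⁴/(16 π²)·(1 + o(1))`, i.e. `Var → a'/(8π²)` as in the paper.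
Verdicts on the paper's own steps: P8.2 (fixed `J`, weak bounds) OK (sketch, correct); P8.3 no-cosine, `a'` large after `L`: OK = `B8.weak_step_high`; shooting l.1043-1098 OK; completion of the square l.1100-1110 OK; terminal integration OK.

## Order of the constants
radii, kernels, `n₀` (`Geo`); `δ`; `κ_reg`; `h₀`; `θ = 1/4`; `ℓ`; `D₀ = L^d`; `j0 = 1`; `α₀ → ω`; `A`; `(C, ε₀)`; terminal `(C_t, w₁, ε₁)`  [= `Tow`];  then `(ε, c_v)` from `(ω, w₁)` (T2);  `D`, `x`;  `dw`;  `v`;  `κ`;  `M₀`.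

## (i) Imports from other posts
B4: `exists_terminal`, `entry_adm`, `gauss_shift`, `eB_size`, `shellOK_of_fam`, `geometry_closure`, `regulator`, `regulator_mono`, `regulator_add`, `regulator_terminal`, `terminal_bounds`.   B8: `Sc`, `Step`, `WeakOK`, `weak_step_high`, `cov_sym`.
NEED (helper202): linearity of `Step.Pt`, `Step.Clin` on admissible activities of finite norm (then `HighOK.lipF` follows from `proj`, `contr`, `lip`).    Bc (helper172): the PSD lemmas of `Bc/Comp.lean` for (R3).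
## (ii) External theorems really used: none.
-/

set_option autoImplicit false

namespace Claimed.Agent.R285.BC2

open scoped BigOperators ENNReal NNReal
open MeasureTheory ProbabilityTheory Polynomial Filter Topology
open Claimed.Agent.R285.RG Claimed.Agent.R285.B8

noncomputable section

variable {G : Geom}

/-! ## 7. GLUE: the renormalisation group part -/

/-- finitely many positive upper bounds -/
theorem exists_small (l : List ℝ) (h : ∀ b ∈ l, 0 < b) : ∃ x : ℝ, 0 < x ∧ ∀ b ∈ l, x ≤ b := by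
  induction l with
  | nil => exact ⟨1, one_pos, by simp⟩
  | cons a l ih =>
    obtain ⟨x, hx, H⟩ := ih fun b hb => h b (List.mem_cons_of_mem _ hb)
    refine ⟨min a x, lt_min (h a List.mem_cons_self) hx, fun b hb => ?_⟩
    rcases List.mem_cons.1 hb with rfl | hb
    · exact min_le_left _ _
    · exact (min_le_right _ _).trans (H b hb)

/-- **(T1) the RG part**: for the reference model with strong white noise there is, on every torus of the tower, an input `s` at which the full interaction integral is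
constant within `ε` on the backgrounds `w cos (2π x₁/n) + θ`, `|w| ≤ w₁`.   PROVED from the contracts. -/
theorem rg_part : ∃ (sc : Sc) (j0 : ℕ) (ω w1 : ℝ), 2 ≤ sc.L ∧ (∃ d : ℕ, sc.D0 = sc.L ^ d) ∧ 0 < ω ∧ 0 < w1 ∧ ∀ ε : ℝ, 0 < ε → ∃ v0 : ℝ, 0 < v0 ∧ ∀ v, v0 ≤ v →
    ∀ (n : ℕ) (Γs : Matrix (sc.T (j0 + n)).V (sc.T (j0 + n)).V ℝ), IsTerminal (sc.T (j0 + n)) Fam.entry (sc.L ^ (j0 + n)) Γs →
      ∃ s : ℝ, |s| ≤ 1 / 4 ∧ ∃ c : ℝ, 0 < c ∧ ∀ w θ : ℝ, |w| ≤ w1 →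
        |(conv (refCov (sc.T (j0 + n)) (sc.L ^ j0) (sc.L ^ (j0 + n)) Γs) (Z0 (sc.T (j0 + n)) (wt1 v ω) s)
          (toC fun x => w * cos1 (sc.T (j0 + n)) x + θ)).re - c| ≤ ε * c := by
  obtain ⟨T, hT⟩ := tow_exists
  obtain ⟨D, x1, hD, hx1, Hshoot⟩ := dg_shoot T hT
  obtain ⟨Ce, hCe, Hkof⟩ := kof_bound T.δ T.κ T.hh hT.δ_pos hT.κ_pos
  obtain ⟨Cu, s1, d1, hCu, hs1, hd1, Huv⟩ := uv_bound T.c hT.geo T.δ T.κ T.hh T.A hT.δ_pos hT.κ_pos hT.A_ge (T.sc.L ^ T.j0)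
  refine ⟨T.sc, T.j0, T.ω, T.w1, hT.L_ge, hT.D0_pow, hT.ω_pos, hT.w1_pos, fun ε hε => ?_⟩
  have hA : 0 < T.A := lt_of_lt_of_le one_pos hT.A_ge
  have hD1 : 0 < D + 1 := by linarith
  have hε0 : (0 : ℝ) < T.ε0 := hT.ε0_pos
  have hK : 0 < Ce * T.A * (D + 1) := by positivity
  obtain ⟨x, hx, Hx⟩ := exists_small [x1, (T.ε0 : ℝ) / (D + 1), s1 / D, 1 / 4 / D, T.ε1 / (Ce * T.A * (D + 1)),
      ε / ((|T.Ct| + 1) * (Ce * T.A * (D + 1))), 1 / (2 * Cu * D ^ 2)] (by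
    intro b hb
    simp only [List.mem_cons, List.not_mem_nil, or_false] at hb
    have := hT.ε1_pos
    rcases hb with rfl | rfl | rfl | rfl | rfl | rfl | rfl <;> positivity)
  have hxa : x ≤ x1 := Hx _ (by simp)
  have hxb : (D + 1) * x ≤ T.ε0 := by
    have := Hx ((T.ε0 : ℝ) / (D + 1)) (by simp)
    rw [le_div_iff₀ hD1] at this; linarith
  have hxc : D * x ≤ s1 := by
    have := Hx (s1 / D) (by simp)
    rw [le_div_iff₀ hD] at this; linarith
  have hxd : D * x ≤ 1 / 4 := by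
    have := Hx (1 / 4 / D) (by simp)
    rw [le_div_iff₀ hD] at this; linarith
  have hxe : Ce * T.A * ((D + 1) * x) ≤ T.ε1 := by
    have := Hx (T.ε1 / (Ce * T.A * (D + 1))) (by simp)
    rw [le_div_iff₀ hK] at this; nlinarith
  have hxf : T.Ct * (Ce * T.A * ((D + 1) * x)) ≤ ε := by
    have := Hx (ε / ((|T.Ct| + 1) * (Ce * T.A * (D + 1)))) (by simp)
    rw [le_div_iff₀ (by positivity)] at this
    have h1 : T.Ct ≤ |T.Ct| + 1 := (le_abs_self _).trans (by linarith)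
    have h2 : 0 ≤ Ce * T.A * ((D + 1) * x) := by positivity
    calc T.Ct * (Ce * T.A * ((D + 1) * x)) ≤ (|T.Ct| + 1) * (Ce * T.A * ((D + 1) * x)) := mul_le_mul_of_nonneg_right h1 h2
      _ = x * ((|T.Ct| + 1) * (Ce * T.A * (D + 1))) := by ring
      _ ≤ ε := this
  have hxg : Cu * (D * x) ^ 2 ≤ x / 2 := by
    have := Hx (1 / (2 * Cu * D ^ 2)) (by simp)
    rw [le_div_iff₀ (by positivity)] at this
    nlinarith
  -- the site factor
  have hdw : 0 < min d1 (x / (2 * Cu)) := lt_min hd1 (by positivity)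
  obtain ⟨v0, hv0, Hw⟩ := wt1_ok T.ω hT.ω_pos T.hh _ hdw
  refine ⟨v0, hv0, fun v hv n Γs hΓs => ?_⟩
  have hC1 := isRef_tower T.sc T.j0 n Γs hΓs
  have hw := Hw v hv
  have hg0 : (T.sc.lev (T.j0 + n) T.j0).Ok := T.sc.lev_ok _ _
  have hgn : (T.sc.lev (T.j0 + n) (T.j0 + n)).Ok := T.sc.lev_ok _ _
  have hm0 : (T.sc.lev (T.j0 + n) T.j0).m = T.sc.L ^ T.j0 := by
    show T.sc.L ^ (min T.j0 (T.j0 + n)) = _
    rw [min_eq_left (Nat.le_add_right _ _)]
  have huv := fun (s : ℂ) (hs : ‖s‖ ≤ s1) => Huv T.ω _ _ hT.ω_pos hw (min_le_left _ _) (T.sc.T (T.j0 + n)) (T.sc.lev (T.j0 + n) T.j0)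
    (T.sc.lev (T.j0 + n) 0) rfl hg0 hm0 s hs
  have hnorm : ∀ s : ℝ, ‖(s : ℂ)‖ = |s| := fun s => by simp
  obtain ⟨s, hs, Hh⟩ := Hshoot x hx hxa n (fun s : ℝ => R0 (T.sc.lev (T.j0 + n) T.j0) T.c.R (wt1 v T.ω) (Step.alpha T.ω) (s : ℂ)) Cu
    (fun s hs => by
      have h1 : ‖(s : ℂ)‖ ≤ s1 := by rw [hnorm]; exact hs.trans hxc
      obtain ⟨ha, hb, hc, -⟩ := huv s h1
      refine ⟨ha, hc (by simp), hb.trans (ENNReal.ofReal_le_ofReal ?_)⟩
      rw [hnorm]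
      have h2 : |s| ^ 2 ≤ (D * x) ^ 2 := pow_le_pow_left₀ (abs_nonneg _) hs 2
      have h3 : min d1 (x / (2 * Cu)) ≤ x / (2 * Cu) := min_le_right _ _
      have h4 : Cu * (x / (2 * Cu)) = x / 2 := by field_simp
      nlinarith)
    (fun s s' hs hs' => by
      have h1 : ‖(s : ℂ)‖ ≤ s1 := by rw [hnorm]; exact hs.trans hxc
      have h1' : ‖(s' : ℂ)‖ ≤ s1 := by rw [hnorm]; exact hs'.trans hxc
      have := (huv s h1).2.2.2 s' h1'
      rwa [← Complex.ofReal_sub, hnorm] at this)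
  -- the chain
  have hKof : Kof (T.sc.lev (T.j0 + n) T.j0) (Step.alpha T.ω) ((s : ℂ), 0, R0 (T.sc.lev (T.j0 + n) T.j0) T.c.R (wt1 v T.ω) (Step.alpha T.ω) (s : ℂ))
      = K0 (T.sc.lev (T.j0 + n) T.j0) T.c.R (wt1 v T.ω) (s : ℂ) := by
    simp [Kof, R0]
  have hs4 : |s| ≤ 1 / 4 := hs.trans hxd
  have hLpos : ∀ k : ℕ, 1 ≤ T.sc.L ^ k := fun k => Nat.one_le_pow _ _ T.sc.L_pos
  obtain ⟨cst, hcst, Hc⟩ := dg_chain T hT n _ (fun i hi => ⟨(Hh i hi).1, (Hh i hi).2.1, (Hh i hi).2.2.trans (by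
      rw [← ENNReal.ofReal_coe_nnreal]; exact ENNReal.ofReal_le_ofReal hxb)⟩) Γs hΓs (fun φ => by
    rw [hKof, Z0_eq_ZA]
    exact Z0_integrable rfl _ (hLpos _) _ hC1 _ _ _ _ hw s hs4 φ)
  rw [hKof, Z0_eq_ZA] at Hc
  obtain ⟨hok, hsm⟩ := Hkof T.A T.ω T.c hT.A_ge hT.geo (T.sc.T (T.j0 + n)) (T.sc.lev (T.j0 + n) (T.j0 + n)) (T.sc.lev (T.j0 + n) 0) hgn _
    (Hh n le_rfl).2.1 (Hh n le_rfl).1 _ (Hh n le_rfl).2.2
  refine ⟨s, hs4, ‖cst‖, norm_pos_iff.2 hcst, fun w θ hwθ => ?_⟩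
  have hterm := hT.term (T.j0 + n) (Nat.le_add_right _ _) Γs hΓs _ hok _ (by positivity) hxe hsm w θ hwθ
  have hY := hterm.trans hxf
  obtain ⟨him, hre⟩ := Z0_conv_nonneg (refCov (T.sc.T (T.j0 + n)) (T.sc.L ^ T.j0) (T.sc.L ^ (T.j0 + n)) Γs) _ _ _ _ hw s (fun x => w * cos1 (T.sc.T (T.j0 + n)) x + θ)
  have hV := Hc (fun x => w * cos1 (T.sc.T (T.j0 + n)) x + θ)
  set V := conv (refCov (T.sc.T (T.j0 + n)) (T.sc.L ^ T.j0) (T.sc.L ^ (T.j0 + n)) Γs) (Z0 (T.sc.T (T.j0 + n)) (wt1 v T.ω) (s : ℂ)) (toC fun x => w * cos1 (T.sc.T (T.j0 + n)) x + θ) with hVdef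
  have hVre : V.re = ‖V‖ := by
    have : V = (V.re : ℂ) := Complex.ext rfl (by simpa using him)
    rw [this, Complex.norm_real, Real.norm_eq_abs, abs_of_nonneg hre]
    simp
  rw [hVre, hV, norm_mul]
  set Y := conv Γs (ZA (T.sc.lev (T.j0 + n) (T.j0 + n)) T.c.R (Kof _ (Step.alpha T.ω)
    (hist T.c T.ω T.sc (T.j0 + n) T.j0 ((s : ℂ), 0, R0 (T.sc.lev (T.j0 + n) T.j0) T.c.R (wt1 v T.ω) (Step.alpha T.ω) (s : ℂ)) n)))
      (toC fun x => w * cos1 (T.sc.T (T.j0 + n)) x + θ) with hYdef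
  have h5 : |‖Y‖ - 1| ≤ ε := by
    have := abs_norm_sub_norm_le Y 1
    rw [norm_one] at this
    exact this.trans hY
  calc |‖cst‖ * ‖Y‖ - ‖cst‖| = ‖cst‖ * |‖Y‖ - 1| := by
        rw [← mul_sub_one, abs_mul, abs_of_nonneg (norm_nonneg _)]
    _ ≤ ‖cst‖ * ε := mul_le_mul_of_nonneg_left h5 (norm_nonneg _)
    _ = ε * ‖cst‖ := mul_comm _ _

/-! ## 9. GLUE: the lattice part and the final statement -/

theorem enR_smul_int (G : Geom) (ω : ℝ) (h : G.V → ℤ) : enR G (fun x => ω * (h x : ℝ)) = ω ^ 2 * enZ G h := by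
  have : (fun x => ω * (h x : ℝ)) = ω • (fun x => (h x : ℝ)) := by funext x; simp
  rw [enR, enZ, this, Matrix.mulVec_smul, smul_dotProduct, dotProduct_smul]
  simp only [smul_eq_mul]; ring

/-- `pE` does not see a constant factor of the weight -/
theorem pE_const_mul (G : Geom) (a : ℝ) (ha : a ≠ 0) (W F : (G.V → ℤ) → ℝ) : pE G (fun h => a * W h) F = pE G W F := by
  unfold pE
  have h1 : ∀ h : Pin G, F h.1 * (a * W h.1) = a * (F h.1 * W h.1) := fun h => by ring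
  simp only [h1, tsum_mul_left]
  rw [mul_div_mul_left _ _ ha]

set_option maxHeartbeats 1600000 in
/-- **(T2) the lattice part**: if the interaction integral of the reference model is constant within `ε` on the backgrounds `w cos + θ`, `|w| ≤ w₁`, then the discrete Gaussian torus law of
precision `κ = ω²/(2 (12 v + 1))` has `Var H_n ≥ c_v`; `ε`, `c_v` depend on `(ω, w₁)` only. -/
theorem lattice_part (ω w1 : ℝ) (hω : 0 < ω) (hw1 : 0 < w1) : ∃ (ε cv : ℝ), 0 < ε ∧ 0 < cv ∧ ∀ v : ℝ, 0 < v → ∀ u : ℕ, 1 ≤ u → ∃ M0 : ℕ, ∀ G : Geom, G.bc = BC.per → M0 ≤ G.M →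
    ∀ C1 : Matrix G.V G.V ℝ, IsRef G u C1 → ∀ s : ℝ, |s| ≤ 1 / 4 → ∀ c : ℝ, 0 < c →
      (∀ w θ : ℝ, |w| ≤ w1 → |(conv C1 (Z0 G (wt1 v ω) s) (toC fun x => w * cos1 G x + θ)).re - c| ≤ ε * c) →
      cv ≤ BC1.dgTorVar (ω ^ 2 / (2 * (12 * v + 1))) G.M := by
  have hπ := Real.pi_pos
  obtain ⟨e1, he1⟩ : ∃ e1 : ℝ, e1 = 16 * w1 ^ 2 / 500 := ⟨_, rfl⟩
  have he1pos : 0 < e1 := by rw [he1]; positivity
  obtain ⟨η, hηdef⟩ : ∃ η : ℝ, η = (Real.exp e1 - 1) / 2 := ⟨_, rfl⟩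
  have hη : 0 < η := by
    have := Real.add_one_lt_exp he1pos.ne'
    rw [hηdef]; linarith
  obtain ⟨ε, hεdef⟩ : ∃ ε : ℝ, ε = min (1 / 3) (η / (Real.exp e1 + 1 + η)) := ⟨_, rfl⟩
  have hden : 0 < Real.exp e1 + 1 + η := by have := Real.exp_pos e1; linarith
  have hε : 0 < ε := by rw [hεdef]; exact lt_min (by norm_num) (by positivity)
  have hε3 : ε ≤ 1 / 3 := by rw [hεdef]; exact min_le_left _ _
  have hε2 : ε * (Real.exp e1 + 1 + η) ≤ η := by
    have : ε ≤ η / (Real.exp e1 + 1 + η) := by rw [hεdef]; exact min_le_right _ _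
    rwa [le_div_iff₀ hden] at this
  obtain ⟨K, hKdef⟩ : ∃ K : ℝ, K = 2 * Real.exp (64 * w1 ^ 2 / 40) := ⟨_, rfl⟩
  have hK : 0 < K := by rw [hKdef]; positivity
  obtain ⟨T, hTdef⟩ : ∃ T : ℝ, T = max 0 (Real.log (4 * K / η)) := ⟨_, rfl⟩
  have hT : 0 ≤ T := by rw [hTdef]; exact le_max_left _ _
  have hKT : K ≤ η / 2 * Real.cosh T := by
    have h1 : Real.log (4 * K / η) ≤ T := by rw [hTdef]; exact le_max_right _ _
    have h2 : 4 * K / η ≤ Real.exp T := by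
      rw [← Real.exp_log (show 0 < 4 * K / η by positivity)]
      exact Real.exp_le_exp.2 h1
    have h3 : Real.exp T / 2 ≤ Real.cosh T := by
      rw [Real.cosh_eq]; have := Real.exp_pos (-T); linarith
    rw [div_le_iff₀ hη] at h2
    nlinarith
  obtain ⟨r, hrdef⟩ : ∃ r : ℝ, r = 4 * w1 * ω / (2 * Real.pi) := ⟨_, rfl⟩
  have hr : 0 < r := by rw [hrdef]; positivity
  refine ⟨ε, η * Real.exp (-T ^ 2 / 2) / r ^ 2, hε, by positivity, fun v hv u hu => ?_⟩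
  obtain ⟨M0, Hnum⟩ := mode_numerics v hv u hu
  refine ⟨M0, fun G hG hM C1 hC1 s hs c hc Hc => ?_⟩
  have hMpos : (0 : ℝ) < G.M := by exact_mod_cast G.hM
  obtain ⟨a, hadef⟩ : ∃ a : ℝ, a = 4 * w1 / (G.M : ℝ) ^ 2 := ⟨_, rfl⟩
  have haM : a * (G.M : ℝ) ^ 2 = 4 * w1 := by rw [hadef]; field_simp
  obtain ⟨hW0, Rw, HRw⟩ := ref_gauss hG u hu C1 hC1 v s hv hs
  obtain ⟨κ, hκdef⟩ : ∃ κ : ℝ, κ = ω ^ 2 / (2 * (12 * v + 1)) := ⟨_, rfl⟩
  have hκ : 0 < κ := by rw [hκdef]; positivity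
  rw [← hκdef]
  -- the reference weight on integer heights
  have hWform : ∀ h : G.V → ℤ, refW G v s C1 (fun x => ω * (h x : ℝ))
      = refW G v s C1 0 * (dgW G κ h * Real.exp (-(1 / 2) * ∑ o, (∑ x, (ω • Rw) o x * (h x : ℝ)) ^ 2)) := by
    intro h
    rw [HRw, enR_smul_int, dgW, ← Real.exp_add]
    congr 2
    have h1 : ∀ o, Rw.mulVec (fun x => ω * (h x : ℝ)) o = ∑ x, (ω • Rw) o x * (h x : ℝ) := by
      intro o
      simp only [Matrix.mulVec, dotProduct, Matrix.smul_apply, smul_eq_mul]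
      exact Finset.sum_congr rfl fun x _ => by ring
    simp only [h1]
    rw [hκdef]; ring
  have hWpos : ∀ h : G.V → ℤ, 0 < refW G v s C1 (fun x => ω * (h x : ℝ)) := by
    intro h; rw [hWform, dgW]; positivity
  -- the source
  have hsrc : ∀ (k : ℝ) (h : G.V → ℤ), ∑ x, k * a * cos1 G x * (ω * (h x : ℝ)) = k * (r * Xc G h) := by
    intro k h
    rw [Xc, Finset.mul_sum, Finset.mul_sum, Finset.mul_sum]
    refine Finset.sum_congr rfl fun x _ => ?_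
    rw [hadef, hrdef]; field_simp
  obtain ⟨N, hNdef⟩ : ∃ N : ℝ, N = ω * (ω ^ Fintype.card G.V)⁻¹ := ⟨_, rfl⟩
  have hN : 0 < N := by rw [hNdef]; positivity
  have key : ∀ k : ℝ, |k| ≤ 2 → Summable (fun h : Pin G => Real.exp (k * (r * Xc G h.1)) * refW G v s C1 fun x => ω * (h.1 x : ℝ)) ∧
      Real.exp (16 * k ^ 2 * w1 ^ 2 / 500) * N * ((1 - ε) * c) ≤ ∑' h : Pin G, Real.exp (k * (r * Xc G h.1)) * refW G v s C1 (fun x => ω * (h.1 x : ℝ)) ∧
      ∑' h : Pin G, Real.exp (k * (r * Xc G h.1)) * refW G v s C1 (fun x => ω * (h.1 x : ℝ)) ≤ Real.exp (16 * k ^ 2 * w1 ^ 2 / 40) * N * ((1 + ε) * c) := by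
    intro k hk
    obtain ⟨hs0, ⟨b, hb, hbg⟩, hlo, hhi⟩ := Hnum G hG hM C1 hC1 s hs (k * a)
    have hb' : |b| ≤ w1 := by
      refine hb.trans ?_
      rw [abs_mul, abs_of_pos (show 0 < a by rw [hadef]; positivity), mul_assoc, haM]
      nlinarith
    have hE : (k * a) ^ 2 * (G.M : ℝ) ^ 4 = 16 * k ^ 2 * w1 ^ 2 := by
      have : (k * a) ^ 2 * (G.M : ℝ) ^ 4 = k ^ 2 * (a * (G.M : ℝ) ^ 2) ^ 2 := by ring
      rw [this, haM]; ring
    rw [hE] at hlo hhi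
    have Hb : ∀ t : ℝ, (1 - ε) * c ≤ (conv C1 (Z0 G (wt1 v ω) s) (toC fun x => bgV G v s C1 (fun x => k * a * cos1 G x) x + t)).re ∧
        (conv C1 (Z0 G (wt1 v ω) s) (toC fun x => bgV G v s C1 (fun x => k * a * cos1 G x) x + t)).re ≤ (1 + ε) * c := by
      intro t
      rw [hbg]
      have h0 := abs_le.1 (Hc b t hb')
      exact ⟨by linarith [h0.1], by linarith [h0.2]⟩
    obtain ⟨h1, h2, h3⟩ := ref_source hG u hu C1 hC1 v ω s hv hω hs (fun x => k * a * cos1 G x) hs0 ((1 - ε) * c) ((1 + ε) * c) Hb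
    simp only [hsrc] at h1 h2 h3
    rw [← hNdef] at h2 h3
    have hc1 : 0 ≤ N * ((1 - ε) * c) := by
      have : 0 ≤ 1 - ε := by linarith
      positivity
    have hc2 : 0 ≤ N * ((1 + ε) * c) := by positivity
    have e1 := mul_le_mul_of_nonneg_right (Real.exp_le_exp.2 hlo) hc1
    have e2 := mul_le_mul_of_nonneg_right (Real.exp_le_exp.2 hhi) hc2
    exact ⟨h1, by linarith, by linarith⟩
  -- notation
  obtain ⟨W, hWdef⟩ : ∃ W : Pin G → ℝ, W = fun h => refW G v s C1 fun x => ω * (h.1 x : ℝ) := ⟨_, rfl⟩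
  obtain ⟨X, hXdef⟩ : ∃ X : Pin G → ℝ, X = fun h => r * Xc G h.1 := ⟨_, rfl⟩
  have key' : ∀ k : ℝ, |k| ≤ 2 → Summable (fun h => Real.exp (k * X h) * W h) ∧
      Real.exp (16 * k ^ 2 * w1 ^ 2 / 500) * N * ((1 - ε) * c) ≤ ∑' h, Real.exp (k * X h) * W h ∧
      ∑' h, Real.exp (k * X h) * W h ≤ Real.exp (16 * k ^ 2 * w1 ^ 2 / 40) * N * ((1 + ε) * c) := by
    intro k hk; rw [hWdef, hXdef]; exact key k hk
  have hWnn : ∀ h, 0 ≤ W h := fun h => by rw [hWdef]; exact (hWpos h.1).le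
  obtain ⟨s0, l0, u0⟩ := key' 0 (by norm_num)
  simp only [zero_mul, Real.exp_zero, one_mul] at s0 l0 u0
  norm_num at l0 u0
  obtain ⟨s1, l1, -⟩ := key' 1 (by norm_num)
  obtain ⟨s1', l1', -⟩ := key' (-1) (by norm_num)
  obtain ⟨s2, -, u2⟩ := key' 2 (by norm_num)
  obtain ⟨s2', -, u2'⟩ := key' (-2) (by norm_num)
  have hcosh : ∀ (k : ℝ) (h : Pin G), Real.cosh (k * X h) * W h = (Real.exp (k * X h) * W h + Real.exp (-k * X h) * W h) / 2 := by
    intro k h; rw [Real.cosh_eq, neg_mul]; ring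
  have hNc : 0 < N * c := by positivity
  have t1 : ∑' h, Real.cosh (X h) * W h = (∑' h, Real.exp (1 * X h) * W h + ∑' h, Real.exp (-1 * X h) * W h) / 2 := by
    rw [← s1.tsum_add s1', ← tsum_div_const]
    exact tsum_congr fun h => by rw [← hcosh 1 h, one_mul]
  have t2 : ∑' h, Real.cosh (2 * X h) * W h = (∑' h, Real.exp (2 * X h) * W h + ∑' h, Real.exp (-2 * X h) * W h) / 2 := by
    rw [← s2.tsum_add s2', ← tsum_div_const]
    exact tsum_congr fun h => hcosh 2 h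
  have sc2 : Summable fun h => Real.cosh (2 * X h) * W h := by
    have := (s2.add s2').div_const 2
    exact this.congr fun h => (hcosh 2 h).symm
  have hvar := var_of_cosh W X hWnn s0 sc2 η K T hT (by
      rw [t1]
      have a1 : Real.exp (16 * (1 : ℝ) ^ 2 * w1 ^ 2 / 500) = Real.exp e1 := by rw [he1]; norm_num
      have a2 : Real.exp (16 * (-1 : ℝ) ^ 2 * w1 ^ 2 / 500) = Real.exp e1 := by rw [he1]; norm_num
      rw [a1] at l1; rw [a2] at l1'
      have a3 : (1 + η) * (1 + ε) ≤ Real.exp e1 * (1 - ε) := by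
        have : Real.exp e1 = 2 * η + 1 := by rw [hηdef]; ring
        nlinarith
      have a4 : (1 + η) * ∑' h, W h ≤ (1 + η) * (N * ((1 + ε) * c)) := mul_le_mul_of_nonneg_left u0 (by linarith)
      have a5 := mul_le_mul_of_nonneg_right a3 hNc.le
      nlinarith) (by
      rw [t2]
      have a1 : Real.exp (16 * (2 : ℝ) ^ 2 * w1 ^ 2 / 40) = K / 2 := by rw [hKdef]; norm_num
      have a2 : Real.exp (16 * (-2 : ℝ) ^ 2 * w1 ^ 2 / 40) = K / 2 := by rw [hKdef]; norm_num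
      rw [a1] at u2; rw [a2] at u2'
      have a3 : (1 + ε) ≤ 2 * (1 - ε) := by linarith
      have a4 : K * (N * ((1 - ε) * c)) ≤ K * ∑' h, W h := mul_le_mul_of_nonneg_left l0 hK.le
      have a5 := mul_le_mul_of_nonneg_right a3 (mul_pos hK hNc).le
      nlinarith) hKT
  -- conclusion
  have hSW : 0 < ∑' h, W h := lt_of_lt_of_le (by
    have : 0 < 1 - ε := by linarith
    positivity) l0
  have hX2 : ∀ h : G.V → ℤ, (∑ x, ((G.M : ℝ)⁻¹) ^ 2 * (2 * Real.pi * cos1 G x) * (h x : ℝ)) ^ 2 = Xc G h ^ 2 := by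
    intro h
    rw [Xc, Finset.mul_sum]
    congr 1
    exact Finset.sum_congr rfl fun x _ => by ring
  have hcmp := pin_compare hG κ hκ (ω • Rw) (fun x => ((G.M : ℝ)⁻¹) ^ 2 * (2 * Real.pi * cos1 G x))
  simp only [hX2] at hcmp
  rw [dgTorVar_eq hG κ hκ]
  refine le_trans ?_ hcmp
  rw [← pE_const_mul G (refW G v s C1 0) hW0.ne']
  simp only [← hWform]
  unfold pE
  have e1 : ∑' h : Pin G, Xc G h.1 ^ 2 * refW G v s C1 (fun x => ω * (h.1 x : ℝ)) = (∑' h, X h ^ 2 * W h) / r ^ 2 := by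
    rw [← tsum_div_const]
    refine tsum_congr fun h => ?_
    rw [hXdef, hWdef]; field_simp
  have e2 : ∑' h : Pin G, refW G v s C1 (fun x => ω * (h.1 x : ℝ)) = ∑' h, W h := by rw [hWdef]
  rw [e1, e2, le_div_iff₀ hSW, div_mul_eq_mul_div]
  exact div_le_div_of_nonneg_right hvar (by positivity)

/-- **the contract `BC1.bc1_dg_rough`**, PROVED from (T1) and (T2). -/
theorem dg_rough2 : ∃ (κ : ℝ) (L : ℕ) (c : ℝ), 0 < κ ∧ 2 ≤ L ∧ 0 < c ∧ ∀ᶠ N : ℕ in atTop, c ≤ BC1.dgTorVar κ (L ^ N) := by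
  obtain ⟨sc, j0, ω, w1, hL, ⟨d, hd⟩, hω, hw1, H1⟩ := rg_part
  obtain ⟨ε, cv, hε, hcv, H2⟩ := lattice_part ω w1 hω hw1
  obtain ⟨v, hv, H1⟩ := H1 ε hε
  obtain ⟨M0, H2⟩ := H2 v hv (sc.L ^ j0) (Nat.one_le_pow _ _ sc.L_pos)
  refine ⟨ω ^ 2 / (2 * (12 * v + 1)), sc.L, cv, by positivity, hL, hcv, ?_⟩
  refine eventually_atTop.2 ⟨d + j0 + M0, fun N hN => ?_⟩
  obtain ⟨n, rfl⟩ : ∃ n, N = d + (j0 + n) := ⟨N - d - j0, by omega⟩
  have hM : (sc.T (j0 + n)).M = sc.L ^ (d + (j0 + n)) := by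
    show sc.D0 * sc.L ^ (j0 + n) = _
    rw [hd, ← pow_add]
  obtain ⟨Γs, hΓs⟩ := B4.exists_terminal (sc.T (j0 + n)) Fam.entry B4.entry_adm (sc.L ^ (j0 + n)) (Nat.one_le_pow _ _ sc.L_pos)
  obtain ⟨s, hs, c, hc, Hc⟩ := H1 v le_rfl n Γs hΓs
  have hM0 : M0 ≤ (sc.T (j0 + n)).M := by
    rw [hM]
    calc M0 ≤ d + (j0 + n) := by omega
      _ ≤ sc.L ^ (d + (j0 + n)) := (Nat.lt_pow_self hL).le
  have := H2 (sc.T (j0 + n)) rfl hM0 _ (isRef_tower sc j0 n Γs hΓs) s hs c hc Hc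
  rwa [hM] at this
end

end Claimed.Agent.R285.BC2
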