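import Claimed.Agent.R285.Mag.Geo

/-!
# ROW 285, BP-READ-C4 (helper30): [C] Section 4 = `40-magnetic.tex` (magnetic lower bound)

## RESULT: [C] SECTION 4 LEAVES THE CHAIN.  It is replaced by `R285/Mag/*.lean` (paper-free, ~2500 lines, cut into 20 leaves).

### Who uses [C] Section 4?
* [C] s2, s3, s5 do not use it.  [S], [F], [E] never cite P4.1, P4.2, L4.3 ([F] `cutoff-entry` l.1525 mentions "(4.6)" only as an analogous technique).
* The only consumers are [C] s6 (`Top.aLim_critical`, `Glue/C6.lean: coef_critical_of`, hypothesis `hspin`) and Plan s.BC.  Both use ONLY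
      `a(b) > 0  ⇒  m(b) = 0`.
  (`coef_critical_of` derives `m b' ≤ 0` from `hspin`; replace `hspin` by `∀ b, 0 < b → 0 < a b → m b = 0`.)
* The sharp exponent `C(n) ≥ n^{-2π/a - ε}` (`Top.spin_lower`) is needed by no frozen statement.  PROPOSAL: delete `spin_lower` from `Top.lean`, cite `mass_zero_of_aLim_pos` (below).

### K1 verdicts on the items of Section 4 (read completely; NOT formalised)
* P4.1 (prop:spin-lower, magnetic lower bound): statement plausible; proof = P4.2 + filling (4.4).  NOT NEEDED.
* s4.1 (localized magnetic sector, (4.1) eq:magnetic-mass): definitions by prose (dyadic annuli, guards, tessellation); repairable, heavy.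
* P4.2 (prop:sector-comparison, many-scale sector comparison): rests on [C]T3.1, T3.2, L3.9 (restoration) and on [B] an:gaussian-localization, en:normalization, en:shifted-box, en:good-box, en:prediction.
  No false step found; the uniformity in the NUMBER of scales is only argued through the polymer gas of s4.3 ((4.13) eq:magnetic-gas-log), whose convergence criterion is asserted, not verified: repairable (Kotecky-Preiss), ~15 pages of details missing.
* L4.3 (lem:magnetic-pattern, pattern gain), (4.7)-(4.12): telescoping and guard cuts OK by RSD monotonicity; (4.12) eq:magnetic-prediction uses conditional laws at random guard data = [C]T3.2 in its weakest-stated ("finite observation approximation") form: statable only with the vocabulary of the C3 post.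
* s4.4 (filling the holes, angular energy (4.15), (4.16)): deterministic potential theory, OK.
  Cost estimate of a formalisation: > 15k lines on top of C3.  VERDICT: drop.

### The replacement (all in `R285/Mag`; every step elementary; checked numerically)
CLAIM  `m(b) > 0 ⇒ a_m(b) → 0`  (`sq_aCoef_tendsto`), with the explicit bound `sq_aCoef_le`.  No Gaussian limit, no [C]T3.1, no RSD, no loops.
1. `mag_bes_rec`:  `k p_b(k) = (b/2)(p_b(k-1) - p_b(k+1))`.  Hence (termwise) bond moments are combinations of shifted partition sums (`Mag/Cov.lean`, any graph):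
      `E n_e n_f = (b²/2) (Z^{δ_e+δ_f} - Z^{δ_e-δ_f})/Z⁰` (`e ≠ f`),  `E n_e² = b Z^{δ_e}/Z⁰ + (b²/2)(Z^{2δ_e}/Z⁰ - 1)`.
2. `mag_ratio_eq`: duality for an ARBITRARY integer connection: `Z^τ/Z⁰ = ⟨cos((div τ)·θ)⟩`.  Fourier part without planarity (`mag_dual_hasSum`); planarity = `MagExact` (divergence free flows are gradients), proved for `square m` in `sq_exact`.
   The free height square is dual to rotators on its faces with the exterior GROUNDED = n.n. coupling `b` + a boundary field (`sq_energy`).  So `E n_e n_f = -b² ⟨sin ∇_e θ sin ∇_f θ⟩^{+}`.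
3. `mag_sinsin`: `|⟨sin(θ_x-θ_y) sin(θ_u-θ_v)⟩_{J,h}| ≤ ½ ∑_{p ∈ {x,y}, q ∈ {u,v}} ⟨cos(θ_p-θ_q)⟩_{J,0}`, from
   (FLIP) `|⟨s_p s_q c_{p'} c_{q'}⟩| ≤ ⟨s_p s_q⟩` (reflect single angles),  (DN) `⟨s_p s_q⟩_{J,h} ≤ ⟨s_p s_q⟩_{J,0}` (Dunlop-Newman, by Ginibre duplication with `θ' = x+y`, `θ = x-y`: all coefficients positive),  (ROT) `⟨s_p s_q⟩_{J,0} = ½⟨cos(θ_p-θ_q)⟩`.
   THE POINT OF (DN): the transverse correlation does not see the grounded boundary, so there is NO boundary-mediated term although the spins are wired.
4. XY basics (helper177): `latTwo ≤ latCorr ≤ exp(-m(b) |x-y|_∞)`.  Result `sq_cov_decay`:  `|Cov(∇_e φ, ∇_f φ)| ≤ (2π)²(b+2b²) e^{μ} e^{-μ |e-f|_∞}`  on every free square, uniformly up to the boundary.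
5. Path independence (`Mag/Geo.lean`): each pair of rows chooses its own pair of paths; `a_m(b) ≤ A (m² e^{-μR} + 8R²/((1-e^{-μ}) m))`.

### For other posts
* E6 (helper164): `sq_cov_decay` + `magEx_sum` replace [E]L6.2 (van Engelenburg-Lis loops, Poisson tails) on free squares.  For another geometry `(G,P)`: prove `MagExact G P d` and the energy identity (as `sq_exact`, `sq_energy`); everything else is general.
* C2 / F23 / XY (spin correlation = ratio): `mag_ratio_eq` is the duality for every `τ` (paths, vortex strings, sectors).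
* s.BC: `b_c < ∞` follows from ONE `b` with `aLim b > 0` by `mass_zero_of_aLim_pos`.

### Imports from other posts
(i) XY basics (`Xy/Four.lean`: `xy_exp_pos`, `xy_reflect`, `xy_dup`, `xy_int_cos`; `Xy/Gin.lean`: `xyPart_pos`, `xyChar_nonneg`, `xyChar_le_one`, `xyChar_eq_zero_of_cnt`; `Xy/Mass.lean`: `latCorr_le_exp`, `xyMass_nonneg`); `Rsd/Bes.lean` (proved).
(ii) external theorems: NONE.
-/

namespace Claimed.Agent.R285.C4

open Filter Topology Claims.C0459

/-- the contract of this post: what replaces `Top.spin_lower`. -/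
theorem mass_zero (b : ℝ) (hb : 0 < b) (h : 0 < aLim b) : xyMass b = 0 := mass_zero_of_aLim_pos b hb h

/-- quantitative form. -/
theorem coef_le (b : ℝ) (hb : 0 < b) (hμ : 0 < xyMass b) (m R : ℕ) (hR1 : 1 ≤ R) (hR : 2 * R ≤ m) :
    aCoef b m ≤ magA b * ((m : ℝ) ^ 2 * Real.exp (-(xyMass b * R)) + 8 * (R : ℝ) ^ 2 / ((1 - Real.exp (-xyMass b)) * m)) :=
  sq_aCoef_le b hb m hμ R hR1 hR

end Claimed.Agent.R285.C4
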