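import Claimed.Agent.R285.Bc.Tor
import Claimed.Agent.R285.C5.TorUp
import Claimed.Agent.R285.Read.C4
import Claimed.Agent.R285.Read.BC2

/-!
# ROW 285, post BP-BC-1 (owner helper172): `b_c < oo`.  K1 of the external routes + A NEW SHORT ROUTE

## VERDICT
* (X) external fallback "Lammers delocalisation + AHPS / vEL": **NO** (not writable from the box).
* (K) NEW: "Bessel heights at large `b` fluctuate at least as much as discrete Gaussian heights of any fixed precision `κ`, on EVERY finite graph"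
  (`bc1_compare` + `bc1_lemmaK`, both elementary, about 2 pages, paper-free) + [B]P8.6(ii) (DG torus at ONE high temperature) + [C]T2.4: **GO**.
  It replaces [B]s5-s7 (Villain + XY histories + XY flow, 205 KB of TeX) in s.BC of `Plan.lean`; posts B6a, B6b, B7, BC-3 are then NOT needed.

## (K) the chain  (every arrow is a statement below)
  `bc1_lemmaK`   : for `κ > 0` there is `b0` with: for `b ≥ b0` the kernel `(x,y) ↦ p_b((x+y)/2) exp(-κ ((x-y)/2)²/2)` (`x ≡ y mod 2`, else `0`) is PSD on `ℤ`.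
  `bc1_compare`  : `mixK W₁ W₂` PSD  ⟹  `E_{W₂} X² ≤ E_{W₁} X²` for every finite graph, every set of pins, every real linear test `X`.
  `bc1_torVar_ge`: hence `dgTorVar κ n ≤ torVar b n` for all `n`, `b ≥ b0(κ)`.
  `bc1_dg_rough` : [B]P8.6(ii) (`wh:gapped-shooting`, first 2/3 of the proof, l.1043-1125 of weak-height.tex): there is ONE `κ` with `liminf_N dgTorVar κ (L^N) > 0`.
  `bc1_torVar_zero`: [C]T2.4 + L2.2 (or [B] (8.4x) `wh:unconditional-torus-upper`, l.1126-1180, verbatim for Bessel bonds): `a(b) = 0 ⟹ torVar b n → 0`.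
  `bc1_aLim_pos` : `∃ b > 0, 0 < aLim b`   (PROVED here from the contracts).
  `bc1_bkt`      : `∃ b > 0, xyMass b = 0` (PROVED here from `bc1_aLim_pos` + `bc1_mass_zero` = [C]P4.1 / helper30's C4).

### Proof of `bc1_compare` (Ginibre / RSD duplication, ALL bonds at once; no interpolation, no class condition on `W₁ W₁`, `W₂ W₂`)
  `Z₁(X²) Z₂(1) - Z₂(X²) Z₁(1) = ∑_{h,h'} (X(h)² - X(h')²) ∏_e W₁(∇_e h) W₂(∇_e h')`.  Put `a = h + h'`, `d = h - h'` (bijection of `Λ × Λ` onto `{a ≡ d mod 2}`):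
  `X(h)² - X(h')² = X(a) X(d)`, `W₁(∇h) W₂(∇h') = mixK W₁ W₂ (∇a) (∇d)`.  So the difference is `∑_{a,d ∈ Λ} κ(a,d)` with
  `κ(a,d) = X(a) X(d) ∏_v 1[a_v ≡ d_v] ∏_e mixK(∇_e a, ∇_e d)`, a product of PSD kernels, PSD by `Matrix.PosSemidef.hadamard` (Schur product theorem, in Mathlib);
  sum of a PSD kernel over `F × F` is `≥ 0` (vector `1_F`), let `F ↑ Λ` (absolute summability).
### Proof of `bc1_lemmaK`
  Divide by `√(p(x) p(y))`: `M_{xy} = T_{xy} r_{xy}`, `T_{xy} = exp(-κ k²/2)`, `k = (x-y)/2`, `r_{xy} = p(n)/√(p(n+k) p(n-k))`, `n = (x+y)/2`.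
  (a) `bc1_toeplitz`: `∑ u_i u_j exp(-κ (i-j)²/2) = E |∑ u_j e^{ijφ}|²` (`φ ~ N(0,κ)` on `ℝ`) `≥ N_κ(π) ∫_{-π}^{π} |U|² = √(2π/κ) e^{-π²/(2κ)} ∑ u_j²`.  (No Poisson summation.)
  (b) `bc1_turan`: `(1 - 2/b) p(n)² ≤ p(n-1) p(n+1) ≤ p(n)²`.  With `ρ_n = p(n+1)/p(n)`: the recurrence `1/ρ_{n-1} = 2n/b + ρ_n` (`bc1_bes_rec`) maps `[l_n,u_n]` into `[l_{n-1},u_{n-1}]`,
      `u_n = (√(n²+b²) - n)/b`, `l_n = (√((n+1)²+b²) - (n+1))/b`; start: `ρ_{N-1} ≤ b/(2N) ≤ u_{N-1}` for `N ≥ b²/4`.  Then `p(n-1)p(n+1)/p(n)² = ρ_n² + 2nρ_n/b ∈ [1 - 2 l_n/b, 1]`.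
  (c) `bc1_midpoint`: hence `1 ≤ r_{xy}² ≤ (1-2/b)^{-k²}`.
  (d) Schur test: `|∑ u_x u_y T (r-1)| ≤ (∑_k e^{-κk²/2} ((1-2/b)^{-k²/2} - 1)) ∑ u²`, and the bracket tends to `0` as `b → ∞`.
  Numerics (120 digits, Cholesky, |x| ≤ 29): PSD for `κ = 2: b ≥ 1`; `κ = 1: b ≥ 3` (fails at `b = 2`); `κ = 1/2: b ≥ 10`.
### Remarks
  * `mixK W₁ W₂` PSD is equivalent to: `n ↦ W₁(n) e^{κ n²/2}` is a (strong Stieltjes) moment sequence, i.e. `p_b = (Gaussian of precision κ) * (positive measure on ℝ)` on `ℤ`.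
    The stronger statement "`p_b` is a mixture of `e^{-λ n²/2}`, `λ ≤ κ`" is what a naive use of the Hartman-Watson (Raoufi) mixture would need; that mixture has a heavy tail
    `~ e^{-2b} λ^{-3/2}` at `λ → ∞` (diluted bonds), which is why AHPS need surgery.  The PSD criterion does not see the tail.
  * The same two lemmas give MGF comparison (`cosh X(h) - cosh X(h') = 2 sinh(X(a)/2) sinh(X(d)/2)`), if somebody needs it.
  * `κ = π²/β` for the nearest neighbour law (1.3) of [B].

## (X) K1 of the external fallback (all sources NOT in the box; reconstruction from memory)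
 X1 Lammers, delocalisation on cubic planar graphs (`e^{-V(0)}/2 ≤ e^{-V(1)}`): skeleton reconstructed (edge states, non-crossing at degree 3, mirror `h ↦ -1-h` + Holley in an explored circuit,
    ergodic infinite-volume gradient measure, Burton-Keane / Zhang non-coexistence).  Statable; needs infinite-volume ergodic theory + planar duality of percolation: > 3000 lines.  repairable but EXPENSIVE.
 X2 cubic → `ℤ²`: for DG bonds OK by RSD (hexagonal(λ) → relax one class to `ℝ`, star-triangle → triangular(λ/3) → delete diagonals → `ℤ²`(λ/3)).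
    For Bessel bonds: FATAL as an elementary step.  (i) Ginibre alone: impossible (no subgraph / contraction of `ℤ²` has a cubic dual: Euler); (ii) replacing a triangular diagonal by a `ℤ²` path needs
    `exp(c cos α + c cos β - b₀ cos(α+β))` positive definite: numerically FALSE (`b₀ = 1.2, c = 10`: coefficient `(30,3)` is `-3.6e-4` relative); (iii) `DG = Bessel × extra precision` is impossible
    (`log I_{√u}(b)` is convex in `u`); (iv) AHPS Lemma 9.6 / App. C-D (annealed Gaussian surgery) is not in the box.   [With `bc1_compare` + `bc1_lemmaK` this step becomes trivial: Bessel(b) ≥ DG(κ).]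
 X3 delocalisation ⟹ `m(b) = 0` (vEL): needs `m > 0 ⟹ sup Var h_0 < ∞`; now available from helper30's C4 identity.  OK.
 So even after the repair of X2 the external route costs X1, whereas [B]P8.6(ii) only re-uses the RG toolkit of the main chain.

## Imports from other posts
 * B8 (helper202): `bc1_dg_rough` = [B]L8.1 (kernels), P8.2 (`wh:uv`, case (ii): fixed `J = J_nn`, `a'` large), P8.3 (`wh:map`, the no-cosine map), (8.17) balance, P8.6(ii).
 * B2/C2 (helper60, helper200): `bc1_torVar_zero`.      * C4 (helper30): `bc1_mass_zero`.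
## External theorems really used: none (Schur product theorem and the Gaussian Fourier transform are in Mathlib).
-/

set_option autoImplicit false

namespace Claimed.Agent.R285.BC1

open MeasureTheory Filter Topology Claims.C0459

noncomputable section

/-! ## 1-4. Definitions: `R285/Bc/Defs.lean`.  PROVED, no sorry: `R285/Bc/Bes.lean` (recurrence, Turan, midpoint, Toeplitz gap, Lemma K),
`R285/Bc/Tor.lean` (summability, anchoring, `bc1_compare`, `bc1_torVar_ge`, conditional end `bc1_aLim_pos_of`, `bc1_bkt_of`).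

STATE 15:00Z: the only inputs of `b_c < oo` from outside the layer are
 (1) `bc1_dg_rough` (owner helper136, `Read/BC2.lean` + `R285/Dg/*`; `Read/B8.dg_rough` of helper202 is the same statement),
 (2) `C5.torVar_limsup_le` (helper75, PK-C5-T1),   (3) `C4.mass_zero` (helper30, `Mag/*`).
FINAL WIRING (GLUE): `TopXY.xy_bkt_phase := BC1.bc1_bkt_of <dg_rough> C5.torVar_limsup_le C4.mass_zero`. -/

/-- LINKED (18:25Z) to `Read/BC2.lean` (`Read/B8.lean` no longer imports this file): [B]P8.6(ii) for `J = J_nn`, `f = cos(2π x₁)`; `κ = π²/β`, `β = k/4`, limit `a'/(8π²)`. -/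
theorem bc1_dg_rough : ∃ (κ : ℝ) (L : ℕ) (c : ℝ), 0 < κ ∧ 2 ≤ L ∧ 0 < c ∧ ∀ᶠ N : ℕ in atTop, c ≤ dgTorVar κ (L ^ N) := BC2.dg_rough2

/-! ## 5. Glue (proved) -/

theorem bc1_aLim_pos : ∃ b : ℝ, 0 < b ∧ 0 < aLim b :=
  bc1_aLim_pos_of bc1_dg_rough C5.torVar_limsup_le

/-- `xy_bkt_phase` of `Top.lean`. -/
theorem bc1_bkt : ∃ b : ℝ, 0 < b ∧ xyMass b = 0 :=
  bc1_bkt_of bc1_dg_rough C5.torVar_limsup_le C4.mass_zero

end

end Claimed.Agent.R285.BC1
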