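import Claimed.Agent.R285.Tilt.Link
import Claimed.Agent.R285.Free.Lap
import Claimed.Agent.R285.Free.Pot
import Claimed.Agent.R285.Phase.Ratio
import Claimed.Agent.R285.Phase.Unif

/-!
# ROW 285, BP-READ-C2: [C] paper.tex + sections/20-heights.tex (owner helper200).   DEFINITIONS: `R285/Free/Defs.lean` (same namespace).

## K1 VERDICTS (every numbered item of [C] s2): NO FATAL.
* L2.1 duality: OK (standard).  Contract `duality` below in the "Dirichlet ring" form (exterior face = pinned ring; pin-pin bonds cancel).  Proof: BP-XY-BASICS.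
* L2.2 comparisons: OK; = `lsys_*` of Base/Height.  The chain subdivision + Poisson summation of the paper are NOT needed (doubling identity, see Base/Height header).
* L2.3 reference cost: OK; EXACT form `ref_mgf`: `E e^{∑ t_e z_e} ≤ exp(β (cosh |t|₂ - 1))` (from `lsys_reference` and monotonicity of `(cosh x - 1)/x²`); moments follow.
* (2.2) phase transfer: OK (`f ≤ 0`, `f'' ≥ -V` give `f'² ≤ -2Vf`) = `lsys_phase_transfer`.   (2.3) restoration gap: OK, = two uses of `lsys_event_mono`; not cited by label outside s2; no contract.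
* T2.4 free coefficient: OK, with three SIMPLIFICATIONS (all checked):
   (a) FOLD STEP: association, sign conditions (`F''' < 0`, ...) and the transport of coefficients are NOT needed.  For a rectangle symmetric about a site axis or a site diagonal, the trace `T` of the line is a vertex cut set and an odd
       shift `g` vanishes on `T`; so `X_g = X₊ + X₋` EXACTLY, `X₊ = X_{g 1_+}` EXACTLY, and summing first over the two sides at fixed trace: `E X₊X₋ = - ∑_t w_T(t) (∑_{h₊} X₊ w₊)² / Z ≤ 0`.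
       Hence the FINITE inequalities `fold_axis`, `fold_diag`: `Var X_g ≤ 2 Var X_{g 1_+}` (while `dir g = 2 dir (g 1_+)`): a saturated odd seed has saturated folds, given the upper bound (2.7).
   (b) the "tiling of an arbitrarily large square by copies of the rectangle" is NOT needed: affine shifts saturate on squares by definition of `a_m`, and saturation passes to ENCLOSED rectangles (as in [E]L5.2).
       The upper bound (2.7) needs no lower bound on the sides, so neither does the theorem.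
   (c) smooth shifts are replaced by the class `Reg` = energy closure of shifts with bounded discrete `C²` norm (helper60): the nodal `P1` interpolant on the mesh `x, y, x - y ∈ ℓℤ` is an EXACT finite combination of hinges and diagonal folds of hinges (Free/P1.lean): no `g_xy`, no integrals.  Whole chain: Free/PlanT24.lean.
       Density and face smears: EVERY zero-total sequence with bounded scaled `ℓ²` norms has a `Reg` potential (discrete Neumann cosines), `reg_smear`; so every discrete `C²` shift is `Reg` (`reg_c2`).   Face minus volume: EXACT potential `x(x+1)/(2pq)`, `face_potential`.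
* T2.5 uniform phase + gap: OK.  Simplifications: (d) the replica identity (2.12) holds DIRECTLY for Bessel + Gaussian coordinates by the doubling identity: finite inequality `replica` (also serves [F] (5.x) on the torus).
   (e) no limit of entire functions: `replica` gives `|(log F)_{tv} + Cov(X,Y)| ≤ sqrt(κ/2)/F²` at finite `m`; integrate in `v`.
   (f) the Euclidean structure of the neutral space in (2.10) may be replaced by coordinates relative to a root cell: penalties `ℓ_i²/2`, `ℓ_i` = mismatch along a unit flow `P_i` root → i.  Then (2.11) is a PRODUCT of 1D Poisson sums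
       (Mathlib: `jacobiTheta₂_functional_equation`), weights `exp(-∑_{i ≠ root}(q_i - ξ_i)²/2)`; `P_{i0} := H^{(i0)} + ∑ ξ_i P_i` for the retained central cells.  All "auxiliary confinement η ↓ 0" paragraphs are absorbed in `lsys_*_mono` (image lattices).
   Exponent check: `c G² · exp(-(a/2)(log G/(2π)))` `= c G^{2 - a/(4π)}`.
* P2.6 spin upper bound: OK (`-4πλ + 2πaλ²`, `λ = 1/a`).  REMARK FOR THE CAPTAIN: the chain S0531/S0532 uses ONLY the case `a = 0` (`spin_upper_zero`, Glue/C6) and its finite form ([E]P6.x, BP-BC-3).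
   The case `a > 0` of Top.lean (`spin_upper`) is NOT needed.  The finite form is `spin_tilt` = McBryan-Spencer with free cells, in STREAM FUNCTION form: any `ψ` on the spin vertices, gain `ψ x - ψ y`.
   For `a = 0` use `ψ = λ ·` (piecewise linear function of the sup norm): affine on cells, no circular annuli, no smooth cutoffs; needs only `affine_small`; independent of T2.4.

## MOVING TEMPERATURE
All limit statements are for sequences `b k` in a compact interval, scales `n k → ∞`, under the ONE hypothesis `ScaleCoef b n a` (`a_{m_k}(b_k) → a` for all `m_k ≍ n_k`).  Fixed `b`: `scaleCoef_fixed`.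
So this file is at the same time [E] (5.2), L5.2 (profile-free), L5.3 (profile-phase), C5.6, L5.7 (profile-ratio), L5.8 second half.

## IMPORTS: Base/Height `lsys_*` ([B]L2.1); [B](2.25) radial flow cost = `radial_flow` (paper-free, POT); XY basics: `duality`.   EXTERNAL: RSD inequality (reproved in R285/Rsd), 1D Poisson summation (Mathlib theta), nothing else.

## NEED (-> helper115): (N1) `flowS` (linear statistic of the Bessel coordinates) in Base/Height; (N2) `replica`, `ref_mgf`, `ref_var`, `ref_moment` there too; (N3) bridge `HLaw.Ex` (height variables) = `LSys.E0` for proper laws, `ex_eq_E0` below;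
(N4) product systems: `LSys.prod` with `w`, `E0`, `V0`, `phi` factorising (cells after a cut are independent); (N5) symmetry: a graph automorphism preserving `Λ`, `B` preserves `E0`.

## SIZE (honest): T2.4 about 5-7k lines, T2.5 about 4-5k, P2.6(a=0)+tilt about 1.5k, POT leaves (cosines, radial flow) about 2.5k.
-/

set_option autoImplicit false

namespace Claimed.Agent.R285.C2

open Filter Topology Claims.C0459
open scoped Classical

noncomputable section

/-! ## 0. Additions to the abstract layer ([C]L2.3, (2.12)) -/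

/-- [C]L2.3 in exact form: normalised exponential moments, uniform in the graph and in all additional centred precision. -/
theorem ref_mgf (S : LSys) (hS : S.Ok) (β : ℝ) (hβ : ∀ e, S.b e ≤ β) (t : S.E → ℝ) :
    S.E0 (fun z => Real.exp (flowS S t z)) ≤ Real.exp (β * (Real.cosh (Real.sqrt (∑ e, t e ^ 2)) - 1)) := Free.fr_ref_mgf S hS β hβ t

/-- [C](2.1), variance. -/
theorem ref_var (S : LSys) (hS : S.Ok) (β : ℝ) (hβ : ∀ e, S.b e ≤ β) (t : S.E → ℝ) :
    S.V0 (flowS S t) ≤ β * ∑ e, t e ^ 2 := Free.fr_ref_var S hS β hβ t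

/-- [C](2.1), moments. -/
theorem ref_moment (β : ℝ) (r : ℕ) : ∃ C : ℝ, ∀ (S : LSys), S.Ok → (∀ e, S.b e ≤ β) → ∀ t : S.E → ℝ,
    S.E0 (fun z => |flowS S t z| ^ r) ≤ C * Real.sqrt (∑ e, t e ^ 2) ^ r := Free.fr_ref_moment β r

/-- **replica inequality** = [C](2.12) + the display after it, in finite form, for every centred system (Bessel and Gaussian coordinates; free squares, tori, pinned laws).
With `F(θ) = E cos θ`: `-2 F F_{XY} + 2 F_X F_Y = 2 Cov(X,Y) F² + O(sqrt(2κ))`.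
PROOF: two copies `z¹,z²`, `S = z¹+z²`, `D = z¹-z²`; by the doubling identity `W(z¹)W(z²) = ∑_ν λ_ν G_ν(S) G_ν(D)` on `{S - D ∈ 2L}`: given the class `(ν, S mod 2L)`, `S` and `D` are i.i.d.  `V = E(X(S)Y(S) | class)`:
`E V = 2 Cov`, `E V² = E X(S)Y(S)X(D)Y(D) = 2 E X²Y² - 2 E X² E Y²`, `E[X(S)Y(S) e^{iθ(D)}] = E[V ψ]`, `|ψ| ≤ 1`, `E ψ = F²`; Cauchy-Schwarz. -/
theorem replica (S : LSys) (hS : S.Ok) (X Y θ : S.L →+ ℝ) :
    |S.phi θ * S.E0 (fun z => X z * Y z * Real.cos (θ z))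
        + S.E0 (fun z => X z * Real.sin (θ z)) * S.E0 (fun z => Y z * Real.sin (θ z))
        - S.Cv 0 0 X Y * S.phi θ ^ 2| ≤ Real.sqrt (kap S X Y / 2) := Phase.ph_replica S hS X Y θ

/-- real tilts pass through phases (`lsys_master` with `β = 0`): `|E e^{Y + iX}| ≤ E e^{Y} · φ(X)`.  ("any fixed real tilt", end of [E]L5.3.) -/
theorem phase_tilt (S : LSys) (hS : S.Ok) (X Y : S.L →+ ℝ) :
    |S.E0 (fun z => Real.exp (Y z) * Real.cos (X z))| ≤ S.E0 (fun z => Real.exp (Y z)) * S.phi X := Phase.ph_phase_tilt S hS X Y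

/-- NEED (N3): expectations in height variables are expectations on the image lattice. -/
theorem ex_eq_E0 {G : HGraph} (H : HLaw G) (hP : H.Proper) (b : ℝ) (f : G.V → ℝ) (X : (H.sys b).L →+ ℝ) (hX : H.Lift b f X)
    (F : ℝ → ℝ) : H.Ex b (HLaw.Aff.zero H) (fun φ => F (HLaw.pair f φ)) = (H.sys b).E0 fun z => F (X z) := Phase.ph_ex_eq_E0 H hP b f X hX F

/-! ## 1. Free rectangles -/

theorem rc_ok (R : Rc) (b : ℝ) (hb : 0 < b) : (R.sys b).Ok := Free.fr_ok R b hb

theorem rc_proper (R : Rc) : R.law.Proper := Free.fr_proper R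

/-- bridge to `Top.lean` -/
theorem aCoef_eq (b : ℝ) (m : ℕ) : aCoef b m = (sq m).var b (gd fun v => (v.1 : ℝ) / m) := Free.fr_aCoef_eq b m

/-- the law of a rectangle does not depend on its position -/
theorem rc_translate (R : Rc) (u : ℤ × ℤ) (b : ℝ) (w : Bond → ℝ) (F : ℝ → ℝ) :
    ((Rc.mk (R.o + u) R.p R.q).sys b).E0 (fun z => F ((Rc.mk (R.o + u) R.p R.q).flowX b (fun e => w (e.1 - u, e.2)) z))
      = (R.sys b).E0 fun z => F (R.flowX b w z) := Free.fr_translate R u b w F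

/-- summation by parts: the gradient test is the vertex test of the free Laplacian -/
theorem gradX_lift (R : Rc) (b : ℝ) (g : ℤ × ℤ → ℝ) :
    R.law.Lift b (domFn (D := R.set) (cut := ∅) (R.lap g)) (R.gradX b g) := Free.fr_gradX_lift R b g

/-! ## 2. The coefficient: [C](2.6), [E](5.2), existence of the limit -/

theorem aCoef_nonneg (b : ℝ) (hb : 0 < b) (m : ℕ) : 0 ≤ aCoef b m := Free.fr_aCoef_nonneg b hb m

theorem aCoef_le (b : ℝ) (hb : 0 < b) (m : ℕ) : aCoef b m ≤ 4 * Real.pi ^ 2 * b := Free.fr_aCoef_le b hb m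

/-- centred covariance increases with `b` ([E]P5.1, end of the proof) -/
theorem aCoef_mono_b (b b' : ℝ) (hb : 0 < b) (hbb : b ≤ b') (m : ℕ) : aCoef b m ≤ aCoef b' m := Free.fr_aCoef_mono_b b b' hb hbb m

/-- [C](2.6) = [E](5.2), uniform for `b ≤ β`. -/
theorem cut_coefficient (β : ℝ) : ∃ C : ℝ, ∀ (b : ℝ), 0 < b → b ≤ β → ∀ m M : ℕ, 1 ≤ m → m ≤ M →
    Real.sqrt (aCoef b M) ≤ Real.sqrt (aCoef b m) + C * Real.sqrt ((m : ℝ)⁻¹ + (m : ℝ) / M) := Free.fr_cut_coefficient β

/-- [C]T2.4, first sentence (= `aCoef_tendsto` of Top.lean): from `cut_coefficient`, `aCoef_le`. -/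
theorem aCoef_tendsto' (b : ℝ) (hb : 0 < b) : Tendsto (aCoef b) atTop (𝓝 (aLim b)) := Free.fr_aCoef_tendsto b hb

theorem scaleCoef_fixed (b : ℝ) (hb : 0 < b) (n : ℕ → ℕ) (hn : Tendsto n atTop atTop) :
    ScaleCoef (fun _ => b) n (aLim b) := Free.fr_scaleCoef_fixed b hb n hn

theorem scaleCoef_nonneg {b : ℕ → ℝ} {n : ℕ → ℕ} {a : ℝ} (h : ScaleCoef b n a) : 0 ≤ a := Free.fr_scaleCoef_nonneg h

/-- comparable scales carry the same coefficient -/
theorem scaleCoef_comparable {b : ℕ → ℝ} {n n' : ℕ → ℕ} {a : ℝ} (h : ScaleCoef b n a) (c C : ℝ) (hc : 0 < c)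
    (hn : ∀ᶠ k in atTop, c * n k ≤ n' k ∧ (n' k : ℝ) ≤ C * n k) : ScaleCoef b n' a := Free.fr_scaleCoef_comparable h c C hc hn

/-! ## 3. [C]T2.4 = [E]L5.2: free Gaussian limits -/

theorem reg_trg {n : ℕ → ℕ} {R : ℕ → Rc} (d : ℕ) (α β : Fin d → ℝ) (M : ℝ) (c s : ℕ → Fin d → ℝ)
    (hc : ∀ k i, |c k i| ≤ M ∧ |s k i| ≤ M) : Reg n R fun k => trg d α β (c k) (s k) (n k) := Free.fr_reg_trg d α β M c s hc

/-- every shift with bounded discrete `C²` norm at scale `n` is regular (by definition) -/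
theorem reg_c2 {n : ℕ → ℕ} {R : ℕ → Rc} (g : ℕ → ℤ × ℤ → ℝ) (M : ℝ) (h : ∀ k, C2bd M (n k) (R k) (g k)) : Reg n R g := Free.fr_reg_c2 g M h

theorem reg_pol {n : ℕ → ℕ} {R : ℕ → Rc} (hR : Adm n R) (d : ℕ) (M : ℝ)
    (c : ℕ → Fin d → Fin d → ℝ) (hc : ∀ k i j, |c k i j| ≤ M) : Reg n R fun k => pol d (c k) (n k) := Free.fr_reg_pol hR d M c hc

theorem reg_add {n : ℕ → ℕ} {R : ℕ → Rc} {g g' : ℕ → ℤ × ℤ → ℝ} (h : Reg n R g) (h' : Reg n R g') :
    Reg n R fun k v => g k v + g' k v := Free.fr_reg_add h h'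

theorem reg_smul {n : ℕ → ℕ} {R : ℕ → Rc} {g : ℕ → ℤ × ℤ → ℝ} (h : Reg n R g) (t : ℕ → ℝ) (M : ℝ) (ht : ∀ k, |t k| ≤ M) :
    Reg n R fun k v => t k * g k v := Free.fr_reg_smul h t M ht

/-- the energy of a regular sequence is bounded -/
theorem reg_bdd {n : ℕ → ℕ} {R : ℕ → Rc} {g : ℕ → ℤ × ℤ → ℝ} (hn : Tendsto n atTop atTop) (hR : Adm n R) (h : Reg n R g) :
    ∃ C : ℝ, ∀ᶠ k in atTop, (R k).dir (g k) ≤ C := Free.fr_reg_bdd hn hR h

/-- analytic shifts with moving bounded parameters are regular; the instance needed for the Neumann cosines and for the torus tests -/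
theorem reg_cos {n : ℕ → ℕ} {R : ℕ → Rc} (hn : Tendsto n atTop atTop) (hR : Adm n R) (α β γ : ℕ → ℝ) (M : ℝ)
    (hα : ∀ k, |α k| ≤ M) (hβ : ∀ k, |β k| ≤ M) :
    Reg n R fun k v => Real.cos (α k * ((v.1 : ℝ) / n k) + β k * ((v.2 : ℝ) / n k) + γ k) := Free.fr_reg_cos α β γ M hα hβ

/-- **[C](2.4) variance form**: saturation of every regular shift, on every sequence of rectangles of size `O(n)`. -/
theorem free_var {b : ℕ → ℝ} {n : ℕ → ℕ} {a : ℝ} (hS : ScaleCoef b n a) {R : ℕ → Rc} (hR : Adm n R)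
    {g : ℕ → ℤ × ℤ → ℝ} (hg : Reg n R g) :
    Tendsto (fun k => (R k).var (b k) (gd (g k)) - a * (R k).dir (g k)) atTop (𝓝 0) := Free.fr_free_var hS hR hg

/-- covariances (polarisation of `free_var`) -/
theorem free_cov {b : ℕ → ℝ} {n : ℕ → ℕ} {a : ℝ} (hS : ScaleCoef b n a) {R : ℕ → Rc} (hR : Adm n R)
    {g g' : ℕ → ℤ × ℤ → ℝ} (hg : Reg n R g) (hg' : Reg n R g') :
    Tendsto (fun k => ((R k).sys (b k)).Cv 0 0 ((R k).gradX (b k) (g k)) ((R k).gradX (b k) (g' k))
      - a * (R k).cost2 (gd (g k)) (gd (g' k))) atTop (𝓝 0) := Free.fr_free_cov hS hR hg hg'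

/-- **[C](2.4) = [E](5.4)**: the Laplace transform. -/
theorem free_laplace {b : ℕ → ℝ} {n : ℕ → ℕ} {a : ℝ} (hS : ScaleCoef b n a) {R : ℕ → Rc} (hR : Adm n R)
    {g : ℕ → ℤ × ℤ → ℝ} (hg : Reg n R g) :
    Tendsto (fun k => (R k).lmgf (b k) (gd (g k)) - a / 2 * (R k).dir (g k)) atTop (𝓝 0) := Free.fr_free_laplace hS hR hg

/-- convergence of all moments (odd moments vanish identically by inversion symmetry) -/
theorem free_moment {b : ℕ → ℝ} {n : ℕ → ℕ} {a : ℝ} (hS : ScaleCoef b n a) {R : ℕ → Rc} (hR : Adm n R)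
    {g : ℕ → ℤ × ℤ → ℝ} (hg : Reg n R g) (j : ℕ) :
    Tendsto (fun k => ((R k).sys (b k)).E0 (fun z => (R k).gradX (b k) (g k) z ^ (2 * j))
      - ((2 * j - 1).doubleFactorial : ℝ) * (a * (R k).dir (g k)) ^ j) atTop (𝓝 0) := Free.fr_free_moment hS hR hg j

/-- the fourth joint cumulants vanish (input of `replica`) -/
theorem free_kap {b : ℕ → ℝ} {n : ℕ → ℕ} {a : ℝ} (hS : ScaleCoef b n a) {R : ℕ → Rc} (hR : Adm n R)
    {g g' : ℕ → ℤ × ℤ → ℝ} (hg : Reg n R g) (hg' : Reg n R g') :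
    Tendsto (fun k => kap ((R k).sys (b k)) ((R k).gradX (b k) (g k)) ((R k).gradX (b k) (g' k))) atTop (𝓝 0) := Free.fr_free_kap hS hR hg hg'

/-- characteristic functions of the mean-free observations -/
theorem free_char {b : ℕ → ℝ} {n : ℕ → ℕ} {a : ℝ} (hS : ScaleCoef b n a) {R : ℕ → Rc} (hR : Adm n R)
    {g : ℕ → ℤ × ℤ → ℝ} (hg : Reg n R g) :
    Tendsto (fun k => ((R k).sys (b k)).phi ((R k).gradX (b k) (g k)) - Real.exp (-(a * (R k).dir (g k)) / 2)) atTop (𝓝 0) := Free.fr_free_char hS hR hg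

/-- **[C](2.5)** + face smears: every zero-total profile `f¹ + f²`, `f¹` with bounded scaled `ℓ²` norm, `f²` carried by the four faces with bounded scaled `ℓ²` norm on the faces,
is the free Laplacian of a regular shift (POT: discrete Neumann cosines; Free/PlanT24.lean).  So `free_*` apply to it, with `dir g = ⟨f, A⁺ f⟩` (`= gVar 1 f` of Base/Geom). -/
theorem reg_smear {n : ℕ → ℕ} {R : ℕ → Rc} (hn : Tendsto n atTop atTop) (hR : AdmN n R) (f₁ f₂ : ℕ → ℤ × ℤ → ℝ) (C : ℝ)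
    (h0 : ∀ k, ∑ v ∈ (R k).set, (f₁ k v + f₂ k v) = 0) (h1 : ∀ k, (n k : ℝ) ^ 2 * ∑ v ∈ (R k).set, f₁ k v ^ 2 ≤ C)
    (h2 : ∀ k, (n k : ℝ) * ∑ v ∈ (R k).set, f₂ k v ^ 2 ≤ C) (h3 : ∀ k, ∀ v ∈ (R k).set, v ∉ (R k).bdry → f₂ k v = 0) :
    ∃ g : ℕ → ℤ × ℤ → ℝ, Reg n R g ∧ ∀ k, ∀ v ∈ (R k).set, (R k).lap (g k) v = f₁ k v + f₂ k v := Free.fr_reg_smear hn hR f₁ f₂ C h0 h1 h2 h3

/-- face minus volume: EXACT polynomial potential -/
theorem face_potential (R : Rc) (hp : 0 < R.p) (hq : 0 < R.q) (v : ℤ × ℤ) (hv : v ∈ R.set) :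
    R.lap (fun u => ((u.1 - R.o.1 : ℤ) : ℝ) * (((u.1 - R.o.1 : ℤ) : ℝ) + 1) / (2 * R.p * R.q)) v = R.faceR v - R.unif v := Free.fr_face_potential R hp hq v hv

/-- right face minus left face: the affine shift -/
theorem face_affine (R : Rc) (hq : 0 < R.q) (v : ℤ × ℤ) (hv : v ∈ R.set) :
    R.lap (fun u => (u.1 : ℝ) / R.q) v = R.faceR v - R.faceL v := Free.fr_face_affine R hq v hv

/-- the reference Gaussian variance of Base/Geom for gradient tests -/
theorem gVar_grad (R : Rc) (a : ℝ) (ha : 0 < a) (g : ℤ × ℤ → ℝ) :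
    R.law.gVar a (domFn (D := R.set) (cut := ∅) (R.lap g)) = a * R.dir g := Free.fr_gVar_grad R a ha g

/-- **[C](2.7) = [E](5.6)**: upper bound for PARTIAL tests: a regular gradient restricted to a sub-rectangle (finite sums: by `lsys_var_mono` after cutting). -/
theorem free_partial_upper {b : ℕ → ℝ} {n : ℕ → ℕ} {a : ℝ} (hS : ScaleCoef b n a) {R R' : ℕ → Rc} (hR : Adm n R)
    (hsub : ∀ k, (R' k).set ⊆ (R k).set) {g : ℕ → ℤ × ℤ → ℝ} (hg : Reg n R g) (ε : ℝ) (hε : 0 < ε) :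
    ∀ᶠ k in atTop, (R k).var (b k) (fun e => if e ∈ (R' k).bd then gd (g k) e else 0) ≤ a * (R' k).dir (g k) + ε := Free.fr_free_partial_upper hS hR hsub hg ε hε

/-- **fold inequality, site axis** (replaces association + transport in [C]T2.4, [E]L5.2): finite, every `b`. -/
theorem fold_axis (R : Rc) (b : ℝ) (hb : 0 < b) (t : ℤ) (hsym : 2 * t + 1 = 2 * R.o.1 + R.p) (g : ℤ × ℤ → ℝ)
    (hodd : ∀ v, g (2 * t - v.1, v.2) = - g v) :
    R.var b (gd g) ≤ 2 * R.var b (gd fun v => if t < v.1 then g v else 0) := Free.fr_fold_axis R b hb t hsym g hodd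

/-- **fold inequality, site diagonal** `x - y = t` of a square. -/
theorem fold_diag (R : Rc) (b : ℝ) (hb : 0 < b) (hsq : R.p = R.q) (t : ℤ) (ht : t = R.o.1 - R.o.2) (g : ℤ × ℤ → ℝ)
    (hodd : ∀ v, g (v.2 + t, v.1 - t) = - g v) :
    R.var b (gd g) ≤ 2 * R.var b (gd fun v => if t < v.1 - v.2 then g v else 0) := Free.fr_fold_diag R b hb hsq t ht g hodd

/-- [E]C5.6 in quantitative form (no sequence): affine transforms on a free square are close to one when the coefficient is small.  Uses only `ref_mgf`, `ref_moment`. -/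
theorem affine_small (β P : ℝ) : ∃ C : ℝ, ∀ (b : ℝ), 0 < b → b ≤ β → ∀ (m : ℕ), 1 ≤ m → ∀ p₁ p₂ : ℝ, |p₁| ≤ P → |p₂| ≤ P →
    ((sq m).sys b).E0 (fun z => Real.exp ((sq m).gradX b (fun v => (p₁ * v.1 + p₂ * v.2) / m) z))
      ≤ 1 + C * aCoef b m ^ ((1 : ℝ) / 4) := Free.fr_affine_small β P

/-! ## 4. [C]T2.5 = [E]L5.3, L5.7, L5.8 -/

theorem chr_pos (R : Rc) (_hp : 0 < R.p) (_hq : 0 < R.q) (b : ℝ) (hb : 0 < b) (s : ℤ × ℤ → ℝ) (w : Bond → ℝ) :
    0 < R.chr b s w := by
  rw [Phase.chr_eq_ph]; exact (Phase.ph_pos R b hb _).1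

theorem chr_le_one (R : Rc) (b : ℝ) (hb : 0 < b) (s : ℤ × ℤ → ℝ) (w : Bond → ℝ) : R.chr b s w ≤ 1 := by
  rw [Phase.chr_eq_ph]; exact (Phase.ph_pos R b hb _).2

/-- [C](2.2) for rectangles, with reference cost -/
theorem chr_transfer (R : Rc) (_hp : 0 < R.p) (_hq : 0 < R.q) (b : ℝ) (hb : 0 < b) (s : ℤ × ℤ → ℝ) (w w' : Bond → ℝ) :
    Real.sqrt (-Real.log (R.chr b s (fun e => w e + w' e))) ≤
      Real.sqrt (-Real.log (R.chr b s w)) + Real.sqrt (2 * Real.pi ^ 2 * b * R.cost w') := Phase.ph_chr_transfer R b hb s w w'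

/-- **[C](2.9) = [E](5.9)**: uniform fractional mean, on nondegenerate rectangles, with any flow of bounded reference cost. -/
theorem uniform_phase {b : ℕ → ℝ} {n : ℕ → ℕ} {a : ℝ} (hS : ScaleCoef b n a) (ha : 0 < a) {R : ℕ → Rc} (hR : AdmN n R)
    (l : ℤ) (hl : l ≠ 0) (w : ℕ → Bond → ℝ) (C : ℝ) (hw : ∀ k, (R k).cost (w k) ≤ C) :
    Tendsto (fun k => (R k).chr (b k) (fun v => (l : ℝ) * (R k).unif v) (w k)) atTop (𝓝 0) := Phase.uniform_rc hS ha hR l hl w C hw

theorem zface_pos (b : ℝ) (hb : 0 < b) (m : ℕ) (_hm : 1 ≤ m) : 0 < zface b m := Phase.ph_zface_pos b hb m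

theorem zface_le_one (b : ℝ) (hb : 0 < b) (m : ℕ) : zface b m ≤ 1 := Phase.ph_zface_le_one b hb m

/-- [E]L5.8, last claim -/
theorem zface_mono_b (b b' : ℝ) (hb : 0 < b) (hbb : b ≤ b') (m : ℕ) : zface b' m ≤ zface b m := Phase.ph_zface_mono_b b b' hb hbb m

/-- **[C](2.15) = [E](5.19)**: growth of the face phase.  `c` and `G₀` depend only on the upper bound of the temperatures. -/
theorem face_ratio (β : ℝ) : ∃ (c : ℝ) (G₀ : ℕ), 0 < c ∧ ∀ G : ℕ, G₀ ≤ G → ∀ (b : ℕ → ℝ) (n : ℕ → ℕ) (a : ℝ),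
    ScaleCoef b n a → (∀ k, b k ≤ β) → 0 < a →
    ∀ᶠ k in atTop, c * (G : ℝ) ^ (2 - a / (4 * Real.pi)) * zface (b k) (n k) ≤ zface (b k) (G * n k) := Phase.ph_face_ratio β

/-- [E](5.20): rough bound, uniform in the temperature -/
theorem face_ratio_rough (β₀ β₁ : ℝ) (h0 : 0 < β₀) (G : ℕ) (hG : 4 ≤ G) : ∃ (c : ℝ) (m₀ : ℕ), 0 < c ∧
    ∀ m : ℕ, m₀ ≤ m → ∀ b : ℝ, β₀ ≤ b → b ≤ β₁ → c * zface b m ≤ zface b (G * m) := Phase.ph_face_ratio_rough β₀ β₁ h0 G hG

/-- [C]T2.5, the gap (= `aLim_gap` of Top.lean): `face_ratio` at fixed `b`, iterated along `m, Gm, G²m, …`, against `zface ≤ 1`. -/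
theorem gap (b : ℝ) (hb : 0 < b) : aLim b = 0 ∨ 8 * Real.pi ≤ aLim b := Phase.ph_gap b hb

/-- [B](2.25) = [C](2.14) = [E](5.22), POT, paper-free: radial flows on the `G × G` array of cells.  `H i d` = outward flux of cell `i` through its face `d` (`0,1,2,3` = right, left, up, down).
Antisymmetric across inner faces, `1/(4G)` through every outer face, divergence `δ_{i0}`. -/
theorem radial_flow : ∃ C : ℝ, ∀ G : ℕ, 4 ≤ G → ∀ i0 : Fin G × Fin G,
    (G : ℝ) / 4 ≤ i0.1.1 → (i0.1.1 : ℝ) + 1 ≤ 3 * G / 4 → (G : ℝ) / 4 ≤ i0.2.1 → (i0.2.1 : ℝ) + 1 ≤ 3 * G / 4 →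
    ∃ H : Fin G × Fin G → Fin 4 → ℝ,
      (∀ i i' : Fin G × Fin G, i.1.1 + 1 = i'.1.1 → i.2 = i'.2 → H i 0 = - H i' 1) ∧
      (∀ i i' : Fin G × Fin G, i.2.1 + 1 = i'.2.1 → i.1 = i'.1 → H i 2 = - H i' 3) ∧
      (∀ i : Fin G × Fin G, (i.1.1 + 1 = G → H i 0 = 1 / (4 * G)) ∧ (i.1.1 = 0 → H i 1 = 1 / (4 * G)) ∧
        (i.2.1 + 1 = G → H i 2 = 1 / (4 * G)) ∧ (i.2.1 = 0 → H i 3 = 1 / (4 * G))) ∧
      (∀ i : Fin G × Fin G, H i 0 + H i 1 + H i 2 + H i 3 = if i = i0 then 1 else 0) ∧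
      ∑ i, (((H i 0 - H i 1) / 2) ^ 2 + ((H i 2 - H i 3) / 2) ^ 2) ≤ Real.log G / (2 * Real.pi) + C ∧
      ∑ i, ((H i 0 + H i 1) ^ 2 + (H i 2 + H i 3) ^ 2) ≤ C := Free.fr_radial_flow

/-! ## 5. [C]L2.1, P2.6: duality, the tilt inequality, the spin upper bound -/

/-! [C]L2.1 (duality) is PROVED in `Xy/Dual.lean` (`xy_duality_lsys`, `xy_duality_rect`, `xy_duality_box`, helper177); the ring form formerly stated here was used by nobody and is removed (helper60, 16:40Z). -/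

/-- **the tilt inequality** (finite core of [C]P2.6, [E]P6.5, [S]T3.1 upper bound, BP-BC-3): McBryan-Spencer with free cells.
`ψ` any stream function, `Q i` disjoint rectangles of faces not enclosing a source.
PROOF: `duality` (for two general sources), `lsys_ratio_mono` with `Y = flowS (rot ψ)` (`Y = 0` on the full lattice), gauge change in every cell, `bes_mgf` on the released bonds. -/
theorem spin_tilt (b : ℝ) (hb : 0 < b) (R : ℕ) (x y : ℤ × ℤ) (hx : x ∈ xyBox R) (hy : y ∈ xyBox R) (ψ : ℤ × ℤ → ℝ)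
    {ι : Type} [Fintype ι] (Q : ι → Rc) (hQ : ∀ i, ∀ v ∈ (Q i).set, v ∈ (dualRc R).set ∧ v ∉ ring R)
    (hdis : ∀ i j, i ≠ j → Disjoint (Q i).set (Q j).set) (hsrc : ∀ i, x ∉ (Q i).inner ∧ y ∉ (Q i).inner) :
    latTwo b (xyBox R) x y ≤ Real.exp (ψ x - ψ y)
      * (∏ i, ((Q i).sys b).E0 fun z => Real.exp (flowS ((Q i).sys b) (fun e => rot ψ (domBond (D := (Q i).set) (cut := ∅) e)) z))
      * Real.exp (∑ e ∈ (dualBd R).filter (fun e => ∀ i, e ∉ (Q i).bd), b * (Real.cosh (rot ψ e) - 1)) :=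
  Tilt.tl_spin_tilt b hb R x y hx hy ψ Q hQ hdis hsrc

/-! [C]P2.6, case `a = 0` (`spin_upper_zero` of `TopC.lean`) is PROVED in `Mass/Tilt.lean` (`Mass.spin_upper_zero_tilt`) from `spin_tilt`, `affine_small`, `aCoef_tendsto'`. -/

end

end Claimed.Agent.R285.C2
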