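import Claimed.Agent.R285.Base.Geom
import Claimed.Agent.R285.Free.Defs

/-!
# ROW 285, unit PINS: the DEFINITIONS of `Read/C3.lean` (author helper235), sections 0, 1a and `gradT, dirT, NearP`, moved VERBATIM (same namespace `C3`, same names) by helper249 (16:35Z).

Layering rule (as for `Free/Defs.lean`): the proof files `R285/Pins/*.lean` import THIS file, never `Read/C3.lean`; `Read/C3.lean` imports the proofs when they exist.  No sorry here.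
-/

set_option autoImplicit false

namespace Claimed.Agent.R285.C3

open Filter Topology MeasureTheory
open scoped Classical

noncomputable section

/-! ## 0. Vocabulary -/

/-- a coarse cell -/
abbrev Cell (m₁ m₂ : ℕ) : Type := Fin m₁ × Fin m₂

/-- the height law of the geometry `Γ` (its cells, cuts and hard pins) with GENERAL observation rows: row `o` is the linear combination `∑_κ row o κ · (average over the cell κ)`.
(`CGeom.law` = the special case of box averages; [C]s5 needs differences of cell averages.) -/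
def lawR {m₁ m₂ : ℕ} (Γ : CGeom m₁ m₂) (g : DGrid m₁ m₂) {N : ℕ} (row : Fin N → Cell m₁ m₂ → ℝ) :
    HLaw (Γ.graph g) where
  Λ := HLaw.pinned (Γ.sites g Γ.pin)
  O := Fin N
  B o v := ∑ κ, row o κ * Γ.avgRow g {κ} v

/-- two scale sequences are comparable -/
def Comp (ν ν' : ℕ → ℕ) : Prop := ∃ c : ℕ, ∀ k, ν k ≤ c * ν' k ∧ ν' k ≤ c * ν k

/-- the full free rectangle -/
def rect (m₁ m₂ : ℕ) : CGeom m₁ m₂ where
  T := Finset.univ
  cutF := ∅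
  pin := ∅
  nObs := 0
  box := Fin.elim0
  wgt := Fin.elim0

/-- no rows -/
def noRow {m₁ m₂ : ℕ} : Fin 0 → Cell m₁ m₂ → ℝ := Fin.elim0

/-- integer point charges as a row vector -/
def ptRow {G : HGraph} (q : G.V → ℤ) : G.V → ℝ := fun v => (q v : ℝ)

/-- THE INPUT of the section ([C]T2.4 + T2.5 on rectangles; master version of B2 at moving temperature): along the temperatures `b k` and at all scales comparable to `ν k`
the FREE RECTANGLES have (1) Gaussian log-Laplace limits with coefficient `a` for mean-free combinations of cell averages, (2) vanishing characteristic coefficients for every nonzero integer total charge. -/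
def FreeIn (a : ℝ) (b : ℕ → ℝ) (ν : ℕ → ℕ) : Prop :=
  ∀ (m₁ m₂ K : ℕ) (g : ℕ → DGrid m₁ m₂) (ν' : ℕ → ℕ), Admissible K g ν' → Comp ν ν' →
    ∀ (t : ℕ → Cell m₁ m₂ → ℝ) (Tb : ℝ), (∀ k κ, |t k κ| ≤ Tb) →
    ∀ (q : ∀ k, ((rect m₁ m₂).graph (g k)).V → ℤ)
      (X : ∀ k, ((lawR (rect m₁ m₂) (g k) noRow).sys (b k)).L →+ ℝ),
      (∀ k, (lawR (rect m₁ m₂) (g k) noRow).Lift (b k) ((rect m₁ m₂).cellTest (g k) (t k) - ptRow (q k)) (X k)) →
      ((∀ k, q k = 0) →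
        Tendsto (fun k => (lawR (rect m₁ m₂) (g k) noRow).logLap (b k) (X k)
          - (lawR (rect m₁ m₂) (g k) noRow).gVar a ((rect m₁ m₂).cellTest (g k) (t k)) / 2) atTop (𝓝 0)) ∧
      ((∀ k, ∑ v, q k v ≠ 0) →
        Tendsto (fun k => ((lawR (rect m₁ m₂) (g k) noRow).sys (b k)).phi (X k)) atTop (𝓝 0))

/-- standing hypotheses on a scenario: coefficient, temperatures in a compact subset of `(0,∞)`, scales -/
structure Scen (a : ℝ) (b : ℕ → ℝ) (ν : ℕ → ℕ) : Prop where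
  a_pos : 0 < a
  b_cpt : ∃ b₀ b₁ : ℝ, 0 < b₀ ∧ ∀ k, b₀ ≤ b k ∧ b k ≤ b₁
  free : FreeIn a b ν
  /-- v1: the hypothesis of `Read/C2.lean` itself (the internals of PINS use `C2.free_*` on rectangles directly) -/
  coef : C2.ScaleCoef b ν a

/-- a set of cells which is a union of connected components of the geometry (closed under uncut faces) -/
def Closed {m₁ m₂ : ℕ} (Γ : CGeom m₁ m₂) (U : Finset (Cell m₁ m₂)) : Prop :=
  U ⊆ Γ.T ∧ ∀ κ ∈ Γ.T, ∀ κ' ∈ Γ.T,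
    ((κ.1.1 + 1 = κ'.1.1 ∧ κ.2 = κ'.2 ∧ (κ, true) ∉ Γ.cutF) ∨ (κ.1 = κ'.1 ∧ κ.2.1 + 1 = κ'.2.1 ∧ (κ, false) ∉ Γ.cutF)) →
    (κ ∈ U ↔ κ' ∈ U)

/-- positive separation of two sets of cells (at least one full cell between them) -/
def Sep {m₁ m₂ : ℕ} (A A' : Finset (Cell m₁ m₂)) : Prop :=
  ∀ κ ∈ A, ∀ κ' ∈ A', κ.1.1 + 1 < κ'.1.1 ∨ κ'.1.1 + 1 < κ.1.1 ∨ κ.2.1 + 1 < κ'.2.1 ∨ κ'.2.1 + 1 < κ.2.1

/-! ## 1a. Conditional quantities (lattice side and Gaussian reference side) -/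

section Cond

variable {G : HGraph} (H : HLaw G)

/-- partition sum with a functional of the INTEGER height -/
def ZI (b : ℝ) (α : H.Aff) (F : (G.V → ℤ) → ℝ) : ℝ :=
  ∑' h : H.Λ, F ((h : G.V → ℤ) + α.x) * (H.sys b).W (H.coordA b (h : G.V → ℤ) + α.amb b)

/-- the physical height -/
def phys (h : G.V → ℤ) : G.V → ℝ := fun v => 2 * Real.pi * (h v : ℝ)

/-- restriction to `P`, extended by zero -/
def resZ (P : Set G.V) (h : G.V → ℤ) : G.V → ℤ := fun v => if v ∈ P then h v else 0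

/-- restriction to `P`, extended by zero -/
def resR (P : Set G.V) (φ : G.V → ℝ) : G.V → ℝ := fun v => if v ∈ P then φ v else 0

/-- unnormalised conditional sum given `h_P = u_P`:  `∑_{h : h_P = u_P} F(2π h) W(h)` -/
def ZC (b : ℝ) (P : Set G.V) (u : G.V → ℤ) (F : (G.V → ℝ) → ℝ) : ℝ :=
  (H.addPin P).Z b ⟨resZ P u, 0, 0⟩ F

/-- `F(u) = log E(e^{⟨f, 2π h⟩} | h_P = u_P)` -/
def cLap (b : ℝ) (P : Set G.V) (f : G.V → ℝ) (u : G.V → ℤ) : ℝ :=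
  Real.log (ZC H b P u (fun φ => Real.exp (HLaw.pair f φ)) / ZC H b P u fun _ => 1)

/-- `μ(h_A = 0 | h_P = u_P)` -/
def cPin (b : ℝ) (P A : Set G.V) (u : G.V → ℤ) : ℝ :=
  ZC H b (P ∪ A) (resZ P u) (fun _ => 1) / ZC H b P u fun _ => 1

/-- `r_A(u) = μ(h_A = 0 | h_P = u_P) / μ(h_A = 0 | h_P = 0)`   ((3.1) of [C]) -/
def rPin (b : ℝ) (P A : Set G.V) (u : G.V → ℤ) : ℝ := cPin H b P A u / cPin H b P A 0

/-- expectation of a functional of the integer height under the centred law tilted by `e^{⟨fL, 2π h⟩}` -/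
def ExT (b : ℝ) (fL : G.V → ℝ) (Ψ : (G.V → ℤ) → ℝ) : ℝ :=
  ZI H b (HLaw.Aff.zero H) (fun h => Ψ h * Real.exp (HLaw.pair fL (phys h)))
    / ZI H b (HLaw.Aff.zero H) fun h => Real.exp (HLaw.pair fL (phys h))

/-- a real field: the data `u` on `P`, the variable `v` off `P` -/
def ext (P : Set G.V) (u : G.V → ℝ) (v : {x : G.V // x ∉ P} → ℝ) : G.V → ℝ :=
  fun x => if h : x ∈ P then u x else v ⟨x, h⟩

/-- Gaussian reference integral with prescribed data `u` on `P` -/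
def gZ (a : ℝ) (P : Set G.V) (u : G.V → ℝ) (F : (G.V → ℝ) → ℝ) : ℝ :=
  ∫ v : {x : G.V // x ∉ P} → ℝ, F (ext P u v) * Real.exp (-(H.form a (ext P u v)) / 2)

/-- Gaussian conditional log-Laplace transform -/
def gcLap (a : ℝ) (P : Set G.V) (f : G.V → ℝ) (u : G.V → ℝ) : ℝ :=
  Real.log (gZ H a P u (fun φ => Real.exp (HLaw.pair f φ)) / gZ H a P u fun _ => 1)

/-- Gaussian conditional density of `φ_A = 0` -/
def gcPin (a : ℝ) (P A : Set G.V) (u : G.V → ℝ) : ℝ :=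
  gZ H a (P ∪ A) (resR P u) (fun _ => 1) / gZ H a P u fun _ => 1

/-- Gaussian pin ratio -/
def grPin (a : ℝ) (P A : Set G.V) (u : G.V → ℝ) : ℝ := gcPin H a P A u / gcPin H a P A 0

/-- Gaussian reference expectation (own pins `P₀`), tilted -/
def gExT (a : ℝ) (P₀ : Set G.V) (fL : G.V → ℝ) (Ψ : (G.V → ℝ) → ℝ) : ℝ :=
  gZ H a P₀ 0 (fun φ => Ψ φ * Real.exp (HLaw.pair fL φ)) / gZ H a P₀ 0 fun φ => Real.exp (HLaw.pair fL φ)

end Cond

/-! ## 1. Gradient tests (vocabulary of `mixed_grad`) -/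

section T31

variable {m₁ m₂ : ℕ} (Γ : CGeom m₁ m₂) {N : ℕ} (row : Fin N → Cell m₁ m₂ → ℝ)

/-- the gradient test `∑_e ∇_e u ∇_e (2π h)` over the bonds of the geometry (`u` a function on `ℤ²`) -/
def gradT (g : DGrid m₁ m₂) (β : ℝ) (u : ℤ × ℤ → ℝ) : ((lawR Γ g row).sys β).L →+ ℝ :=
  C2.flowS ((lawR Γ g row).sys β) fun e =>
    2 * Real.pi * C2.gd u (domBond (D := g.region Γ.T) (cut := Γ.cutB g) e)

/-- the Dirichlet energy over the bonds of the geometry -/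
def dirT (g : DGrid m₁ m₂) (u : ℤ × ℤ → ℝ) : ℝ :=
  ∑ e : (Γ.graph g).E, C2.gd u (domBond (D := g.region Γ.T) (cut := Γ.cutB g) e) ^ 2

/-- a cell which is pinned or touches a pinned cell (8 neighbours) -/
def NearP (κ : Cell m₁ m₂) : Prop :=
  ∃ κ' ∈ Γ.pin, κ.1.1 ≤ κ'.1.1 + 1 ∧ κ'.1.1 ≤ κ.1.1 + 1 ∧ κ.2.1 ≤ κ'.2.1 + 1 ∧ κ'.2.1 ≤ κ.2.1 + 1

end T31

/-! ## 2. Two topologies (vocabulary of `cond_transfer` and of [C]L3.9; moved verbatim from `Read/C3.lean` s3-4, 17:45Z, helper235) -/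

/-- restoring the coarse faces `F` -/
def uncut {m₁ m₂ : ℕ} (Γ : CGeom m₁ m₂) (F : Finset (Cell m₁ m₂ × Bool)) : CGeom m₁ m₂ :=
  { Γ with cutF := Γ.cutF \ F }

/-- the second cell of a coarse face lies in `A` (if it exists) -/
def FaceIn {m₁ m₂ : ℕ} (A : Finset (Cell m₁ m₂)) (f : Cell m₁ m₂ × Bool) : Prop :=
  f.1 ∈ A ∧ ∀ κ' : Cell m₁ m₂,
    ((f.2 = true ∧ f.1.1.1 + 1 = κ'.1.1 ∧ f.1.2 = κ'.2) ∨ (f.2 = false ∧ f.1.1 = κ'.1 ∧ f.1.2.1 + 1 = κ'.2.1)) → κ' ∈ A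

/-- quantities of the RESTORED law, read on the vertex set of `Γ` (the two graphs have the same vertices, definitionally) -/
def ExU {m₁ m₂ : ℕ} (Γ : CGeom m₁ m₂) (F : Finset (Cell m₁ m₂ × Bool)) (g : DGrid m₁ m₂) {N : ℕ} (row : Fin N → Cell m₁ m₂ → ℝ)
    (β : ℝ) (fL : (Γ.graph g).V → ℝ) (Ψ : ((Γ.graph g).V → ℤ) → ℝ) : ℝ :=
  ExT (G := (uncut Γ F).graph g) (lawR (uncut Γ F) g row) β fL Ψ

def cLapU {m₁ m₂ : ℕ} (Γ : CGeom m₁ m₂) (F : Finset (Cell m₁ m₂ × Bool)) (g : DGrid m₁ m₂) {N : ℕ} (row : Fin N → Cell m₁ m₂ → ℝ)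
    (β : ℝ) (P : Set (Γ.graph g).V) (f : (Γ.graph g).V → ℝ) (u : (Γ.graph g).V → ℤ) : ℝ :=
  cLap (G := (uncut Γ F).graph g) (lawR (uncut Γ F) g row) β P f u

def ZCU {m₁ m₂ : ℕ} (Γ : CGeom m₁ m₂) (F : Finset (Cell m₁ m₂ × Bool)) (g : DGrid m₁ m₂) {N : ℕ} (row : Fin N → Cell m₁ m₂ → ℝ)
    (β : ℝ) (P : Set (Γ.graph g).V) (u : (Γ.graph g).V → ℤ) (Fn : ((Γ.graph g).V → ℝ) → ℝ) : ℝ :=
  ZC (G := (uncut Γ F).graph g) (lawR (uncut Γ F) g row) β P u Fn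

def gExU {m₁ m₂ : ℕ} (Γ : CGeom m₁ m₂) (F : Finset (Cell m₁ m₂ × Bool)) (g : DGrid m₁ m₂) {N : ℕ} (row : Fin N → Cell m₁ m₂ → ℝ)
    (a : ℝ) (P₀ : Set (Γ.graph g).V) (fL : (Γ.graph g).V → ℝ) (Ψ : ((Γ.graph g).V → ℝ) → ℝ) : ℝ :=
  gExT (G := (uncut Γ F).graph g) (lawR (uncut Γ F) g row) a P₀ fL Ψ

def gcLapU {m₁ m₂ : ℕ} (Γ : CGeom m₁ m₂) (F : Finset (Cell m₁ m₂ × Bool)) (g : DGrid m₁ m₂) {N : ℕ} (row : Fin N → Cell m₁ m₂ → ℝ)
    (a : ℝ) (P : Set (Γ.graph g).V) (f : (Γ.graph g).V → ℝ) (u : (Γ.graph g).V → ℝ) : ℝ :=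
  gcLap (G := (uncut Γ F).graph g) (lawR (uncut Γ F) g row) a P f u

section L39

variable {m₁ m₂ : ℕ} (Γ : CGeom m₁ m₂) {N : ℕ} (row : Fin N → Cell m₁ m₂ → ℝ)
  (F : Finset (Cell m₁ m₂ × Bool)) {N' : ℕ} (row' : Fin (N + N') → Cell m₁ m₂ → ℝ)

/-- `r_Δ(u) = [E_μ(Q_Δ | h_p = u)] / [E_μ(Q_Δ | h_p = 0)]`, as a ratio of the conditional sums of the restored and of the cut law -/
def rDel (g : DGrid m₁ m₂) (β : ℝ) (P : Set (Γ.graph g).V) (u : (Γ.graph g).V → ℤ) : ℝ :=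
  (ZCU Γ F g row' β P u (fun _ => 1) / ZC (lawR Γ g row) β P u fun _ => 1)
    / (ZCU Γ F g row' β P 0 (fun _ => 1) / ZC (lawR Γ g row) β P 0 fun _ => 1)

end L39

end

end Claimed.Agent.R285.C3
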