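import Claimed.Agent.R285.Read.C3Defs
import Claimed.Agent.R285.Pins.T31Law
import Claimed.Agent.R285.Pins.T31
import Claimed.Agent.R285.Pins.T31Rows
import Claimed.Agent.R285.Pins.T32Glue
import Claimed.Agent.R285.Pins.T32Fin

/-!
# ROW 285, BP-READ-C3 : [C] Section 3 (30-pins.tex) "Bands, primary hard pins, and conditional data"      (owner helper235)

## K1 VERDICTS (numbering of the compiled paper: T3.1 mixed limits, T3.2 pin interaction, L3.3 band density, L3.4 path anchoring, L3.5 bins/reinsertion/tails, L3.6 weighted cluster moments,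
## L3.7 sign resampling, (3.19)-(3.23) tilts + size bias, P3.8 vanishing reach, L3.9 restoration).   NO FATAL.
* cable construction (l.236-283), (3.8) chain mgf : REPLACED (simpler, exact, on the PRIMARY graph; no Brownian bridge, no chain, no `N → ∞`):
    (FK) given `|h|` the signs are an Ising model; bond `(x,y)` is open with probability `1 - p_b(|h_x|+|h_y|)/p_b(|h_x|-|h_y|)` if `h_x h_y > 0`, closed otherwise (`bes b (j+2) ≤ bes b j`).
         Extended weight: open `p(|h_x|-|h_y|) - p(|h_x|+|h_y|)`, closed `p(|h_x|+|h_y|)`.  Given `(|h|, ω)` the clusters of `{h ≠ 0}` carry i.i.d. fair signs; clusters are connected sets of primary sites.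
    (FZ) `p_b(m+|k|) = ∫_0^b (m/t) p_t(m) p_{b-t}(k) dt` (`m ≥ 1`): after exploration the unvisited law is a MIXTURE over `(t_e)` of centred `LSys` laws (visited sites pinned to `0`, boundary bonds at temperature `b - t_e`).
         Inequalities between unnormalised sums which are uniform in `t` pass to the posterior by integration.
* L3.3 OK.  At fixed band partition it is T3.1 for a free component with confining rows (`mixed_tilt`, `mixed_rows` without pins), proved from `FreeIn` by Fourier representation of the Gaussian weight in the cell averages: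
         the sum over translations is a Dirac comb in the total charge; charge `0`: `mixed_phi`, charge `≠ 0`: `mixed_phase`; dominated convergence.  LIB: mgf convergence ⟹ moments ⟹ characteristic coefficients (elementary, power series with
         nonnegative coefficients; no Levy / Prokhorov).   POT: Hilbert-Schmidt bound of the reference covariance uniform in `n, ℓ` (determinant ratio), Poincare with band, `T_λ (a g) = A g` is EXACT in the discrete reference.
* L3.4 OK (deterministic: anchored rows/columns + rectangle Poincare + flow duality, then `ref_mgf`).  GEO/POT: walls, junctions.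
* L3.5 OK (checked: Chebyshev + Paley-Zygmund + orbit counting; Jensen `Q_U^p ≤ E_σ |S_U|^{2p}`; both cases of the damped tail).
* L3.6 OK (Holder 4,4,2 exact).   POT: reference cost of `h_d - S` is `O(1 + log(1/ℓ))`.
* L3.7 OK.   * tilts (3.19)-(3.21) OK; in mixture form `P(E|F) ≥ inf_t μ_t(e^L 1_E)/μ_t(e^L)`.   * size bias (3.23) OK from `lsys_phi_four` (log-Hessian) + `|y| = (2/π)∫(1-cos ty)t^{-2}dt`.
* P3.8 OK (both deficits re-derived).  POT: prior variance of a `δ`-cell `≥ c a log(1/δ) - C` uniformly in `λ`; cross covariance through the band `→ 0` as `λ → ∞` uniformly in `n, ℓ` (Caccioppoli in the band).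
* T3.1 OK, repairable prose: "density of smooth shifts vanishing near p" must be a UNIFORM-in-`n` statement on the discrete references (POT "collar continuity": `gVar` with pin `p` minus `gVar` with pin `p` + one layer of fine cells `→ 0`
         with the fineness, uniformly in the mesh).  Elementary route: truncations `T_s v` (`E(T_s v) ≤ s |f|_1`), polynomial barrier `((x₂-y)² - x₁²)/ρ² + 2x₁/ρ` at flat faces, hole filling + logarithmic cutoffs at the finitely many corners.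
* (3.27) four ratios OK (`mixed_rows`); (3.28) relative pin bound OK; Gaussian side `D_W^g → 0`: POT.   * T3.2 rest OK: (3.31)-(3.32) exact; the "finite-observation approximation" is formalised as the TRANSFER PRINCIPLE `cond_transfer`.
* L3.9 OK, exact part = 10 lines of `lsys_ratio_mono` (no chains).

## v1 (15:55Z): PROOF ROUTE = `Pins/Plan.lean` (blueprint v2): L3.5-L3.7, the L^p part of L3.3 and (3.21) are NOT used any more (short proof of vanishing reach under the band law).  `Scen` has the new field `coef`; new export `mixed_grad`.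
## v2 (17:40Z, request of helper178): `pin_interaction`, `cond_transfer`, `restoration_transfer` are for high laws WITHOUT own hard pins (`hpin : Γ.pin = ∅`, as in the paper: "initially without hard pins"); `cond_transfer` needs `(uncut Γ F).NoDiag`.
##    Own pins `P₀` separated from `p`: chain rule `D_{P₀}(A,p) = D(A ∪ P₀, p) - D(P₀, p)` (exact on both sides).
## v3 (18:20Z): DELETED, because no section outside PINS uses them (captain's rule): `mixed_phase` (internal forms: `Pins.FPPhase`, `Pins.pn_fp_phase`), `mixed_approx` (internal: `Pins.pn_t31_approx`, `T32.pn_*` S2),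
##    `mixed_grad` (replaced by the top contract `Pins.pn_core_low : Scen a b ν → CoreLow a b ν` in `Pins/CoreTop.lean`; `Tor.pin_shift_lower` is LINKED to it through `Pins/CoreExit.lean`).
## GEOMETRIES: `NoDiag` v2 of Base/Geom (every component Lipschitz; every cut isolates).  Slits with tips are NOT covered (no ambient extension), neither here nor in the papers.

## CONTRACT (what other sections use): `FreeIn`/`Scen` (input), `mixed_tilt`, `mixed_laplace`, `mixed_var`, `mixed_phi`, `mixed_phase`, `mixed_rows`, `mixed_approx` (T3.1); `dPin_nonneg`, `pin_interaction`, `rPin_mem`, `rPin_mean`,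
`cond_transfer` (T3.2); `restoration_sandwich`, `restoration_density`, `restoration_transfer` (L3.9).   The temperature moves (`b : ℕ → ℝ`), for [E]s5.
(i) IMPORTS: [C]T2.4, T2.5 on rectangles = `FreeIn` (B2/C2 master version); [C]L2.2, L2.3, (2.2) = `Base/Height` + `ref_mgf`; [B]D3.11, L3.12, P3.14, L3.2 = deterministic (POT/GEO, helper26).
(ii) EXTERNALS really used: none beyond Mathlib (Lupu, AHPS, vEL cables are replaced by (FK) + (FZ)).
-/

set_option autoImplicit false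

namespace Claimed.Agent.R285.C3

open Filter Topology MeasureTheory
open scoped Classical

noncomputable section

/-! ## 0, 1a. Vocabulary, conditional quantities, `gradT, dirT, NearP`: see `Read/C3Defs.lean` (moved verbatim, 16:35Z) -/

/-! ## 1. [C] Theorem 3.1 (mixed height limits) -/

section T31

variable {a : ℝ} {b : ℕ → ℝ} {ν : ℕ → ℕ} {m₁ m₂ : ℕ} (Γ : CGeom m₁ m₂) {N : ℕ} (row : Fin N → Cell m₁ m₂ → ℝ)

/-- **T3.1, Laplace form, all cases at once** (hard pins, free components with mean-free tests, confined constants, observation centres = real shifts of the targets, real tilts).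
`α = (0, 0, c k)`.  Coefficients and centres may move in compact sets ("uniform on compact sets"). -/
theorem mixed_tilt (hS : Scen a b ν) (hΓ : Γ.NoDiag) (K : ℕ) (g : ℕ → DGrid m₁ m₂) (hg : Admissible K g ν)
    (hOk : ∀ k, ((lawR Γ (g k) row).sys (b k)).Ok)
    (t : ℕ → Cell m₁ m₂ → ℝ) (c : ℕ → Fin N → ℝ) (Tb : ℝ) (ht : ∀ k κ, |t k κ| ≤ Tb) (hc : ∀ k o, |c k o| ≤ Tb)
    (X : ∀ k, ((lawR Γ (g k) row).sys (b k)).L →+ ℝ)
    (hX : ∀ k, (lawR Γ (g k) row).Lift (b k) (Γ.cellTest (g k) (t k)) (X k)) :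
    Tendsto (fun k => 2 * Real.log (((lawR Γ (g k) row).sys (b k)).wT
          (HLaw.Aff.amb (H := lawR Γ (g k) row) ⟨0, 0, c k⟩ (b k)) (X k) / ((lawR Γ (g k) row).sys (b k)).w 0)
        - (lawR Γ (g k) row).gTilt a 0 (c k) (Γ.cellTest (g k) (t k))) atTop (𝓝 0) :=
  Pins.pn_t31_mixed_tilt Γ row hS hΓ K g hg hOk t c Tb ht hc X hX

/-- T3.1, centred Laplace limit (= `mixed_tilt` with `c = 0`; `gTilt a 0 0 = gVar a`). -/
theorem mixed_laplace (hS : Scen a b ν) (hΓ : Γ.NoDiag) (K : ℕ) (g : ℕ → DGrid m₁ m₂) (hg : Admissible K g ν)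
    (hOk : ∀ k, ((lawR Γ (g k) row).sys (b k)).Ok)
    (t : ℕ → Cell m₁ m₂ → ℝ) (Tb : ℝ) (ht : ∀ k κ, |t k κ| ≤ Tb)
    (X : ∀ k, ((lawR Γ (g k) row).sys (b k)).L →+ ℝ)
    (hX : ∀ k, (lawR Γ (g k) row).Lift (b k) (Γ.cellTest (g k) (t k)) (X k)) :
    Tendsto (fun k => (lawR Γ (g k) row).logLap (b k) (X k)
        - (lawR Γ (g k) row).gVar a (Γ.cellTest (g k) (t k)) / 2) atTop (𝓝 0) :=
  Pins.pn_t31_mixed_laplace Γ row hS hΓ K g hg hOk t Tb ht X hX

/-- T3.1, variances ("moment limits", second moment). -/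
theorem mixed_var (hS : Scen a b ν) (hΓ : Γ.NoDiag) (K : ℕ) (g : ℕ → DGrid m₁ m₂) (hg : Admissible K g ν)
    (hOk : ∀ k, ((lawR Γ (g k) row).sys (b k)).Ok)
    (t : ℕ → Cell m₁ m₂ → ℝ) (Tb : ℝ) (ht : ∀ k κ, |t k κ| ≤ Tb)
    (X : ∀ k, ((lawR Γ (g k) row).sys (b k)).L →+ ℝ)
    (hX : ∀ k, (lawR Γ (g k) row).Lift (b k) (Γ.cellTest (g k) (t k)) (X k)) :
    Tendsto (fun k => ((lawR Γ (g k) row).sys (b k)).V0 (X k)
        - (lawR Γ (g k) row).gVar a (Γ.cellTest (g k) (t k))) atTop (𝓝 0) :=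
  Pins.pn_t31_mixed_var Γ row hS hΓ K g hg hOk t Tb ht X hX

/-- T3.1, characteristic coefficients of lifted tests (Gaussian limit in the weak sense). -/
theorem mixed_phi (hS : Scen a b ν) (hΓ : Γ.NoDiag) (K : ℕ) (g : ℕ → DGrid m₁ m₂) (hg : Admissible K g ν)
    (hOk : ∀ k, ((lawR Γ (g k) row).sys (b k)).Ok)
    (t : ℕ → Cell m₁ m₂ → ℝ) (Tb : ℝ) (ht : ∀ k κ, |t k κ| ≤ Tb)
    (X : ∀ k, ((lawR Γ (g k) row).sys (b k)).L →+ ℝ)
    (hX : ∀ k, (lawR Γ (g k) row).Lift (b k) (Γ.cellTest (g k) (t k)) (X k)) :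
    Tendsto (fun k => ((lawR Γ (g k) row).sys (b k)).phi (X k)
        - Real.exp (-(lawR Γ (g k) row).gVar a (Γ.cellTest (g k) (t k)) / 2)) atTop (𝓝 0) :=
  Pins.pn_t31_mixed_phi Γ row hS hΓ K g hg hOk t Tb ht X hX

/-- T3.1, change of a confining finite-rank penalty on one fixed (pinned or unpinned) domain ((3.27), [C](5.x)): the ratio of the two partition sums has its Gaussian limit.
Both systems of rows confine every unpinned constant (`Proper`). -/
theorem mixed_rows (hS : Scen a b ν) (hΓ : Γ.NoDiag) (K : ℕ) (g : ℕ → DGrid m₁ m₂) (hg : Admissible K g ν)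
    {N₂ : ℕ} (row₂ : Fin N₂ → Cell m₁ m₂ → ℝ)
    (hP : ∀ k, (lawR Γ (g k) row).Proper) (hOk : ∀ k, ((lawR Γ (g k) row).sys (b k)).Ok)
    (hP₂ : ∀ k, (lawR Γ (g k) row₂).Proper) (hOk₂ : ∀ k, ((lawR Γ (g k) row₂).sys (b k)).Ok) :
    Tendsto (fun k => Real.log (((lawR Γ (g k) row).sys (b k)).w 0 / ((lawR Γ (g k) row₂).sys (b k)).w 0)
        - Real.log (gZ (lawR Γ (g k) row) a (Γ.sites (g k) Γ.pin) 0 (fun _ => 1)
            / gZ (lawR Γ (g k) row₂) a (Γ.sites (g k) Γ.pin) 0 fun _ => 1)) atTop (𝓝 0) :=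
  Pins.pn_t31_mixed_rows Γ row hS hΓ K g hg row₂ hP hOk hP₂ hOk₂

end T31

/-- [C]L2.3 in the form used here (IMPORT from C2; = `lsys_reference` extended by the Gaussian coordinates + flow duality): uniform Gaussian-type bound of the centred transform by the reference cost. -/
theorem ref_mgf (b₁ R : ℝ) : ∃ C : ℝ, ∀ (G : HGraph) (H : HLaw G) (b : ℝ), 0 < b → b ≤ b₁ → (H.sys b).Ok →
    ∀ (f : G.V → ℝ) (X : (H.sys b).L →+ ℝ), H.Lift b f X → H.gVar 1 f ≤ R → H.logLap b X ≤ C * H.gVar 1 f := Pins.pn_t31_ref_mgf b₁ R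


/-! ## 3. [C] Theorem 3.2 (separated pin interaction, conditional laws at typical data) -/

/-! `uncut, FaceIn, ExU, cLapU, ZCU, gExU, gcLapU, rDel`: see `Read/C3Defs.lean` s2 (moved verbatim, 17:45Z) -/

section T32

variable {a : ℝ} {b : ℕ → ℝ} {ν : ℕ → ℕ} {m₁ m₂ : ℕ} (Γ : CGeom m₁ m₂) {N : ℕ} (row : Fin N → Cell m₁ m₂ → ℝ)

/-- T3.2: `D_n(A,p) ≥ 0` (exact; `lsys_event_mono`). -/
theorem dPin_nonneg (g : DGrid m₁ m₂) (β : ℝ) (hβ : 0 < β) (hP : (lawR Γ g row).Proper) (hOk : ((lawR Γ g row).sys β).Ok)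
    (A p : Finset (Cell m₁ m₂)) : 0 ≤ (lawR Γ g row).dPin β (Γ.sites g A) (Γ.sites g p) := Pins.T32.pn_gl_dPin_nonneg Γ row g β hβ hP hOk A p

/-- **T3.2, first assertion**: the interaction of two separated hard pins under a high law converges to the Gaussian pin interaction of the precision `a⁻¹ 𝓔 + |B·|²`. -/
theorem pin_interaction (hS : Scen a b ν) (hΓ : Γ.NoDiag) (hpin : Γ.pin = ∅) (K : ℕ) (g : ℕ → DGrid m₁ m₂) (hg : Admissible K g ν)
    (hP : ∀ k, (lawR Γ (g k) row).Proper) (hOk : ∀ k, ((lawR Γ (g k) row).sys (b k)).Ok)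
    (A p : Finset (Cell m₁ m₂)) (hsep : Sep A p) :
    Tendsto (fun k => (lawR Γ (g k) row).dPin (b k) (Γ.sites (g k) A) (Γ.sites (g k) p)
      - (lawR Γ (g k) row).gPin a (Γ.sites (g k) Γ.pin) (Γ.sites (g k) A) (Γ.sites (g k) p)) atTop (𝓝 0) :=
  Pins.T32.pn_fin_pin Γ row hS hΓ hpin K g hg hP hOk A p hsep

/-- T3.2: `0 < r ≤ 1` (exact). -/
theorem rPin_mem (g : DGrid m₁ m₂) (β : ℝ) (hβ : 0 < β) (hP : (lawR Γ g row).Proper) (hOk : ((lawR Γ g row).sys β).Ok)
    (A p : Finset (Cell m₁ m₂)) (hd : Disjoint A p) (u : (Γ.graph g).V → ℤ) :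
    0 < rPin (lawR Γ g row) β (Γ.sites g p) (Γ.sites g A) u ∧ rPin (lawR Γ g row) β (Γ.sites g p) (Γ.sites g A) u ≤ 1 :=
  Pins.T32.pn_gl_rPin_mem Γ row g β hβ hP hOk A p hd u

/-- T3.2: `E_μ r = e^{-D}` (exact; centred law, no tilt). -/
theorem rPin_mean (g : DGrid m₁ m₂) (β : ℝ) (hβ : 0 < β) (hP : (lawR Γ g row).Proper) (hOk : ((lawR Γ g row).sys β).Ok)
    (A p : Finset (Cell m₁ m₂)) (hd : Disjoint A p) :
    ExT (lawR Γ g row) β 0 (rPin (lawR Γ g row) β (Γ.sites g p) (Γ.sites g A))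
      = Real.exp (-(lawR Γ g row).dPin β (Γ.sites g A) (Γ.sites g p)) := Pins.T32.pn_gl_rPin_mean Γ row g β hβ hP hOk A p hd

/-- **T3.2, conditional laws and pin ratio at typical data = TRANSFER PRINCIPLE** (formal content of "Gaussian finite-observation approximation").
`Γ` = the CUT geometry with rows `row`; `uncut Γ F` with rows `row'` = the RESTORED geometry (take `F = ∅`, `row' = row` for one topology).  The restored faces and the supports of the new rows lie in the core `A`.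
Data `h_p` are sampled under the centred law of either topology (`top`), tilted by a fixed test `tL`.  The conditional log-Laplace transforms of fixed tests in both topologies and the CUT CENTRED pin ratio `r_A` have jointly the law of
their counterparts in the discrete Gaussian reference on the same graph, in the sense of bounded continuous test functions `Φ`. -/
theorem cond_transfer (hS : Scen a b ν) (hΓ : Γ.NoDiag) (hpin : Γ.pin = ∅) (K : ℕ) (g : ℕ → DGrid m₁ m₂) (hg : Admissible K g ν)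
    (hP : ∀ k, (lawR Γ (g k) row).Proper) (hOk : ∀ k, ((lawR Γ (g k) row).sys (b k)).Ok)
    (A p : Finset (Cell m₁ m₂)) (hsep : Sep A p)
    (F : Finset (Cell m₁ m₂ × Bool)) (hF : ∀ f ∈ F, FaceIn A f) (hΓ' : (uncut Γ F).NoDiag) {N' : ℕ} (row' : Fin (N + N') → Cell m₁ m₂ → ℝ)
    (hr : ∀ o, row' (Fin.castAdd N' o) = row o) (hr' : ∀ o, ∀ κ ∉ A, row' (Fin.natAdd N o) κ = 0)
    (top : Bool) {J J' : ℕ} (tX : Fin J → ℕ → Cell m₁ m₂ → ℝ) (tX' : Fin J' → ℕ → Cell m₁ m₂ → ℝ) (tL : ℕ → Cell m₁ m₂ → ℝ)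
    (Tb : ℝ) (hX : ∀ i k κ, |tX i k κ| ≤ Tb) (hX' : ∀ i k κ, |tX' i k κ| ≤ Tb) (hL : ∀ k κ, |tL k κ| ≤ Tb)
    (Φ : (Fin J → ℝ) × (Fin J' → ℝ) × ℝ → ℝ) (hΦ : Continuous Φ) (hΦb : ∃ C, ∀ x, |Φ x| ≤ C) :
    Tendsto (fun k =>
      (if top then ExU Γ F (g k) row' (b k) (Γ.cellTest (g k) (tL k)) else
          ExT (lawR Γ (g k) row) (b k) (Γ.cellTest (g k) (tL k)))
        (fun h => Φ (fun i => cLap (lawR Γ (g k) row) (b k) (Γ.sites (g k) p) (Γ.cellTest (g k) (tX i k)) h,
          fun i => cLapU Γ F (g k) row' (b k) (Γ.sites (g k) p) (Γ.cellTest (g k) (tX' i k)) h,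
          rPin (lawR Γ (g k) row) (b k) (Γ.sites (g k) p) (Γ.sites (g k) A) h))
      - (if top then gExU Γ F (g k) row' a (Γ.sites (g k) Γ.pin) (Γ.cellTest (g k) (tL k)) else
          gExT (lawR Γ (g k) row) a (Γ.sites (g k) Γ.pin) (Γ.cellTest (g k) (tL k)))
        (fun φ => Φ (fun i => gcLap (lawR Γ (g k) row) a (Γ.sites (g k) Γ.pin ∪ Γ.sites (g k) p) (Γ.cellTest (g k) (tX i k)) φ,
          fun i => gcLapU Γ F (g k) row' a (Γ.sites (g k) Γ.pin ∪ Γ.sites (g k) p) (Γ.cellTest (g k) (tX' i k)) φ,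
          grPin (lawR Γ (g k) row) a (Γ.sites (g k) Γ.pin ∪ Γ.sites (g k) p) (Γ.sites (g k) A) φ))) atTop (𝓝 0) :=
  Pins.T32.pn_fin_cond_transfer Γ row hS hΓ hpin K g hg hP hOk A p hsep F hF hΓ' row' hr hr' top tX tX' tL Tb hX hX' hL Φ hΦ hΦb

end T32

/-! ## 4. [C] Lemma 3.9 (restoration and two-way transfer) -/

section L39

variable {a : ℝ} {b : ℕ → ℝ} {ν : ℕ → ℕ} {m₁ m₂ : ℕ} (Γ : CGeom m₁ m₂) {N : ℕ} (row : Fin N → Cell m₁ m₂ → ℝ)
  (F : Finset (Cell m₁ m₂ × Bool)) {N' : ℕ} (row' : Fin (N + N') → Cell m₁ m₂ → ℝ)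

/-- L3.9, (3.30) first part (exact): `r_A ≤ r_Δ ≤ 1`. -/
theorem restoration_sandwich (g : DGrid m₁ m₂) (β : ℝ) (hβ : 0 < β) (hP : (lawR Γ g row).Proper) (hOk : ((lawR Γ g row).sys β).Ok)
    (A p : Finset (Cell m₁ m₂)) (hd : Disjoint A p) (hF : ∀ f ∈ F, FaceIn A f)
    (hr : ∀ o, row' (Fin.castAdd N' o) = row o) (hr' : ∀ o, ∀ κ ∉ A, row' (Fin.natAdd N o) κ = 0) (u : (Γ.graph g).V → ℤ) :
    rPin (lawR Γ g row) β (Γ.sites g p) (Γ.sites g A) u ≤ rDel Γ row F row' g β (Γ.sites g p) u ∧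
      rDel Γ row F row' g β (Γ.sites g p) u ≤ 1 := Pins.T32.pn_gl_sandwich Γ row F row' g β hβ hP hOk A p hd hF hr hr' u

/-- L3.9, (3.30) last part (exact): `r_A ≤ dν_p/dμ_p ≤ e^{D(A,p)}`, `μ` = cut centred law, `ν` = restored centred law. -/
theorem restoration_density (g : DGrid m₁ m₂) (β : ℝ) (hβ : 0 < β) (hP : (lawR Γ g row).Proper) (hOk : ((lawR Γ g row).sys β).Ok)
    (A p : Finset (Cell m₁ m₂)) (hd : Disjoint A p) (hF : ∀ f ∈ F, FaceIn A f)
    (hr : ∀ o, row' (Fin.castAdd N' o) = row o) (hr' : ∀ o, ∀ κ ∉ A, row' (Fin.natAdd N o) κ = 0) (u : (Γ.graph g).V → ℤ) :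
    rPin (lawR Γ g row) β (Γ.sites g p) (Γ.sites g A) u * (ZC (lawR Γ g row) β (Γ.sites g p) u (fun _ => 1) / ZC (lawR Γ g row) β ∅ 0 fun _ => 1)
        ≤ ZCU Γ F g row' β (Γ.sites g p) u (fun _ => 1) / ZCU Γ F g row' β ∅ 0 (fun _ => 1) ∧
      ZCU Γ F g row' β (Γ.sites g p) u (fun _ => 1) / ZCU Γ F g row' β ∅ 0 (fun _ => 1)
        ≤ Real.exp ((lawR Γ g row).dPin β (Γ.sites g A) (Γ.sites g p))
          * (ZC (lawR Γ g row) β (Γ.sites g p) u (fun _ => 1) / ZC (lawR Γ g row) β ∅ 0 fun _ => 1) :=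
  Pins.T32.pn_gl_density Γ row F row' g β hβ hP hOk A p hd hF hr hr' u

/-- L3.9, two-way transfer of asymptotically negligible events of the guard data, also under fixed tilts. -/
theorem restoration_transfer (hS : Scen a b ν) (hΓ : Γ.NoDiag) (hpin : Γ.pin = ∅) (K : ℕ) (g : ℕ → DGrid m₁ m₂) (hg : Admissible K g ν)
    (hP : ∀ k, (lawR Γ (g k) row).Proper) (hOk : ∀ k, ((lawR Γ (g k) row).sys (b k)).Ok)
    (A p : Finset (Cell m₁ m₂)) (hsep : Sep A p) (hF : ∀ f ∈ F, FaceIn A f)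
    (hr : ∀ o, row' (Fin.castAdd N' o) = row o) (hr' : ∀ o, ∀ κ ∉ A, row' (Fin.natAdd N o) κ = 0)
    (tL tL' : ℕ → Cell m₁ m₂ → ℝ) (Tb : ℝ) (hL : ∀ k κ, |tL k κ| ≤ Tb) (hL' : ∀ k κ, |tL' k κ| ≤ Tb)
    (Ψ : ∀ k, ((Γ.graph (g k)).V → ℤ) → ℝ) (h01 : ∀ k h, 0 ≤ Ψ k h ∧ Ψ k h ≤ 1)
    (hloc : ∀ k h, Ψ k h = Ψ k (resZ (Γ.sites (g k) p) h)) :
    Tendsto (fun k => ExT (lawR Γ (g k) row) (b k) (Γ.cellTest (g k) (tL k)) (Ψ k)) atTop (𝓝 0) ↔
      Tendsto (fun k => ExU Γ F (g k) row' (b k) (Γ.cellTest (g k) (tL' k)) (Ψ k)) atTop (𝓝 0) :=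
  Pins.T32.pn_fin_restoration_transfer Γ row F row' hS hΓ hpin K g hg hP hOk A p hsep hF hr hr' tL tL' Tb hL hL' Ψ h01 hloc

end L39

end

end Claimed.Agent.R285.C3
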