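import Claimed.Agent.R285.C5.Defs
import Claimed.Agent.R285.C5.TorUp
import Claimed.Agent.R285.C5.Tor
import Claimed.Agent.R285.C5.Shift
import Claimed.Agent.R285.C5.Avg
import Claimed.Agent.R285.C5.Res
import Claimed.Agent.R285.C5.Pot
import Claimed.Agent.R285.C5.Cont
import Claimed.Agent.R285.C5.GRaw
import Claimed.Agent.R285.C5.GAsm

/-!
# ROW 285, post BP-READ-C5: [C] Section 5 = `50-openness.tex` (a > 8π is open) and Section 6 = `60-critical.tex`      (owner helper75)

Numbering (shared counter): P5.1 `prop:openness`, L5.2 `lem:op-local-limits`, L5.3 `lem:op-large-field`, L5.4 `lem:op-entry`; equations (5.1) `op-reference` ... (5.32) `op-original-torus` in the order of the file.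

## K1 verdicts.  NO FATAL ITEM.  What OTHER sections use: ONLY P5.1 (`Top.aLim_open`), through [C] s6.
* **s6 OK, PROVED**: `Glue/C6.lean` (helper286), pure logic from gap, spin_upper(a=0), spin_lower, critical_lower, openness, m > 0 below b_c.
* **P5.1 OK as a blueprint.**  Skeleton = (T1) `limsup Var_tor H_n ≤ a/(8π²)`; (T2) cell profile vs cosine; (T3) removal of the added precision; (T4) RG lower bound for the STRENGTHENED torus law, locally uniform in `b'`.
  `aLim_open'` below is PROVED from (T1)-(T4), and (T4) is PROVED from `graw_system` + `graw_tube` (C5/GRaw.lean; raw coordinates of B10, dummy z-slot): the contracts are strong enough.  No continuity, monotonicity or derivative of `a(·)` is used; `b' ≥ b` would be free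
  (`lsys_var_mono_b`), the content is `b' < b`.
  CAN IT BE REPLACED BY THE ENTRY OF [F]/[E]?  NO: the cutoff `χ_s` costs `n^C e^{-c s²}`, so a fixed `(s, b')` only reaches `n ≤ e^{c s²}`, and delocalisation is not a finite-size property.  The added precision gives a ONE-SIDED comparison valid at
  all scales; this is the point of the section.  So [C] s5 needs its own (third) instance of the entry theorem and the GAPPED (one-coordinate) long map.
* **(5.1)-(5.4), conventions l.17-63: OK.**  `str H κ₀ √δ` (C5/Defs) realises (5.2) on every `HLaw`; a cut deletes an averaged bond automatically (`cellPairs`).  All rules of `Base/Height` apply verbatim (`strRef`): no new comparison lemma is needed.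
* **L5.2 first limit (t fixed, s0 → ∞; l.86-107): OK given [C] T3.1, T3.2.**  T3.1 (2nd paragraph) already allows "a fixed finite-rank nonnegative quadratic penalty in box averages"; T3.2 is stated only for `‖B_n h‖²`, and (5.5) (checked: Bayes, four
  applications of `P_W(A) = P(A) E_A W / E W`) reduces the tilted interaction to T3.1 under the pins `∅, H, p, H ∪ p`.  Conditional laws: `μ_W(·|h_p) = μ(· W|h_p)/μ(W|h_p)`, `W` bounded continuous in finitely many smears: needs the "conditional weak laws" of T3.2.
  REPAIR/SIMPLIFICATION: ask C3 to state T3.1/T3.2 for penalty rows = arbitrary fixed linear combinations of cell averages of a `CGeom`; then the first limit is an INSTANCE on `Geo.refine Γ t` (`first_limit_density`), reference = coefficient `a(b)` with the averaged rows.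
* **L5.2 second limit (t → ∞; l.108-244): repairable = continuum prose, becomes a DETERMINISTIC discrete statement (POT layer).**  Forms (l.108-146): OK.  New observation: `avgEn ≤ 𝓔` with constant ONE (`avgEn_le`), hence
  `a⁻¹𝓔 ≤ a⁻¹𝓔 + δ avgEn ≤ a'⁻¹𝓔` at every finite `(t, s0)`: one half of each comparison is exact (`pot_gEn_le`), the other half is `pot_gEn_limit` (interpolation of subcell averages; plan in C5/Pot).  No `H¹`, no Mosco convergence.
  Interaction determinant (l.148-236): plausible, only sketched (Caccioppoli with the commutator bound (5.8): checked; singular values `O(j⁻¹)` from two compact embeddings; finite-probe approximation of cross projections): `pot_gPin_limit` = WORST ITEM of the post.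
  ALTERNATIVE: L5.4 uses `D(H,p)` only through `D ≤ C e^{-cR}` and through `E r_H = e^{-D}`; it suffices to have [B] P3.14 (localisation + determinant bound) for the CLASS of forms `a⁻¹A + N + B_s^*B_s`, `0 ≤ N ≤ δ A`, range of `N` `≤ 2 s/t`: tell B3b.
* **L5.3 OK, re-derived and simplified; true for EVERY `b' > 0`, every `t, s0`.**  First half (l.264-272) needs neither chains nor theta functions: split the centre `c = c_R + c_⊥` along the real span of the Gaussian coordinates of the lattice and use
  `lsys_le_centred` (`lsys_shift_energy`, 2 lines of mathematics).  Second half: (5.10) two-cell Poincaré with a constant independent of `t`: OK; (5.11): OK; converse `E_G(y) ≤ C ∑_faces (y_x - y_x')²` (l.292-303): OK = [F] (ent:face-energy-upper), vertex values =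
  averages over face-connected sectors are NECESSARY (a function of the angle alone has energy `~ log s`): share `F4a.face_energy_upper`.  `c_*` depends on `(δ, a')` only, so there is no circularity with (5.12).
* **(5.12) order of parameters: OK** but implicit: `δ`; `c_*`; `h₁ < h_* < 1/p₂`, `1 < p₁ < p₂` (all close to 1 when `a - 8π` is small); THEN `κ` (Hölder `(p₁, p₁')`, see B9), `h₀`, `L` (gap `L^{2 - a'/4π}`), `𝔄`; then `q, R, P = R⁵`; `ε₁`, `U_big`; `t`; `s0(t)`; `I`.
* **L5.4: repairable = schema.**  It is a RE-RUN of [B] T9.1 (see `Read/B9.lean`) with four changes, each checked: (i) bad boxes: (9.24) replaced by L5.3, reserve `h₁ > 1 - c_*` (l.615-665: OK; all data costs are charged to faces of the UNCUT graph `D⁰`, (5.22) is two-cell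
  Poincaré + residuals: OK); (ii) positive branches need the separate bound (5.21) = `local_density` + continuity in `b'`: OK; (iii) proxies (5.15) have the scalar frozen at `b` and the Gaussian shape at `a'`: OK, exact algebra; (iv) supports of restored averaged bonds are
  whole subcells inside the core pins (L3.x restoration allows positive forms): OK.  (5.26) = `lsys_phi_affine` (checked: `|Z(y+iz)| = e^{|z|²/2} |wC(α,0,X)|`, `Z(iz) = e^{|z|²/2} w(0) φ(X)`); "pinning increases the characteristic factor" = `lsys_phi_mono`.
  Uniformity in `b'` (l.818-845): finitely many finite graphs, strict slack, `δ_i ≤ 1`: OK (`lsys_continuous_b`); only REAL `b'`, no analyticity in the temperature (simpler than [E] P3.1).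
  RECOMMENDATION (same as B9): ONE generic entry theorem over `LSys` families with inputs (I1) rules; (I2) large-field reserve = `large_field`; (I3) local limits on finitely many geometries = `local_density`, `local_pin`, `local_phase` + conditional versions (format: C3);
  (I4) continuity = `lsys_continuous_b`; (I5) alignment `s0 ∣ s ∣ m`, square symmetry.  C5 supplies (I2)-(I5).
* **l.868-930 gapped stability: OK given [B] P8.3 in the ONE-COORDINATE scheme, L9.2, L10.3, (10.10), (10.11).**  The only delicate point, that the admissible smallness is chosen BEFORE the entry scale, is addressed (l.880-903 = proof of L10.3: uniform in `m ≥ m_min`); it is visible in the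
  quantifiers of `graw_system` (`K` before `ε`).  Tell B8/B10: state P8.3, L10.3 for the scheme without `z` on a compact reference interval in `(8π, ∞)`, uniformly in the starting scale.  The dynamics itself is trivial (`gapped_stay`).
* **l.931-975 torus diagnostic: OK given [B] (10.3).**  Only SMALLNESS of the terminal activities is used (Cauchy in the source `w` on a fixed disc gives `|Var - Var_{a'}| ≤ C ν_j`).  In the interface: `GReadOK.rep`, `GMapOK.rV_bd`.
* **l.976-1004 (a = 0 ⇒ the torus variance vanishes): OK, elementary**; general form `torVar_limsup_le`; needs only the easy half of T2.4 ((2.9) cutting, (2.11)) and `lsys_reference`.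

## (i) imports from other posts
[C] L2.2, L2.3 = rules of `Base/Height`; [C] T2.4 upper half (C2); [C] T3.1, T3.2, L3.x restoration with general rows (C3); [B] P3.14, L3.12 (B3b); [B] P8.3 one-coordinate scheme (B8); [B] T9.1 toolkit, L9.2-L9.4, (9.9)-(9.11), (9.20)-(9.34) (B9);
[B] L10.3, (10.3), (10.10), (10.11) (B10); [F] (ent:face-energy-upper) (F4a).
## (ii) external theorems really used: none beyond those of B9 (three lines, Cauchy).
## Size estimate (lines of Lean): T1 2-3k; T2+T3 1k; L5.3 0.5k + 2-3k (shared with F4a); L5.2: POT1 4-6k, POT2 8-12k, conditional versions with C3; instantiation of the generic entry theorem 3-5k (+ 40k generic, B9);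
gapped map + Gaussian curves + read-out 10-15k on top of B8; dynamics 0.2k.
## Cut (files `R285/C5/*.lean`, one owner per file; registered 14:50Z)
L-C5-STAY (`Stay`), L-C5-SHIFT (`Shift`), L-C5-TOR (`Tor`), L-C5-AVG (`Avg`), L-C5-CONT (`Cont`): leaves, can start now.   PK-C5-T1 (`TorUp`), PK-C5-RES (`Res`), PK-C5-POT1, PK-C5-POT2 (`Pot`): packages (architect + provers).
BP-C5-ENTRY (helper262: entry half; helper75: map, dynamics, read-out): `graw_system`, `local_*` (this file).
-/

set_option autoImplicit false

namespace Claimed.Agent.R285.C5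

open Filter Topology
open scoped Classical

noncomputable section

/-! ## E. L5.2 (strengthened local limits): NO CONTRACT HERE ANY MORE (18:00Z).
The former CGeom statements `first_limit_density`, `local_density`, `local_pin`, `local_phase` had no consumer and are DELETED.  L5.4 (ENTRY, chief helper262: `C5/Entry.lean`, `C5/EntBox*.lean`, `C5/EntLaw.lean`) states what it
consumes in its own window vocabulary: first limit (`t` fixed, `s0 → ∞`) from C3; second limit `t → ∞` = POT1 (`C5/PotE*.lean`, helper83: energies) + POTD (`C5/PotD.lean`, helper145: decay, pins). -/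

/-! ## G. The construction contract, RAW coordinates (definitions, dynamics and glue: `C5/GRaw.lean`) -/

/-- **THE CONSTRUCTION CONTRACT** (L5.2 + L5.3 + L5.4 + [B] P8.3, L9.2, L10.3, (10.3)).  Order of the quantifiers: `δ`; map constants `K`; entry size `ε`; then `(s0, s)`, the neighbourhood and the spaces.
Producers: `GDynOK.raw, tor, pure, σ_id, kV_up` = MAP (`C5/GMap.lean`); `GDynOK.K0_bd, T0_bd` = ENTRY (L5.4, helper262); `GReadOK'` = READ-OUT (`C5/GRead.lean`). -/
theorem graw_system (b : ℝ) (hb : 0 < b) (ha : 8 * Real.pi < aLim b) :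
    ∃ δ > 0, 8 * Real.pi < aPrime (aLim b) δ ∧ ∃ K : GRawK, ∀ ε > 0, ∃ (s0 s : ℕ) (I : Set ℝ) (S : GRawSys),
      I ∈ 𝓝 b ∧ GDynOK K ε I S ∧ GReadOK' K (aPrime (aLim b) δ) δ s0 s I S := graw_system_asm b hb ha

/-! ## H. Assembly (PROVED from the contracts above: checks that they are strong enough) -/

/-- **(T4)** = (5.31) minus the noise: the RG output, from `graw_system` and `graw_tube`. -/
theorem str_torus_lower (b : ℝ) (hb : 0 < b) (ha : 8 * Real.pi < aLim b) :
    ∃ (δ c : ℝ) (s0 s N0 L : ℕ), 0 < δ ∧ 0 < c ∧ 0 < s ∧ 0 < N0 ∧ s ∣ N0 ∧ 2 ≤ L ∧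
      ∀ᶠ b' in 𝓝 b, ∀ᶠ j : ℕ in atTop, c ≤ strTorVar δ s0 s b' (N0 * L ^ j) := by
  obtain ⟨δ, hδ, ha', K, hsys⟩ := graw_system b hb ha
  obtain ⟨c, s0, s, N0, L, h1, h2, h3, h4, h5, h6⟩ :=
    torus_lower_of_raw (b := b) (δ := δ) (lt_trans (by positivity) ha') K hsys
  exact ⟨δ, c, s0, s, N0, L, hδ, h1, h2, h3, h4, h5, h6⟩

/-- **P5.1** from (T1)-(T4); PROVED (checks that the four contracts are strong enough). -/
theorem aLim_open' (b : ℝ) (hb : 0 < b) (h : 8 * Real.pi < aLim b) : ∀ᶠ b' in 𝓝 b, 0 < aLim b' := by
  refine open_of_diagnostic (V := torVar) (γ := (8 * Real.pi ^ 2)⁻¹) aLim_nonneg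
    (fun b hb ε hε => torVar_limsup_le b hb ε hε) hb ?_
  obtain ⟨δ, c, s0, s, N0, L, -, hc, hs, hN0, hsN, hL, hlow⟩ := str_torus_lower b hb h
  obtain ⟨C, hC⟩ := cellTorVar_close (b + 1) s hs
  refine ⟨c / 4, by positivity, ?_⟩
  filter_upwards [hlow, eventually_gt_nhds hb, eventually_lt_nhds (lt_add_one b)] with b' h1 h2 h3
  have hn : Tendsto (fun j : ℕ => N0 * L ^ j) atTop atTop :=
    (tendsto_pow_atTop_atTop_of_one_lt (by omega : 1 < L)).const_mul_atTop' hN0
  have hsmall : ∀ᶠ n : ℕ in atTop, C * ((s : ℝ) / n) < Real.sqrt c / 2 := by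
    have h0 : Tendsto (fun n : ℕ => C * ((s : ℝ) / n)) atTop (𝓝 (C * 0)) :=
      (tendsto_const_div_atTop_nhds_zero_nat (s : ℝ)).const_mul C
    rw [mul_zero] at h0
    exact h0.eventually_lt_const (by positivity)
  refine hn.frequently (((hn.eventually hsmall).and h1).frequently.mono ?_)
  rintro j ⟨hj1, hj2⟩
  have hpos : 0 < N0 * L ^ j := Nat.mul_pos hN0 (pow_pos (by omega) j)
  have e1 := hC b' h2 h3.le (N0 * L ^ j) hpos (Dvd.dvd.mul_right hsN _)
  have e2 : c ≤ cellTorVar s b' (N0 * L ^ j) := hj2.trans (strTorVar_le δ s0 s b' h2 _)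
  have e3 : Real.sqrt c ≤ Real.sqrt (cellTorVar s b' (N0 * L ^ j)) := Real.sqrt_le_sqrt e2
  have e4 : Real.sqrt c / 2 < Real.sqrt (torVar b' (N0 * L ^ j)) := by
    have := (abs_le.1 e1).2
    linarith
  have hsc : 0 < Real.sqrt c := Real.sqrt_pos.2 hc
  have e5 : 0 < torVar b' (N0 * L ^ j) := Real.sqrt_pos.1 (lt_trans (by positivity) e4)
  have e6 : (Real.sqrt c / 2) ^ 2 ≤ Real.sqrt (torVar b' (N0 * L ^ j)) ^ 2 :=
    pow_le_pow_left₀ (by positivity) e4.le 2
  rw [Real.sq_sqrt e5.le, div_pow, Real.sq_sqrt hc.le] at e6
  linarith

end

end Claimed.Agent.R285.C5
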