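import Claimed.Agent.R285.Sec.Up
import Claimed.Agent.R285.Sec.Low
import Claimed.Agent.R285.Sec.Bridge

/-!
# ROW 285, BP-READ-S23 (#11475): [S] s2 (02-heights.tex) + s3 (03-sectors.tex).  Reader: helper144.

## K1 VERDICTS: NO FATAL.  Every step of s2-s3 was checked line by line; all proofs are correct GIVEN the three cited inputs [C]T2.4, T3.1, T3.2.
The only real cost is the continuum functional analysis (H^1 of polygons, density, stream functions, weak compactness, determinants on Hilbert spaces); the route R below removes ALL of it.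

### s2
* L2.1 (fixed spin duality)  OK.  NOT CONSUMED by the chain: `centerMag` (Top) is DEFINED as the height ratio, and [F] uses the free-box duality [C]L2.1 for `xyCorr`.  Only its last sentence is used
  (two flat connections with the same periods differ by an integral gradient; the ratio depends on the gauge class): `secRatio_gauge` = `lsys_gauge`.
* T2.2 = `aLim_critical` (Top).  Not needed here: everything below holds for every `b` with `0 < aLim b`, with `a = aLim b`.
* T2.3 = [C]T2.4, D2.4 = `CGeom` + `DGrid` + `Admissible`, T2.5 = [C]T3.1, T2.6 = [C]T3.2 first assertion: cited, statements agree with [C] (checked against 20-heights.tex l.262, 30-pins.tex l.43, l.93).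
  T2.6 `D_n ≥ 0` = `lsys_event_mono`.  The sentence "C is Hilbert-Schmidt with norm < 1" disappears with `gPin` (finite determinants).
* L2.7 (i)-(iii), L2.8, (2), C2.9  OK; proofs by chains + Poisson summation are REPLACED by Base/Height (`lsys_ratio_mono`, `lsys_le_centred`, `lsys_event_mono`, `lsys_var_mono`); the constant conventions
  (quotient / summed copies / relative data) are automatic in the image form.  Graph forms: `Sec/Fin.lean`, `Sec/Tilt.lean` (`cut_comparison`, `cut_comparison_tilt`, `restoration`, `secRatio_*`).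
  Point to watch (l.412-420): the tilt sits on the AFFINE increment `∇_e h + τ_e`; then gauge changes and cuts produce no scalar (`tiltRatio`).
### s3
* T3.1 upper bound (l.52-141)  OK.  [D'_n deterministic: exact; cut + tilt: `cut_comparison_tilt`; Hoelder, order n, d, p: correct since `q r_e = O(q/n)` is bounded; density of `∇^⊥ψ`: correct for Lipschitz U.]
* L3.2 (localisation, (4))  OK.  Checked: Caccioppoli with the observation terms, `E_{r+10} ≤ C (E_r - E_{r+10})`, least-energy extension = projection, codimension count `C N_d m²`, `s_j ≤ C N_d / j`, `HS² ≤ C N_d δ_d`.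
  Purely deterministic once T2.6 is in reference form: `pot_localization` (POT), to be proved ON THE LATTICE, uniformly in the mesh (discrete cosine modes on the cell arrays).
* (3.3) `0 < R ≤ F`  OK = `lsys_ratio_mono` (new penalty coordinates with arbitrary real centres).
* L3.3 (single valued lift)  OK.  Limit at fixed d = [C]T3.1 with MOVING bounded centres (`C3.mixed_tilt`; `Sec.conf_cost_unif`); `I_d → a⁻¹∫|∇v|²` has the quantitative proof
  `I_d ≥ a⁻¹ en(v) - a⁻² gVar_d(A v)` (complete the square), no weak compactness.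
* P3.4 (confined sector, (5),(6))  OK.  All identities re-derived: `K^s ≤ d_0` (C2.9); `E K^0/d_0 ≥ e^{-D(H,p)}` (pin H makes the restoration a scalar; Bayes); (6) `= F_cutW - F_openW E K^0/d_0`;
  `P_G(p=0)/P_G'(p=0) = R(0)/E R`; `L_s ≤ e^{D'} (6)`; `F_op = (F_cut - L_s)/(1 - L_0)`.  They are EXACT finite statements: `strip_restore` (`Sec/Strip.lean`), no limit inside.
  The topological construction (l.418-432: disjoint arcs from the holes to the outer boundary, tubular strips with corners) is correct but expensive to formalise: see R4.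
* Completion of T3.1  OK.

## ROUTE R (repairs for the formalisation; all discrete, no smooth function, no subsequence, no regularity theory)
R1. Statement: `-2 log F_k - gEn_k → 0` with `gEn_k = min_v a⁻¹ ∑_e (∇_e v + 2π τ_e)²` on the SAME graph (`sector_limit`).  Consumers evaluate `gEn` by weak duality only: `gEn_le` (trial function), `le_gEn` (trial flow).
R2. Use the EXACT discrete minimiser `v*` and its flow `w* = a⁻¹(∇v* + 2πτ)` (divergence free off the pins, `gEn = 2⟨w*,θ⟩ - a|w*|² = a⁻¹ en(v*,θ)`) in BOTH bounds instead of smooth `ψ`, `g`.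
R3. PIGEONHOLE instead of regularity: the strip sides and the patch boundaries are NEW grid lines; `Admissible` lets us choose their positions freely in windows of `≥ c ν` positions, and `∑_t ∑_{e crosses line t} (w*_e)² ≤ |w*|²`,
    so there are positions with line flux `∑_{e ∈ line} (w*_e)² ≤ C/ν` (`line_pigeonhole`).  A line smear `f` with `∑ f² ≤ C/ν` is, in the dual energy norm, `C/s`-close to a combination of averages over cells of side `ν/s`
    (cell trace-Poincare `pot_cell_trace`); the error is paid by `lsys_reference` on the model side (Hoelder as in the paper) and by the same estimate on the reference side.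
    Upper bound: cut ONLY the two sides of each strip (not all d-squares), tilt by `w*`, apply [C]T3.1 (free / pinned pieces, cell-average tests with bounded moving coefficients).  [C]T2.4 is not used separately.
    Lower bound: centres `B v*`; pieces need only the trivial direction `gEn(0, Bv) ≤ a⁻¹ en(v)`; the patch loss (6) needs `gEn_cutW(0,Bv) ≥ a⁻¹ en_cutW(v) - C/s`, true because `A_cutW v*` consists of four line fluxes.
R4. TOPOLOGY REMOVED: the theorem is stated for connections carried by straight wall-to-wall strings of coarse faces (`Ray`, `RaysOk`).  Then strips, patches, guards are RECTANGLES inside the corridor, the lift on the patch is the explicit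
    potential `chg · 1_{above the string}`, and `τ = 0` on the rest.  This covers all uses in [S]s5-6 for `k ≤ 2` collinear sources and [F]s3 (annuli `λP∖P`, `λ²P∖P`; square minus one central hole; two holes joined by the source path); other
    representatives by `secRatio_gauge`.  General flat connections on general polygons ([S]T3.1 verbatim) are NOT needed for S0531.
R5. PINS INCLUDED: with `v*`, `w*` taken in `rspan` (zero on the pins) the same proof gives the two-sided statement with hard pins away from the corridors.  So [F]L3.2 (pinned rim) IS `sector_lower`; F23 need not redo P3.4.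
    The only extra step is [F](3.17): `D^F(H',p) = D(H' ∪ F, p) - D(F, p) ≤ D(H' ∪ F, p)` (`dPin_cond_le`).
WARNING for Base/Geom: the MODEL `geom_sector` (arbitrary boxes, weights, centres, cuts TOGETHER with a connection) is NOT proved in any paper: [S] has the bare law (T3.1) and fine cell observations in the iterated limit (P3.4) only.

## (i) IMPORTS from other posts (all in `Sec/Imp.lean`)
* [C]T3.1 (post C3) = `C3.mixed_tilt` (log-Laplace of cell-average tests and shifted centres, bounded MOVING coefficients; free, pinned or confined pieces): `Sec.imp_tilt`.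
* [C]T3.2, first assertion only (post C3) = `C3.pin_interaction`, for laws WITHOUT own pins, cut geometries, one unit observation on every cell: `Sec.imp_pin`.
* [C]T2.4 + T2.5 on rectangles at fixed temperature (C2 / FREE): `Sec.scen_fixed : C3.Scen (aLim b) (fun _ => b) ν`.
* Base/Height: `lsys_ratio_mono`, `lsys_le_centred`, `lsys_pos`, `lsys_gauge`, `lsys_neg`, `lsys_event_mono`, `lsys_reference`, `ok_of_isEmpty`, `ok_of_real_injective`, `Z_eq_w`, `bes_mgf`.
* NOT imported: [C]s4-6, a(b_c) = 8π, any conditional law statement of [C]T3.2, [B]P3.14.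
## (ii) EXTERNAL theorems really used by the paper in s2-3: RSD [Thm 2.1, Cor 3.2] (replaced by `lsys_master`); Poisson summation (not needed any more); H^1 theory on Lipschitz polygons: Poincare, traces, density of smooth functions,
   `H^1_0` = zero trace, stream functions, Rellich / weak compactness, min-max for singular values, `-log det(1-C*C) ≤ 2 HS²` (only the last two survive, for finite matrices, inside `pot_localization`).
## POT list: `Sec.pot_localization` (L3.2; the only big one), `pot_cell_trace`, `trace_form`, `trace_energy`, `avg_adjacent`, `pot_sector_bdd`, `line_pigeonhole`, `Sec/Ref.lean`.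
## GEOMETRIES: all cut geometries of the layer (isolated strips, closed patches) satisfy `CGeom.NoDiag` v2 (every cut isolates): `Sec.stage_reg`, `Sec.noDiag_refine`.  No slit domain is used.
## FILES.  `Sec/Defs.lean` (all definitions, no sorry) <- `Fin`, `Ref`, `Trace`, `Bridge`, `Imp` <- `Tilt`, `Grid`, `Strip`, `Shift`, `Loc` <- `Line`, `Rect` <- `Up`, `Low` <- this file (wrappers only: NO sorry here).
Every leaf file has its plan in the header.  Leaves are registered as subtasks `SEC-*`.
-/

set_option autoImplicit false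

namespace Claimed.Agent.R285.S23

open Filter Topology
open scoped Classical

noncomputable section

/-! ## A. [S]s2.3: the finite comparisons in graph form (L2.7, L2.8, (2), C2.9) -/

theorem ratioL_pos {G : HGraph} (H : HLaw G) (b : ℝ) (hok : (H.sys b).Ok) (α : H.Aff) : 0 < H.ratioL b α := Sec.ratioL_pos H b hok α

theorem ratioL_le_one {G : HGraph} (H : HLaw G) (b : ℝ) (hok : (H.sys b).Ok) (α : H.Aff) : H.ratioL b α ≤ 1 := Sec.ratioL_le_one H b hok α

/-- **L2.8** (cut comparison with prescribed data). -/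
theorem cut_comparison {D : Finset (ℤ × ℤ)} {cut cut' : Set Bond} (hcc : cut ⊆ cut') (H : HLaw (domG D cut)) (b : ℝ)
    (hok : (H.sys b).Ok) (hok' : ((recut H cut').sys b).Ok) (x : ℤ × ℤ → ℤ) (τ : Bond → ℤ) (c : H.O → ℝ) :
    H.ratioL b (affOf H x τ c) ≤ (recut H cut').ratioL b (affOf (recut H cut') x τ c) := Sec.cut_comparison hcc H b hok hok' x τ c

/-- **L2.8 with a real tilt**. -/
theorem cut_comparison_tilt {D : Finset (ℤ × ℤ)} {cut cut' : Set Bond} (hcc : cut ⊆ cut') (H : HLaw (domG D cut)) (b : ℝ) (hb : 0 < b)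
    (hok : (H.sys b).Ok) (hok' : ((recut H cut').sys b).Ok) (x : ℤ × ℤ → ℤ) (τ : Bond → ℤ) (c : H.O → ℝ) (t : Bond → ℝ) :
    tiltRatio H b (affOf H x τ c) (domFnE t) ≤
      tiltRatio (recut H cut') b (affOf (recut H cut') x τ c) (domFnE t) *
        Real.exp (∑ e : (domG D cut).E, if domBond e ∈ cut' then b * (Real.cosh (t (domBond e)) - 1) else 0) :=
  Sec.cut_comparison_tilt hcc H b hb hok hok' x τ c t

/-- **C2.9** (restoration at prescribed data). -/
theorem restoration {D : Finset (ℤ × ℤ)} {cut cut' : Set Bond} (hcc : cut ⊆ cut') (H : HLaw (domG D cut)) (b : ℝ)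
    (hok : (H.sys b).Ok) (hok' : ((recut H cut').sys b).Ok) (x : ℤ × ℤ → ℤ) (τ : Bond → ℤ) (c : H.O → ℝ) :
    (H.sys b).w ((affOf H x τ c).amb b) / ((recut H cut').sys b).w ((affOf (recut H cut') x τ c).amb b) ≤
      (H.sys b).w 0 / ((recut H cut').sys b).w 0 := Sec.restoration hcc H b hok hok' x τ c

/-- (2) + the remark after it: cutting bonds and deleting regions increases the bare ratio.  (Further rules `secRatio_*`: `Sec/Fin.lean`.) -/
theorem secRatio_mono (b : ℝ) (hb : 0 < b) {D D' : Finset (ℤ × ℤ)} {cut cut' : Set Bond} (hD : D' ⊆ D) (hc : cut ⊆ cut')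
    (τ : Bond → ℤ) : secRatio b D cut τ ≤ secRatio b D' cut' τ := Sec.secRatio_mono b hb hD hc τ

/-! ### weak duality for the reference (all that the consumers need to evaluate `gEn`) -/

/-- every trial function bounds the reference cost from above -/
theorem gEn_le {G : HGraph} (H : HLaw G) (a : ℝ) (ha : 0 < a) (θ : G.E → ℝ) (c : H.O → ℝ) (v : G.V → ℝ) (hv : v ∈ H.rspan) :
    H.gEn a θ c ≤ a⁻¹ * HLaw.en v θ + ∑ o, (H.obs v o - c o) ^ 2 := Sec.gEn_le H a ha θ c v hv

/-- every flow which is divergence free (against the reference space) bounds it from below -/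
theorem le_gEn {G : HGraph} (H : HLaw G) (a : ℝ) (ha : 0 < a) (θ : G.E → ℝ) (c : H.O → ℝ) (w : G.E → ℝ)
    (hw : ∀ v ∈ H.rspan, ∑ e, w e * (v (G.tgt e) - v (G.src e)) = 0) :
    2 * ∑ e, w e * θ e - a * ∑ e, w e ^ 2 ≤ H.gEn a θ c := Sec.le_gEn H a ha θ c w hw

/-! ## B. [S]T3.1 (and [F]L3.2): the sector cost at fixed geometry, in discrete reference form -/

theorem admissible_scale {m₁ m₂ : ℕ} {K : ℕ} {g : ℕ → DGrid m₁ m₂} {ν : ℕ → ℕ} (hg : Admissible K g ν) (N : ℕ) :
    ∀ᶠ k in atTop, N ≤ ν k ∧ Scale K (g k) (ν k) := by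
  filter_upwards [hg.1.eventually_ge_atTop N] with k hk
  exact ⟨hk, hg.2 k⟩

/-- **[S]T3.1, upper bound for the ratio** (`limsup log F ≤ - M/(2a)`), hard pins allowed. -/
theorem sector_upper (b : ℝ) (hb : 0 < b) (ha : 0 < aLim b) {m₁ m₂ r : ℕ} (Γ : CGeom m₁ m₂) (hΓ : Γ.NoDiag)
    (hcut : Γ.cutF = ∅) (R : Fin r → Ray) (hR : RaysOk Γ R)
    (K : ℕ) (g : ℕ → DGrid m₁ m₂) (ν : ℕ → ℕ) (hg : Admissible K g ν) (ε : ℝ) (hε : 0 < ε) :
    ∀ᶠ k in atTop, -ε ≤ secDefect b Γ (g k) R := by
  obtain ⟨N, hN⟩ := Sec.sector_upper_unif b hb ha Γ hΓ hcut R hR K ε hε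
  filter_upwards [admissible_scale hg N] with k hk
  exact hN _ _ hk.1 hk.2

/-- **[S]T3.1, lower bound for the ratio** (= [S]P3.4 + (3.3); with a pinned rim: [F]L3.2). -/
theorem sector_lower (b : ℝ) (hb : 0 < b) (ha : 0 < aLim b) {m₁ m₂ r : ℕ} (Γ : CGeom m₁ m₂) (hΓ : Γ.NoDiag)
    (hcut : Γ.cutF = ∅) (R : Fin r → Ray) (hR : RaysOk Γ R)
    (K : ℕ) (g : ℕ → DGrid m₁ m₂) (ν : ℕ → ℕ) (hg : Admissible K g ν) (ε : ℝ) (hε : 0 < ε) :
    ∀ᶠ k in atTop, secDefect b Γ (g k) R ≤ ε := by
  obtain ⟨N, hN⟩ := Sec.sector_lower_unif b hb ha Γ hΓ hcut R hR K ε hε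
  filter_upwards [admissible_scale hg N] with k hk
  exact hN _ _ hk.1 hk.2

/-- the same with ONE threshold for all grids ("every regular interface is a refinement of one fixed geometry", [S]P5.3 end). -/
theorem sector_limit_unif (b : ℝ) (hb : 0 < b) (ha : 0 < aLim b) {m₁ m₂ r : ℕ} (Γ : CGeom m₁ m₂) (hΓ : Γ.NoDiag)
    (hcut : Γ.cutF = ∅) (R : Fin r → Ray) (hR : RaysOk Γ R) (K : ℕ) (ε : ℝ) (hε : 0 < ε) :
    ∃ N : ℕ, ∀ (g : DGrid m₁ m₂) (ν : ℕ), N ≤ ν → g.SideGe ν → g.SideLe (K * ν) → |secDefect b Γ g R| ≤ ε := by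
  obtain ⟨N₁, h₁⟩ := Sec.sector_upper_unif b hb ha Γ hΓ hcut R hR K ε hε
  obtain ⟨N₂, h₂⟩ := Sec.sector_lower_unif b hb ha Γ hΓ hcut R hR K ε hε
  refine ⟨max N₁ N₂, fun g ν hν hge hle => abs_le.2 ⟨?_, ?_⟩⟩
  · exact h₁ g ν (le_trans (le_max_left _ _) hν) ⟨hge, hle⟩
  · exact h₂ g ν (le_trans (le_max_right _ _) hν) ⟨hge, hle⟩

/-- one-sided uniform version (for [F]L3.2) -/
theorem sector_lower_unif (b : ℝ) (hb : 0 < b) (ha : 0 < aLim b) {m₁ m₂ r : ℕ} (Γ : CGeom m₁ m₂) (hΓ : Γ.NoDiag)
    (hcut : Γ.cutF = ∅) (R : Fin r → Ray) (hR : RaysOk Γ R) (K : ℕ) (ε : ℝ) (hε : 0 < ε) :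
    ∃ N : ℕ, ∀ (g : DGrid m₁ m₂) (ν : ℕ), N ≤ ν → g.SideGe ν → g.SideLe (K * ν) → secDefect b Γ g R ≤ ε := by
  obtain ⟨N₂, h₂⟩ := Sec.sector_lower_unif b hb ha Γ hΓ hcut R hR K ε hε
  exact ⟨N₂, fun g ν hν hge hle => h₂ g ν hν ⟨hge, hle⟩⟩

/-- **[S] Theorem 3.1** (sector cost at fixed geometry) in discrete reference form; `b` arbitrary with `a(b) > 0`; hard pins allowed. -/
theorem sector_limit (b : ℝ) (hb : 0 < b) (ha : 0 < aLim b) {m₁ m₂ r : ℕ} (Γ : CGeom m₁ m₂) (hΓ : Γ.NoDiag)
    (hcut : Γ.cutF = ∅) (R : Fin r → Ray) (hR : RaysOk Γ R)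
    (K : ℕ) (g : ℕ → DGrid m₁ m₂) (ν : ℕ → ℕ) (hg : Admissible K g ν) :
    Tendsto (fun k => secDefect b Γ (g k) R) atTop (𝓝 0) := by
  rw [Metric.tendsto_atTop']
  intro ε hε
  have h1 := sector_upper b hb ha Γ hΓ hcut R hR K g ν hg (ε / 2) (by positivity)
  have h2 := sector_lower b hb ha Γ hΓ hcut R hR K g ν hg (ε / 2) (by positivity)
  obtain ⟨N, hN⟩ := eventually_atTop.1 (h1.and h2)
  refine ⟨N, fun n hn => ?_⟩
  have := hN n hn.le
  rw [Real.dist_eq, sub_zero, abs_lt]
  constructor <;> linarith [this.1, this.2]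

/-- bridge to any law without observation on `domG (region T) ∅` with hard pins on the pinned cells (`F23.Phi`/`En`, `S46.Fsec`/`Men`, `secRatio`/`secEn`); `Sec.gEn_scale` extracts the coefficient. -/
theorem secDefect_eq (b : ℝ) {m₁ m₂ r : ℕ} (Γ : CGeom m₁ m₂) (hcut : Γ.cutF = ∅) (g : DGrid m₁ m₂) (R : Fin r → Ray)
    (H' : HLaw (domG (g.region Γ.T) ∅)) [IsEmpty H'.O] (hΛ : H'.Λ = HLaw.pinned (domSet (↑(g.region Γ.pin) : Set (ℤ × ℤ)))) (c : H'.O → ℝ) :
    secDefect b Γ g R = -2 * Real.log (H'.ratioL b ⟨0, domFnE (connB g R), c⟩)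
      - H'.gEn (aLim b) (fun e => 2 * Real.pi * ((domFnE (connB g R) e : ℤ) : ℝ)) c := Sec.secDefect_eq b Γ hcut g R H' hΛ c

/-! ## C. [S]L3.2 (4), [F](3.16)-(3.17) -/

/-- [F](3.17): the interaction in the law already pinned on `F`. -/
theorem dPin_cond_le {G : HGraph} (H : HLaw G) (b : ℝ) (hok : (H.sys b).Ok) (hP : H.Proper) (F A A' : Set G.V) :
    (H.addPin F).dPin b A A' ≤ H.dPin b (A ∪ F) A' := Sec.dPin_cond_le H b hok hP F A A'

/-- **[S] Lemma 3.2, eq. (4)** together with [F](3.16)-(3.17): own pins allowed if they are separated from `A'`. -/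
theorem localization (b : ℝ) (hb : 0 < b) (ha : 0 < aLim b) {m₁ m₂ : ℕ} (Γ : CGeom m₁ m₂) (hΓ : Γ.NoDiag)
    (A A' : Finset (Cell m₁ m₂)) (hsep : CSep (A ∪ Γ.pin) A') (K : ℕ) (ε : ℝ) (hε : 0 < ε) :
    ∃ s₀ : ℕ, ∀ s, s₀ ≤ s → ∀ (g : ℕ → DGrid (s * m₁) (s * m₂)) (ν : ℕ → ℕ), Admissible K g ν →
      ∀ᶠ k in atTop, dCell b (refine s Γ) (g k) (fine s A) (fine s A') ≤ ε := by
  obtain ⟨s₀, h⟩ := Sec.localization_unif b hb ha Γ hΓ A A' hsep K ε hε
  refine ⟨s₀, fun s hs g ν hg => ?_⟩
  obtain ⟨N, hN⟩ := h s hs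
  filter_upwards [admissible_scale hg N] with k hk
  exact hN _ _ hk.1 hk.2

end

end Claimed.Agent.R285.S23
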