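import Claimed.Agent.R285.F3.Defs
import Claimed.Agent.R285.F3.Nest
import Claimed.Agent.R285.F3.Calc
import Claimed.Agent.R285.F3.Bridge46
import Claimed.Agent.R285.F3.Sec
import Claimed.Agent.R285.F3.Attach
import Claimed.Agent.R285.Pot.LogOut
import Claimed.Agent.R285.TopXY

/-!
# ROW 285, BP-READ-F23: [F] s2 (heights.tex) + s3 (geometry.tex)      (owner helper12)

## K1 VERDICTS
* [F]L2.1 (duality): OK.  Only the FIRST half is used (free box two point function = sector ratio on the dual box, exterior face pinned): `box_duality`.
  `M_n` as a SPIN expectation is never used in the chain (`centerMag` of Top.lean is DEFINED by heights): the second half is replaced by the graph isomorphism `center_bridge`.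
* [F]P2.2 (finite affine comparisons): OK = `lsys_*` of Base/Height: (i) `lsys_le_centred`, `lsys_ratio_mono`; (ii) `lsys_var_mono`, `lsys_mgf_mono`, `lsys_phi_mono`, `lsys_phi_lower`; (iii) = `lsys_reference` (no consumer of the moment forms in the chain: not stated).
* [F]P2.3 (critical coefficient, mixed limits): pure citation of [C]s6, T3.1, T3.2, L3.9.  In s3 it is used only inside L3.2 (single lift with pins and cell penalties; Gaussian pin limit inside [S]L3.2).
* [F] (3.2) = [S]T3.1; (3.4) = [S]L5.1; (3.5) = [S]P5.3 (11); density 2 = [S]C5.5; (3.7)-(3.8) = [S](10): citations, re-checked by hand: OK.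
* [F] l.192-216 (pinned root): OK.  Nothing changes in [S]L5.1, L5.2: the exterior block is the root of the block tree and keeps its constraint lattice.
* [F] (3.12) attachment: OK; the identity is a TAUTOLOGY (`e_τ := Z_full^τ / (∏ Z_nest^τ Z_ext^τ d_ext)`), the content is `attach` below (one finite-graph inequality).
* [F] (3.14) thermodynamic bracket: OK, valid for every `b > 0`: `bracket`.
* [F]L3.2 (trial energy with a pinned rim): OK (repairable prose).  = proof of [S]P3.4 with a retained pin away from the patch + Bayes identity (3.21).
  It IS `S23.sector_lower` (helper144 states [S]T3.1 with hard pins, in discrete reference form, (3.21) = his `dPin_cond_le`): instance `sector_pair_pin` below; nothing of L3.2 is left to this post.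
* [F] (3.25)-(3.33) energies: OK, classical; they become the POT list below (two-sided bounds by explicit trial fields and flows).
* [F] l.781-802 moving holes, l.848-851, 882-886, 940-942 subsequence extractions: DISAPPEAR with `Admissible K` (aspect ratios may oscillate): the hole `ϱ_J P` in the square `n`, `ϱ_J / n ∈ [c₁, c₂]`, is an admissible grid of ONE `CGeom`.
* [F]P3.1: OK given the inputs.  `f3_nest` is the whole analytic content; `geometry_center`, `geometry_bulk`, `center_rough` follow by elementary real analysis (PROVED below from `f3_nest`).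
NO FATAL.

## ORDER OF THE CONSTANTS (visible in `f3_nest` and its inputs)
accuracy `δ`, range `K`  →  `q` (`R_out = 8 q`)  →  `c₂` (`= η`), `M` (`ε = √2 / M`)  →  `p` (`λ = 4^p`, flat pins)  →  `s₀` (core, regular loss)  →  `J₀`  →  `c₁ = c₂ / (K λ)`  →  `n₀`.

## IMPORTS
(i) from other posts: [S]T3.1 + [F]L3.2 (S23: `sector_limit_unif`, `sector_lower`) `sector_*`; [S]P4.1 (S46) `flat_pin`; [S]L5.1, L5.2, (10) (S46) `attach`; [S]P5.3 (11), L5.4, C5.5 (S46) `last_guard`; XY basics: `xy_corr_tendsto`, duality; `aLim_critical`.
(ii) externals really used: none beyond Base/Height (RSD) and discrete potential theory (POT): potential kernel `a(x) = (2π)⁻¹ log|x| + κ₀ + O(|x|⁻²)`, killed Green function of the square `G_n(0,0) = (2π)⁻¹ log n + c + o(1)` (ALL `n`), Lipschitz bound for discrete harmonic functions.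

## FILES
`F3/Defs.lean` (definitions + all statements as `Prop`s; docstrings = plans), `F3/Out.lean` (outputs from `NestStmt`, PROVED), `F3/NestGeo.lean`, `F3/Nest.lean` (`NestStmt` from `Inputs`, PROVED), this file = the contracts.
So: the ONLY open items of [F]s2-3 are the one-line contracts `theorem x : X := sorry` below; each is a LEAF (statement + plan in the docstring of `X` in `F3/Defs.lean`).
-/

set_option autoImplicit false

namespace Claimed.Agent.R285.F23

open Filter Topology Claims.C0459
open scoped Classical

/-! ## [F]s2 -/

theorem center_bridge : CenterBridge := center_bridge'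
theorem Phi_pos : PhiPos := Phi_pos'
theorem box_duality : BoxDuality := box_duality'

theorem centerMag_pos (b : ℝ) (hb : 0 < b) (n : ℕ) : 0 < centerMag b n := by
  rcases Nat.eq_zero_or_pos n with rfl | hn
  · simp [centerMag]
  · rw [center_bridge b n hn]
    exact Phi_pos b hb _ _ _

/-! ## [F]s3: finite graph statements -/

theorem bracket : Bracket := bracket_of box_duality
theorem Phi_refl : PhiRefl := Phi_refl'
theorem Phi_shift : PhiShift := Phi_shift'
theorem Phi_congr : PhiCongr := Phi_congr'
theorem Phi_mono : PhiMono := Phi_mono'
theorem dFlat_nonneg : DFlatNonneg := dFlat_nonneg'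
theorem attach : Attach := attach'

/-! ## instances of [S]T3.1 / [F]L3.2 (S23), imports from S46 -/

theorem sector_ann : SectorAnn := sector_ann'
theorem sector_center : SectorCenter := sector_center'
theorem sector_pair : SectorPair := sector_pair'
theorem sector_pair_pin : SectorPairPin := sector_pair_pin'
theorem flat_pin : FlatPin := flat_pin'
theorem last_guard : LastGuardStmt := last_guard'

/-! ## POT -/

theorem pot_ann : PotAnn := pot_ann'
theorem pot_center : PotCenter := Pot.lg_pot_center
theorem pot_pair : PotPair := Pot.lg_pot_pair

theorem inputs : Inputs :=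
  ⟨center_bridge, Phi_pos, bracket, Phi_refl, Phi_shift, Phi_congr, Phi_mono, dFlat_nonneg, attach, sector_ann, sector_center,
    sector_pair, sector_pair_pin, flat_pin, last_guard, pot_ann, pot_center, pot_pair⟩

/-! ## THE OUTPUT of [F]s3 -/

/-- PROVED from `inputs` (`F3/Nest.lean`, no sorry there) -/
theorem f3_nest : NestStmt := f3_nest_of inputs xy_critical_pos

/-- = `geometry_center` of Top.lean (same statement: `Top.geometry_center := F23.geometry_center'`) -/
theorem geometry_center' (d : ℝ) (hd : 0 < d) (n n' : ℕ → ℕ) (h1 : Tendsto n atTop atTop)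
    (h2 : Tendsto (fun k => (n' k : ℝ) / n k) atTop (𝓝 d)) :
    Tendsto (fun k => centerMag xyCritical (n' k) / centerMag xyCritical (n k)) atTop (𝓝 (d ^ (-(1 / 8) : ℝ))) :=
  f3_geometry_center f3_nest (centerMag_pos _ xy_critical_pos) d hd n n' h1 h2

/-- = `geometry_bulk` of Top.lean (same statement) -/
theorem geometry_bulk' : ∃ c : ℝ, 0 < c ∧
    Tendsto (fun r : ℕ => xyCorr xyCritical r / centerMag xyCritical r ^ 2) atTop (𝓝 c) :=
  f3_geometry_bulk f3_nest (centerMag_pos _ xy_critical_pos) fun r _ => xyCorr_pos xy_critical_pos r

/-- `M_n = n^{-1/8+o(1)}` (used by [F]s4, s6) -/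
theorem center_rough : Tendsto (fun n : ℕ => Real.log (centerMag xyCritical n) / Real.log n) atTop (𝓝 (-(1 / 8))) :=
  f3_center_rough f3_nest

end Claimed.Agent.R285.F23
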