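import Claimed.Agent.R285.E4.Defs
import Claimed.Agent.R285.E4.P44
import Claimed.Agent.R285.E4.P41
import Claimed.Agent.R285.E4.L43
import Claimed.Agent.R285.E4.Sides

/-!
# ROW 285, post BP-READ-E4: [E] Section 4 = `trajectory.tex` (temperature response, passage through the small-activity region)   (owner helper27)

Vocabulary: `R285/Base/Flow.lean` only.  The whole section is ABSTRACT DYNAMICS: it consumes `Flow.SysOK` (per side), the critical histories `Crit` ([E] P3.6, producer: post F5)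
and the physical torus inputs `Flow.tor_*`; it produces `passage_abs`, which is `R285.passage` of `Top.lean`.

## K1 verdicts (read line by line; NO FATAL ITEM, no gap found)
* **P4.1 (nonzero response) OK.**  Steps: (1) crude bound `C s² e^{γ j}` for all `b`-derivatives (Cauchy on the entry disk + derivative of the map `≤ e^γ` in the tube);
  (2) differentiated recursion (4.3), (4.4): follows from `MapOK` by Cauchy estimates with radii `|W|` (in `W`), `|W|` (in `Q`), see F2 of `Flow.lean`; I checked the orders: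
  `D_W 𝓔 = O(j⁻²)`, `D_Q 𝓔 = O(j⁻¹)`, `D_W Q₊ = O(j⁻¹)`, `D_Q Q₊ ≤ θ + o(1)` on the critical trajectory; (3) weighted forward/backward estimates (4.5)-(4.6) give the slaving (4.7);
  (4) `|V_j| ≥ c` from `tor_response_lower` + `tor_crit_var` + `lipV` + differentiated `rV_bd`; (5) overlap of two entries through the two physical read-outs (4.11);
  (6) spliced sequence, epoch matrix `diag(2, 1/4) + O(k 2^{-k})`, cone argument, `U_k / 2^k → 𝒫 ≠ 0`; (7) sign of `𝒫` from the positive response.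
  `∏_{j=n}^{2n-1}(1+1/j) = 2` exactly; `∏ (1-2/j) = (n-1)(n-2)/((2n-1)(2n-2)) = 1/4 + O(1/n)`.  `M = [[0,-2],[-1,-1]]`: eigenpairs `(1, (1,-1/2))`, `(-2, (1,1))`.  Checked.
* **L4.2 (late critical) OK.**  Read-out comparison with the canonical history at the same physical torus + contraction.  Uses `C_* log L > 1000` for `s / n_i ≤ e^{-c i}`, `i ≥ J/100`.
* **L4.3 (secant) OK.**  Needs: analytic continuation in `b` on the disk `ρ_J = c J⁻² e^{-2γJ}` for the canonical history, Cauchy for the second derivative, `ε ρ_J⁻² → 0` because `4γ < 3/C_*`.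
* **P4.4 (passage) OK.**  Bootstrap (4.20); variation of constants; Euler scheme for `X' = -Y²`, `Y' = -XY`; invariant `X² - Y² = -3𝒫`; `X = k₀ cot k₀ w`, `Y = k₀ csc k₀ w`; outgoing cone;
  exit.  REMARK (repair, harmless): subsequence compactness can be avoided: compare directly with the explicit solution by discrete Gronwall started at time `η` with initial error
  `O(η³) + o(1)` relative to the size `1/η`; then let `η → 0` (the flow of the ODE from `η` to `w` amplifies by at most `C (w/η)`-type factors: use instead the conserved quantity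
  `x² - y²` and the scalar Riccati recursion for `x`).  Left to the cutter.

## Imports from other posts
`Flow.rg_system` (construction side), `Crit` (F5), `Flow.tor_response_lower`, `tor_differentiable` (E23), `tor_crit_var` (F5/L5.4), `tor_phase_pos` (C2).
External theorems: none (Cauchy estimates in one complex variable are in Mathlib).

## Size estimate: CAUCHY package 1.5k, P4.1 5k, L4.2 1.5k, L4.3 3k, P4.4 6k lines.
-/

set_option autoImplicit false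

namespace Claimed.Agent.R285.E4

open Filter Topology Claims.C0459
open Claimed.Agent.R285.Flow

noncomputable section

/-! The definitions (sections 0-2, `Sides`, `PassageConcl`) are in `R285/E4/Defs.lean`. -/

/-- **[E] P4.1** (nonzero temperature response).  `ρt1`, `ρe1` : the smallness of the tube and of the entry.  PROVED: `R285/E4/P41*.lean` (helper103, helper292, helper90). -/
theorem response (κ : MapC) : ∃ ρt1 : ℝ, 0 < ρt1 ∧ ∀ ρt : ℝ, ρt ≤ ρt1 → ∃ ρe1 : ℝ, 0 < ρe1 ∧ ∀ ρe : ℝ, ρe ≤ ρe1 →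
    ∀ (κe : EntC) (H : ℕ → Hist) (hy : Hyp κ κe ρe ρt H),
      (∃ P : ℝ, IsResp hy P) ∧
      ∃ C c : ℝ, 0 < c ∧ ∀ᶠ k : ℕ in atTop, ∀ i : ℕ,
        (1 / 2 : ℝ) * 2 ^ k ≤ (((H (hy.crit.sk k)).j0 + i : ℕ) : ℝ) →
        (((H (hy.crit.sk k)).j0 + i : ℕ) : ℝ) ≤ (5 / 2 : ℝ) * 2 ^ k →
          dQ (H (hy.crit.sk k)) i ≤ C * Vn (H (hy.crit.sk k)) i / ((H (hy.crit.sk k)).j0 + i : ℕ)
            + Real.exp (-c * ((H (hy.crit.sk k)).j0 + i : ℕ)) ∧
          ∀ h, (H (hy.crit.sk k)).j0 + i ≤ h → h ≤ 4 * 2 ^ k →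
            dT (H (hy.crit.sk k)) h i ≤ C * Vn (H (hy.crit.sk k)) i / ((H (hy.crit.sk k)).j0 + i : ℕ)
              + Real.exp (-c * ((H (hy.crit.sk k)).j0 + i : ℕ)) := p41_response κ

/-- **[E] L4.2** (critical estimates after a logarithmic initial interval) -/
theorem late_critical (κ : MapC) : ∃ ρt1 : ℝ, 0 < ρt1 ∧ ∀ ρt : ℝ, ρt ≤ ρt1 → ∃ ρe1 : ℝ, 0 < ρe1 ∧ ∀ ρe : ℝ, ρe ≤ ρe1 →
    ∀ (κe : EntC) (H : ℕ → Hist) (_ : Hyp κ κe ρe ρt H) (K : ℕ → ℕ),
      Tendsto (fun s => (K s : ℝ) / (s : ℝ) ^ 2) atTop (𝓝 0) →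
      ∃ C : ℝ, ∀ᶠ s : ℕ in atTop, Adm κ κe s → ∀ i : ℕ,
        (JJ κ s : ℝ) / 2 ≤ (((H s).j0 + i : ℕ) : ℝ) → (H s).j0 + i ≤ K s →
          CritAt (H s) C i ∧ ∀ h, (H s).j0 + i ≤ h → h ≤ K s → CritTor (H s) C h i :=
  l42_late_critical κ

/-- consecutive admissible sides have the ratio `L` -/
theorem sides_exist (κ : MapC) (κe : EntC) (h : ∃ j1, κe.q0 ∣ κ.L ^ j1) : ∃ sf : ℝ → ℕ, Sides κ κe sf :=
  sd_sides_exist κ κe h

/-- **[E] L4.3** (matching the temperature secant); the stage of the absolute index `J` is `J - j0` -/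
theorem secant (κ : MapC) : ∃ ρt1 : ℝ, 0 < ρt1 ∧ ∀ ρt : ℝ, ρt ≤ ρt1 → ∃ ρe1 : ℝ, 0 < ρe1 ∧ ∀ ρe : ℝ, ρe ≤ ρe1 →
    ∀ (κe : EntC) (H : ℕ → Hist) (hy : Hyp κ κe ρe ρt H) (P : ℝ), IsResp hy P →
    ∀ sf : ℝ → ℕ, Sides κ κe sf →
      Tendsto (fun ε : ℝ => ((H (sf ε)).x ((xyCritical - ε : ℝ) : ℂ) (JJ κ (sf ε) - (H (sf ε)).j0)
          - (H (sf ε)).x xyCritical (JJ κ (sf ε) - (H (sf ε)).j0)) / (-(ε : ℂ) * JJ κ (sf ε))) (𝓝[>] 0) (𝓝 (P : ℂ)) ∧
      Tendsto (fun ε : ℝ => ((H (sf ε)).y ((xyCritical - ε : ℝ) : ℂ) (JJ κ (sf ε) - (H (sf ε)).j0)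
          - (H (sf ε)).y xyCritical (JJ κ (sf ε) - (H (sf ε)).j0)) / (-(ε : ℂ) * JJ κ (sf ε))) (𝓝[>] 0) (𝓝 (-(P : ℂ) / 2)) ∧
      ∀ A : ℝ, ∃ C : ℝ, ∀ᶠ ε in 𝓝[>] (0 : ℝ),
        ‖((H (sf ε)).st ((xyCritical - ε : ℝ) : ℂ) (JJ κ (sf ε) - (H (sf ε)).j0)).2.2
          - ((H (sf ε)).st xyCritical (JJ κ (sf ε) - (H (sf ε)).j0)).2.2‖ ≤ C * ε ∧
        ∀ h : ℕ, JJ κ (sf ε) ≤ h → (h : ℝ) ≤ A / Real.sqrt ε →
          ‖(H (sf ε)).tor ((xyCritical - ε : ℝ) : ℂ) h (JJ κ (sf ε) - (H (sf ε)).j0)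
            - (H (sf ε)).tor xyCritical h (JJ κ (sf ε) - (H (sf ε)).j0)‖ ≤ C * ε :=
  l43_secant κ

/-- **[E] (4.16)** (crude proximity = first step of the proof of L4.3, with `Crit.conf`); NEW CONTRACT (helper14, 14:50Z), consumed by P4.4 (`repV` needs `Hist.Inside` from the entry on, and
`EntryOK.real` needs the history inside the domain): up to the matching index the perturbed history and its stopped tori stay in the domain of the maps.  Post: BP-CUT-E4-L423. -/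
theorem secant_inside (κ : MapC) : ∃ ρt1 : ℝ, 0 < ρt1 ∧ ∀ ρt : ℝ, ρt ≤ ρt1 → ∃ ρe1 : ℝ, 0 < ρe1 ∧ ∀ ρe : ℝ, ρe ≤ ρe1 →
    ∀ (κe : EntC) (H : ℕ → Hist) (_ : Hyp κ κe ρe ρt H) (sf : ℝ → ℕ), Sides κ κe sf → ∀ A : ℝ,
      ∀ᶠ ε in 𝓝[>] (0 : ℝ), ∀ i : ℕ, (H (sf ε)).j0 + i ≤ JJ κ (sf ε) →
        ‖(H (sf ε)).st ((xyCritical - ε : ℝ) : ℂ) i‖ < κ.ρ ∧
        ∀ h : ℕ, JJ κ (sf ε) ≤ h → (h : ℝ) ≤ A / Real.sqrt ε → ‖(H (sf ε)).ts ((xyCritical - ε : ℝ) : ℂ) h i‖ < κ.ρ :=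
  l43_secant_inside κ

/-- **[E] P4.4** (passage time and the variance diagnostic).  CUT: `R285/E4/P44*.lean` (helper14); proved there from the leaves `L-P44-*` and the three contracts above. -/
theorem passage_time (κ : MapC) : ∃ ρt1 : ℝ, 0 < ρt1 ∧ ∀ ρt : ℝ, ρt ≤ ρt1 → ∃ ρe1 : ℝ, 0 < ρe1 ∧ ∀ ρe : ℝ, ρe ≤ ρe1 →
    ∀ (κe : EntC) (H : ℕ → Hist) (hy : Hyp κ κe ρe ρt H) (P : ℝ), IsResp hy P →
      PassageConcl κ.L κ.D0 (Real.pi / Real.sqrt (3 * P)) :=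
  p44_passage_time κ (late_critical κ) (secant κ) (secant_inside κ) (sides_exist κ)

/-- [E] L5.9, first half: at criticality `E e^{i \bar h} ≥ c / j` on the tori `n_j` (from `y_j ~ 1/j`, `rP_bd`, `repP`, `cmpP`) -/
theorem crit_phase_lower (κ : MapC) : ∃ ρt1 : ℝ, 0 < ρt1 ∧ ∀ ρt : ℝ, ρt ≤ ρt1 → ∃ ρe1 : ℝ, 0 < ρe1 ∧ ∀ ρe : ℝ, ρe ≤ ρe1 →
    ∀ (κe : EntC) (H : ℕ → Hist) (_ : Hyp κ κe ρe ρt H),
      ∃ c : ℝ, 0 < c ∧ ∀ᶠ j : ℕ in atTop, c / (j : ℝ) ≤ torPhase xyCritical (κ.D0 * κ.L ^ j) :=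
  ph_crit_phase_lower κ

end

end Claimed.Agent.R285.E4
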