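import Claimed.Agent.R285.Tor.Low

/-!
# ROW 285, BP-READ-E5: [E] Section 5 = `profile.tex` (the coefficient on logarithmic scales)      (owner helper225, chief of unit MASS)

Numbering of the compiled paper: (5.1) `profile-coefficient`, (5.2) `profile-cut`, P5.1 `prop:profile`, L5.2 `lem:profile-free`, L5.3 `lem:profile-phase`, L5.4 `lem:profile-pins`, P5.5 `prop:gaussian-profile`,
C5.6 `cor:profile-zero-uniform`, L5.7 `lem:profile-ratio`, L5.8 `lem:profile-subexponential`, P5.9 `prop:profile-step`.   (helper286's files count one more: his P5.6, C5.7, L5.8, L5.9, P5.10.)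

## K1 VERDICTS (read completely, l.1-1369): NO FATAL.
* (5.1), (5.2), P5.1 extraction: OK.  PROVED: `Glue/E5a.lean`, `Glue/E5b.lean` (helper286) from `C2.aCoef_nonneg, aCoef_mono_b, cut_coefficient` + `aCoef_critical_tendsto`.  The profile never appears in a contract: `Glue.E5.CoefAt` / `C2.ScaleCoef`.
* L5.2 free limits at moving `b` (incl. `a_* = 0`): OK = `C2.free_*` under `C2.ScaleCoef` (K1 of the proof: header of `Read/C2.lean`; fold step = finite inequalities, no association).
* (5.9), L5.3 uniform fractional means: OK = `C2.chr_transfer`, `C2.replica`, `C2.uniform_phase`.  Needs `a_* > 0` (used: the Gaussian factor `exp(-a_* t² E/2)` must decay).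
* L5.4 moving-parameter pinned limits: OK as a re-run of [C] s3 (K1: header of `Read/C3.lean`; cables, chains and `N → ∞` are replaced by (FK) + (FZ) on the primary graph).  I checked the order of limits (5.13) `k → ∞, ℓ ↓ 0, λ → ∞` against every
  displayed estimate: all finite estimates are uniform for `b ∈ J`; the ONLY place where `a_* > 0` enters is the variance gap `c a_* log(1/ρ) - C > C₀ + 2c₀` (l.862-875).
  STRUCTURE: first half (l.505-975) `liminf Var_p X_g ≥ a_* 𝓔(g)` for shifts vanishing near `p`; second half (l.976-1020) grounded approximation (5.35) for arbitrary densities (POT: mixed inverse-form convergence).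
  **ONLY THE FIRST HALF IS CONSUMED BY [E]** (contract `Tor.pin_shift_lower`): see P5.5 and "E6" below.
* P5.5 torus limit: OK, repairable prose, all made exact (layer `R285/Tor`, 5 leaves, about 2.5k lines):
   (a) upper bound: ONE cut; in flow form the torus test = free gradient test of the unwrapped shift on `[0,n)²` + `2n` seam bonds of reference cost `O(1/n)` (`Tor.tor_upper`); no small rectangles, no product systems.  Gives also [C] s5 (T1).
   (b) lower bound in a chart: the planar square `[0,n]²` with pinned boundary cells is an `LSys.Ref` of the torus (`Tor.tV_ge_pinned`, exact); then `Tor.pin_shift_lower`; `(-Δ_D)⁻¹(-Δ g) = g` is not needed (the contract is in shift form).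
   (c) "positive semidefinite defect form on a joint covariance subsequence": replaced by the parallelogram identity (`sat_add` below, PROVED): no subsequence.
   (d) the cosine: `A_tor cosShift = n⁻² cos` EXACTLY and `tD = 1/(2 n² λ_n)` EXACTLY; no "normalizing correction".
   WHERE IT IS USED (`Glue/E5d.lean`): before `T` only the UPPER bound is needed; the lower bound (hence PINS) is needed once, at the exit scale, with `a = 8π`.
* C5.6: OK, quantitative = `C2.affine_small`.   * L5.7 = `C2.face_ratio`, `face_ratio_rough`; exponent `2 - a/(4π)` checked.   * L5.8: first half DERIVED by helper286 (`Glue.E5.sub_of_ratio`) from `face_ratio` at `b_c` (exponent `0`, constant independent of `G`);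
  second half `C2.zface_mono_b`.   * P5.9: PROVED, `Glue/E5c.lean`, `E5d.lean`, `Fatou.lean`.

## CONTRACT of this post: `torus_limit'` (= `Top.torus_limit`), PROVED below from the leaves of `R285/Tor`.

## E6 (for helper164, helper30): [E] P6.3 WITHOUT PINS.
[E] uses L5.4 (second half) + vEL loops to contradict `m(b_k) n_k ≥ n_k^κ` at a scale `w < T`.  Direct route on the FREE square, no Gaussian limit at all: `a_m = m⁻² ∑_{y,y'} E D_y D_{y'}`;
far rows (`|y-y'| ≥ R`): `sq_row_row` (`≤ m² A e^{-μR}`); near rows: Cauchy-Schwarz and `Var D_y ≤ 4π² b · R_eff ≤ C b (1 + log m)` (Pólya urn flow).  Hence `a_m(b) ≤ A m² e^{-μR} + 2R C b (1 + log m)/m`, and with `R = 4 log m/μ`: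
`a_m(b) ≤ C log² m/(μ m) + A m⁻²`, which contradicts `a_{m_k}(b_k) → 8π`.   (helper30's `sq_aCoef_le` has `R²/(μ m)`, i.e. needs `μ³ m → ∞`: it would only give `T/3`.)

## (i) imports from other posts: [C] T2.4 at moving `b` (`C2.free_var`, `reg_c2`, `ref_var`, `scaleCoef_comparable`); rules `lsys_var_mono`; `Free.var_add`, `sqrt_var_add_le`; `C5.torVar_eq`, `C2.ex_eq_E0`; PINS: `Tor.pin_shift_lower`; LINK: `Tor.scen_of_scaleCoef`.
## (ii) external theorems really used: none.
-/

set_option autoImplicit false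

namespace Claimed.Agent.R285.E5

open Filter Topology C2 Tor
open scoped Classical

noncomputable section

/-- a periodic regular shift which saturates: `a 𝓔(u) - Var_tor X_u → 0` -/
def Sat (a : ℝ) (b : ℕ → ℝ) (n : ℕ → ℕ) (u : ℕ → ℤ × ℤ → ℝ) : Prop :=
  TReg n u ∧ Tendsto (fun k => a * tD (n k) (u k) - tV (b k) (n k) (u k)) atTop (𝓝 0)

/-- the defect is asymptotically nonnegative on all regular shifts and vanishes on two of them: it vanishes on their sum ([E] P5.5, "its cross terms vanish as well"). -/
theorem sat_add {b : ℕ → ℝ} {n : ℕ → ℕ} {a : ℝ} (hS : ScaleCoef b n a) {u u' : ℕ → ℤ × ℤ → ℝ}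
    (h : Sat a b n u) (h' : Sat a b n u') : Sat a b n fun k v => u k v + u' k v := by
  refine ⟨h.1.add h'.1, ?_⟩
  obtain ⟨β₀, β₁, hβ₀, hβ⟩ := hS.1
  have hb : ∀ k, 0 < b k := fun k => lt_of_lt_of_le hβ₀ (hβ k).1
  have hsum : Tendsto (fun k => 2 * (a * tD (n k) (u k) - tV (b k) (n k) (u k))
      + 2 * (a * tD (n k) (u' k) - tV (b k) (n k) (u' k))) atTop (𝓝 0) := by
    simpa using (h.2.const_mul 2).add (h'.2.const_mul 2)
  rw [Metric.tendsto_atTop'] at hsum ⊢
  intro ε hε
  obtain ⟨N, hN⟩ := hsum (ε / 2) (half_pos hε)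
  obtain ⟨N', hN'⟩ := eventually_atTop.1 ((tor_upper hS (h.1.add h'.1) (ε / 2) (half_pos hε)).and
    (tor_upper hS (h.1.sub h'.1) (ε / 4) (by positivity)))
  refine ⟨max N N', fun k hk => ?_⟩
  have h1 := hN k (lt_of_le_of_lt (le_max_left _ _) hk)
  obtain ⟨h2, h3⟩ := hN' k ((le_max_right _ _).trans hk.le)
  have e1 := tV_parallelogram (b k) (hb k) (n k) (u k) (u' k)
  have e2 := tD_parallelogram (n k) (u k) (u' k)
  rw [Real.dist_eq, sub_zero, abs_lt] at h1 ⊢
  have e3 : a * tD (n k) (fun v => u k v + u' k v) + a * tD (n k) (fun v => u k v - u' k v)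
      = 2 * (a * tD (n k) (u k)) + 2 * (a * tD (n k) (u' k)) := by
    rw [← mul_add, e2]; ring
  constructor
  · linarith
  · linarith [h1.2, h1.1]

/-- a regular shift supported in one chart saturates -/
theorem sat_chart {b : ℕ → ℝ} {n : ℕ → ℕ} {a : ℝ} (hS : ScaleCoef b n a) (ha : 0 < a) {u : ℕ → ℤ × ℤ → ℝ} (hu : TReg n u)
    (o : ℕ → ℤ × ℤ) (hvan : ∀ᶠ k in atTop, ∀ v, NearSeam (n k) (v - o k) → u k v = 0) : Sat a b n u := by
  refine ⟨hu, ?_⟩
  rw [Metric.tendsto_atTop']
  intro ε hε
  obtain ⟨N, hN⟩ := eventually_atTop.1 ((tor_upper hS hu (ε / 2) (half_pos hε)).and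
    (tor_lower hS ha hu o hvan (ε / 2) (half_pos hε)))
  refine ⟨N, fun k hk => ?_⟩
  obtain ⟨h1, h2⟩ := hN k hk.le
  rw [Real.dist_eq, sub_zero, abs_lt]
  constructor <;> linarith

/-- the energy of the potential of the cosine observation -/
theorem tD_cos_tendsto {n : ℕ → ℕ} (hn : Tendsto n atTop atTop) :
    Tendsto (fun k => tD (n k) (cosShift (n k))) atTop (𝓝 (1 / (8 * Real.pi ^ 2))) := by
  have h1 : Tendsto (fun m : ℕ => 1 / (2 * ((m : ℝ) ^ 2 * lam m))) atTop (𝓝 (1 / (2 * (4 * Real.pi ^ 2)))) :=
    (tendsto_const_nhds (x := (1 : ℝ))).div (lam_tendsto.const_mul 2) (by positivity)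
  have e : (1 : ℝ) / (2 * (4 * Real.pi ^ 2)) = 1 / (8 * Real.pi ^ 2) := by ring
  rw [e] at h1
  refine (h1.comp hn).congr' ?_
  filter_upwards [hn.eventually_ge_atTop 3] with k hk
  exact (tD_cosShift (n k) hk).symm

/-- **[E] P5.5, last assertion** (= `Top.torus_limit`): at a scale carrying the coefficient `a`, the torus cosine variance tends to `a 𝔤`, `𝔤 = 1/(8π²)`. -/
theorem torus_limit' {b : ℕ → ℝ} {n : ℕ → ℕ} {a : ℝ} (h : ScaleCoef b n a) :
    Tendsto (fun k => torVar (b k) (n k)) atTop (𝓝 (a * (1 / (8 * Real.pi ^ 2)))) := by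
  have hn : Tendsto n atTop atTop := h.2.1
  obtain ⟨β₀, β₁, hβ₀, hβ⟩ := h.1
  have hb : ∀ k, 0 < b k := fun k => lt_of_lt_of_le hβ₀ (hβ k).1
  obtain ⟨p, o, hp, hvan, hsum⟩ := pieces n
  have hreg : TReg n fun k => cosShift (n k) := by
    have := ((hp 0).add (hp 1)).add (hp 2) |>.add (hp 3)
    have e : (fun k v => p 0 k v + p 1 k v + p 2 k v + p 3 k v) = fun k => cosShift (n k) := by
      funext k v
      exact hsum k v
    rwa [e] at this
  have hD := tD_cos_tendsto hn
  -- it suffices to treat `tV`
  suffices hV : Tendsto (fun k => tV (b k) (n k) (cosShift (n k))) atTop (𝓝 (a * (1 / (8 * Real.pi ^ 2)))) by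
    refine hV.congr' ?_
    filter_upwards [hn.eventually_ge_atTop 3] with k hk
    exact (tor_bridge (b k) (hb k) (n k) hk).symm
  have ha0 : 0 ≤ a := scaleCoef_nonneg h
  rcases ha0.eq_or_lt with ha | ha
  · -- `a = 0`: upper bound and nonnegativity
    subst ha
    rw [zero_mul, Metric.tendsto_atTop']
    intro ε hε
    obtain ⟨N, hN⟩ := eventually_atTop.1 (tor_upper h hreg (ε / 2) (half_pos hε))
    refine ⟨N, fun k hk => ?_⟩
    have h1 := hN k hk.le
    have h2 : 0 ≤ tV (b k) (n k) (cosShift (n k)) := tVw_nonneg (b k) (hb k) (n k) _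
    rw [Real.dist_eq, sub_zero, abs_lt]
    constructor <;> linarith
  · have hs : ∀ i, Sat a b n (p i) := fun i => sat_chart h ha (hp i) (o i) (by
      filter_upwards [hn.eventually_ge_atTop 8] with k hk
      exact hvan i k hk)
    have hall := sat_add h (sat_add h (sat_add h (hs 0) (hs 1)) (hs 2)) (hs 3)
    have e : (fun k v => p 0 k v + p 1 k v + p 2 k v + p 3 k v) = fun k => cosShift (n k) := by
      funext k v
      exact hsum k v
    have h2 : Tendsto (fun k => a * tD (n k) (cosShift (n k)) - tV (b k) (n k) (cosShift (n k))) atTop (𝓝 0) := by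
      have := hall.2
      simp only [hsum] at this
      exact this
    have h3 := (hD.const_mul a).sub h2
    rw [sub_zero] at h3
    refine h3.congr fun k => ?_
    ring

end

end Claimed.Agent.R285.E5
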