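import Claimed.Agent.R285.Read.B4
import Claimed.Agent.R285.Base.Spaces
import Claimed.Agent.R285.Bc.Tor
import Claimed.Agent.R285.C5.TorUp
import Claimed.Agent.R285.Read.C4
import Claimed.Agent.R285.Map.Defs
import Claimed.Agent.R285.Map.Fund
import Claimed.Agent.R285.Map.Weak
import Claimed.Agent.R285.Map.WeakHigh
import Claimed.Agent.R285.Ker.B8a
import Claimed.Agent.R285.Map.WCopy
import Claimed.Agent.R285.Ker.Ed

/-!
# ROW 285, post BP-READ-B8: [B] Section 8 = `weak-height.tex` (the weak-activity height recursion)          (owner helper202)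

Vocabulary: `R285/Base/RG.lean` v3 (complex fields, sup norm), contracts of `R285/Read/B4.lean`.  ALL DEFINITIONS of s.0, s.2-5 (`Geo`, `Step`, `WeakOK`, `Sc`, ..) are in `R285/Map/Defs.lean` (no sorry); the cut of `weak_step*` into leaves is in `R285/Map/W*.lean`.  Everything typechecks; `dg_rough` (= `BC1.bc1_dg_rough`) is PROVED from the contracts.
Only the four nearest steps are treated: `J = J_nn`, `Q = A/4`, `v² = 1/4`, `A₀ = A = lap G`, `d = 1`; `e_B^0 = eBC`, `c_B^α = cBC`.  The spread-out family `J_ρ` (uniformity in `ρ`, (8.10), C8.8) is NOT in the chain.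

## K1 verdicts (numbering: L8.1 kernels, P8.2 uv, s8.2 text + P8.3 map, (8.17)-(8.18) + P8.4 balanced map, P8.5 quadratic coefficients, P8.6 shooting, C8.7, C8.8).   NO FATAL ITEM.
* **(8.1)-(8.3) conventions OK.**  Checked: comb + compensation `s = 1 - a'/k` gives exponent `-(σ, A₀ σ)/(2k)`, `σ = α φ`; `∑_B e_B^0 = (φ, A₀ φ)`.
* **L8.1 OK** (fixed `J`; both families).  Checked: `P_t (1 - q/16) = 1 - (t² - 1) q / 3 + ..`; `sin (z/2) = √(Q/32)`; `(M/2) z (η/M) → υ |η|`, `υ = v/√32 = 1/√128`; Frullani `G_L (0) = log L / 2π`;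
  tail exponent `(64 - r)/100 > 1/2` for `r ≤ 8`; terminal diagonal by dyadic annuli.  The bounds are `B4.kernels_bounds`, `terminal_bounds`, `low_contraction` (families `Fam.entry`, `famUV γ`).
  NEW here: `entry_diag` (rate `u^{-1/2}` for `δ_j^{en}`, gives `λ_j = λ (1 + ε_j)`, `∑ |ε_j| < ∞`), `entry_jets`, `terminal_diag`, `cov_unwrap`, `cov_sym`.  Same Fourier package as L4.1 (R285/Ker).
* **P8.2 OK for the case used (fixed `J`, `a'` large, "weaker bounds")**; a high-temperature polymer expansion, the proof is a correct sketch.  Checked: Poisson form `w (t)`; the trick "differentiate the shifted Gaussian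
  density keeping the lattice value fixed" = in the sup norm a complex translation `ψ ↦ ψ + f` of `g (σ - ψ)`, cost `exp (h₀ |η| / γv² + h₀² / 2γv²)` per touched vertex; (8.12) `det (1 - 2τ T_S)^{-1/2} ≤ exp (τ |S| / (1 - 2τ))`
  from `0 ≤ T_S ≤ 1`, `tr T_S ≤ |S|` (uses ONLY (8.6), no regulator lemma for `C_uv`); `E_ℓ (a+b+c) ≤ 3 (..)`; `∑_{ℓ ∈ S} E_ℓ (η) ≤ (2/v²) ∑_touched η²`; extraction of the constants; counting `(C m₀² |J|)^{Cr}`.
  REPAIR (presentation): the comb is never a distribution here: `Zuv` sums the Gaussian density of the independent normals over the comb points.  `∂_s` bounds are replaced by holomorphy in `s` on a complex disc.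
* **s8.2, modified neutral localisation: trivial for `J_nn`** (the frame prescription IS `RG.Loc`, `B4.loc_isotropic`).
* **s8.2, fundamental localisation OK** (`fund_localization`; the only new analytic estimate).  Checked: shift `i sgn(q) α Γ(·, v₀)`: density cost `e^{α² Γ₀₀/2}` times character `e^{-|q| α² Γ₀₀}` = (8.13); residual column bounded uniformly in `L`
  (`h₀ ≥ C₁ α`); `|q| ≥ 2`: `L^{-6} e^{2 h₀ α}` (= `B4.charged_gain` with `a = α`); `|q| = 1`: `H₁ (φ) = e^{iαφ(v₀)} G (φ - φ (v₀))`, `G (0) = H₁ (0)` does not depend on the anchor, first Taylor difference gains `L^{-1}`, the factor `e^{h₀ α}` is a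
  constant chosen before `L`; average over the anchors in `B`, evenness: `2 H₁ (0) c_B^α / |X|`.   `B4.charged_gain` alone is NOT enough (it has already paid the coarse constants); the proof re-runs L4.6 + L4.5 together.
* **P8.3 OK = made explicit here.**  `Step.desig` (designated data, linear in `(t,z,R)`), `Step.Phi`, `Step.Clin`, `Step.Pt`, `Step.Pz`, `Step.lam`.  With the localisation of LINEAR inputs only (as in P4.8) the scalar rows are EXACTLY linear: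
  `t₊ = t + P^t R`, `z₊ = λ_j z + P^z R`; all nonlinear terms sit in `R₊` (so `π_t D²Φ_j (0) = 0` in [F] (5.x), allowed there).  Checked: triangular identity (`WeakOK.lin`); small subtracted terms `C L^{-3} · C L²`; large supports by `A`;
  `|P^z| ≤ C λ_j`; the hypothesis `d.size ≤ C_d ε` of `B4.nonlinear_map` holds with `C_d = 1` after enlarging `ε` by a factor `C L² A` (the extracted constant of the energy singleton is `a_b ~ L² t`).
  No-cosine variants: gapped `C L^{2 - a'/4π}` OK (`weak_step_gapped`, used by [C] s5); uniform in `a' ≥ 4 k₀` OK, but the chain only needs "`a'` large after `L`" = `B4.charged_contraction` (`weak_step_high`).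
  "Analytic with differentiated estimates" := `quad` + `lip` + `hol` (Gateaux), Fréchet holomorphy follows.  All statements carry the extra regulators (`Vf`, `Vc`) of L9.2, as [C], [F], [E] need.
* **P8.3, plane = torus: OK, repaired as a DEFINITION** (`RG.Copy`, `weak_copy`, `weak_cut`): no plane object; a constant padding is stable under the map.  The "plane history" of [F], [E] is a compatible family over all retained tori (s.8 below).
* **(8.17)-(8.18), P8.4 OK**: pure Banach algebra (checked `ℓ_{j+1} λ_j = λ ℓ_j`, cancellation of the first terms, parities).  Owner: B10 (T1, T2); nothing model dependent.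
* **P8.5 OK, with a continuum-free route** (needed: `b_j → 2 log L`, `liminf H_j > 0`, rates are [F] L5.3; `b^{tt}` and the VALUE of `H` are not needed: the Gaussian curve removes `T²`).  The paper's two steps are (1) convergence of the coefficients by
  finite depth truncation + kernel convergence, (2) identification by `r` steps against one Gaussian integral.  Checked (2): `Cov (½|∇ζ|², cos α(θ+ζ_y)) = -(α²/2) (C A C)(y,y) e^{-α² C₀₀/2} cos αθ`; `∫ (P - P_M)²/|η|² = log M / 2π + O(1)`;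
  `z²`: `-(α²/4) e^{-α² G(0)} ∫ x₁² (e^{α² G(x)} - 1)`, integrand `≥ 0`, `~ |x|^{-2}` at `α² = 8π`.  `R^{(1)} = 0`, `R^{(2)}_{j+1} = C_j R^{(2)}_j + O(1)`: diagnostics differ from the scalars by `O(1)`.
  DISCRETE VERSION (plan of the cut, s.9 below): run (2) on the stopped tori with the read-outs of [B] (10.2)-(10.3) instead of "a large box with boundary terms removed" (affine backgrounds are not periodic: REPAIR), all sums finite:
  `∑_{i<r} b_{j+i} = 2 r log L + O(1)`, `∑_{i<r} H_{j+i} ≥ c r - C`; inputs `acc_diag2`, `acc_log` (from `entry_diag` + `ShellBounds` + range; no continuum Green function).  With (1) in Cauchy form this gives the limits.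
* **P8.6 (ii) OK** (first two thirds, l.1043-1125; needed for `b_c < ∞`, route BC-1).  Shooting: `shooting` (abstract; I checked openness of the two exit sets incl. the equality case).  Completion of the square: `dg_complete` (re-derived; the constant modes of
  the polynomial kernels are harmless because of the uniform phase).  Terminal integration: `terminal_small` + Cauchy in the source `w`.  The last third (identification `a (k) = a'`, uses [B] s2-3) is NOT needed.  P8.6 (i), C8.7, C8.8: not in the chain (logic OK).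

## (i) Imports from other posts
B4: L4.1 (all kernel bounds for `Fam.entry`, `famUV`), L4.3, L4.4 / L9.2 (`RegStable`), L4.5, L4.6, P4.8 (`exact_map`, `nonlinear_map`, `large_linear_abs`, `Kprime_ok`).  B10: balance functionals, charts, first exit, Gaussian curve (abstract).
## (ii) External theorems really used: none.  ([DH00], [BPR24] are quoted for context only.)
## Consumers
[C] s5: `weak_step_gapped`, `weak_copy`.  [F] s4-5, [E] s3: `weak_step`, `weak_copy`, `entry_diag`, `entry_jets`, P8.5.  BC-1: `dg_rough`.  B10: the Banach packaging (s.8).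
-/

set_option autoImplicit false

namespace Claimed.Agent.R285.B8

open scoped BigOperators ENNReal NNReal
open MeasureTheory ProbabilityTheory Polynomial Filter Topology
open Claimed.Agent.R285.RG

noncomputable section

/-! ## 0. Constants fixed before everything else: `Geo`, `Geo.Ok`, `k0`, `org` are in `Map/Defs.lean` -/

/-! ## 1. Lemma 8.1 (`wh:kernels`), nearest neighbour `J`: what is NOT already in `B4` -/

/-- the first family of [B] s8.1 for the four nearest steps (`Q = A/4`, `v² = 1/4`, `d = 1`): after the independent normals of variance `γ/4`,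
multipliers `(1 - γ λ / 4) / λ * (..)`; `c = 64` -/
def famUV (γ : ℝ) : Fam := ⟨1 - C (γ / 4) * X, 64⟩

theorem famUV_adm (γ : ℝ) (h0 : 0 < γ) (h1 : γ ≤ 1 / 4) : (famUV γ).Adm (1 / 2) 1 1 := by
  refine ⟨by norm_num [famUV], by norm_num, ?_, ?_⟩
  · unfold famUV
    refine (natDegree_sub_le _ _).trans ?_
    simp only [natDegree_one]
    exact max_le (Nat.zero_le _) ((natDegree_C_mul_le _ _).trans natDegree_X_le)
  · intro x hx0 hx8
    simp only [famUV, eval_sub, eval_one, eval_mul, eval_C, eval_X]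
    constructor <;> nlinarith

/-- total covariance: `γ/4 + (1 - γλ/4)/λ = 1/λ` -/
theorem famUV_total (γ : ℝ) : X * C (γ / 4) + (famUV γ).pref = 1 := by
  simp only [famUV]
  ring

/-- (wh:uv-energy): `0 ≤ A^{1/2} C_uv A^{1/2} ≤ 1` -/
theorem famUV_energy (G : Geom) (γ : ℝ) (h0 : 0 < γ) (h1 : γ ≤ 1 / 4) (u : ℕ) (hu : 1 ≤ u) (f : G.V → ℝ) :
    f ⬝ᵥ (lap G * low G (famUV γ) u * lap G).mulVec f ≤ f ⬝ᵥ (lap G).mulVec f :=
  Claimed.Agent.R285.Ker.ker_low_contraction' G (famUV_adm γ h0 h1) le_rfl u hu f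

/-- polynomial kernels are invariant under the symmetries of the lattice -/
theorem cov_sym {G : Geom} (g : Grid G) (s : GridSym g) (P : ℝ[X]) (v w : G.V) : cov G P (s.σ v) (s.σ w) = cov G P v w :=
  Claimed.Agent.R285.Ker.ker_cov_sym g s P v w

/-- "identical on a retained torus and the plane": polynomial kernels on two tori agree on unwrapped pairs -/
theorem cov_unwrap (G G' : Geom) (hG : G.bc = BC.per) (hG' : G'.bc = BC.per) (P : ℝ[X]) (x y : ℤ × ℤ)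
    (h : max (x.1 - y.1).natAbs (x.2 - y.2).natAbs + P.natDegree < G.M)
    (h' : max (x.1 - y.1).natAbs (x.2 - y.2).natAbs + P.natDegree < G'.M) :
    cov G P (G.π x) (G.π y) = cov G' P (G'.π x) (G'.π y) :=
  sp_cov_copy G G' hG hG' P x y h h'

/-- **L8.1, entry family, diagonal**: `|Γ_u (0,0) - log L / 2π| ≤ C_L u^{-1/2}` (`δ_j^{en}`), on every retained torus -/
theorem entry_diag (ℓ : ℕ) (hℓ : 1 ≤ ℓ) : ∃ (C : ℝ) (D1 : ℕ), ∀ (G : Geom), G.bc = BC.per → ∀ u : ℕ, 1 ≤ u → D1 * (2 ^ ℓ * u) < G.M →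
    ∀ v : G.V, |shell G Fam.entry u (2 ^ ℓ * u) v v - ℓ * Real.log 2 / (2 * Real.pi)| ≤ C / Real.sqrt u := by
  obtain ⟨C, hC⟩ := Claimed.Agent.R285.Ker.ker_entry_diag
  exact ⟨C, 64, fun G hG u hu hM v => hC ℓ G hG u hu hM v⟩

/-- **L8.1, terminal covariance, undifferentiated diagonal** -/
theorem terminal_diag : ∃ C : ℝ, ∀ (G : Geom), G.bc = BC.per → ∀ u : ℕ, 1 ≤ u → 2 * u ≤ G.M → ∀ Γ, IsTerminal G Fam.entry u Γ →
    ∀ v, 0 ≤ Γ v v ∧ Γ v v ≤ C * (1 + Real.log ((G.M : ℝ) / u)) := by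
  obtain ⟨C, hC⟩ := Claimed.Agent.R285.Ker.ker_terminal_diag 1 1 64 0
  exact ⟨C, fun G _ u hu huM Γ hΓ => hC G Fam.entry Claimed.Agent.R285.Ker.ker_entry_adm (by norm_num [Fam.entry]) u hu huM Γ hΓ⟩

/-! ## 2. The fundamental localisation (text before P8.3, l.590-640): the ONLY new analytic estimate of s8.2 -/

variable {G : Geom}

/-- **fundamental localisation**, `q = ± 1`, `α ≤ αmax`, `h₀ ≥ C₁ αmax`.  `C` is chosen BEFORE `L` (it contains `e^{h₀ α}`).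
Gain: the exact Gaussian factor `e^{-α² Γ(v₀,v₀)/2} = λ_j L^{-2}` times `L^{-1}` (first Taylor difference). -/
theorem fund_localization (c : Geo) (hc : c.Ok) : ∃ C1 : ℝ, ∀ (δ κ : ℝ) (h0 : ℝ≥0) (αmax : ℝ), 0 < δ → 0 < κ → 0 < αmax → C1 * αmax ≤ h0 →
    ∃ (C : ℝ≥0) (ℓ0 D1 : ℕ), ∀ p : Par, p.δ = δ → p.κ = κ → p.h0 = h0 → 0 < p.ω → 2 * Real.pi / p.ω ≤ αmax →
      ∀ D0 ≥ D1, ∀ (G : Geom) (ℓ : ℕ), ℓ0 ≤ ℓ → ∀ (P : Pair G D0 ℓ) (Γ : Matrix G.V G.V ℝ) (Vf : Extra P.g) (Vc : Extra P.g'),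
      ShellOK c.Ck c.ck c.ρ P Γ → RegStable c.R c.n0 c.cst p.δ p.κ P Vf Vc Γ →
      ∀ (X : Finset P.g.I) (F : Fn G) (u : ℝ≥0∞), LocalInput p c.col c.R c.n0 P.g Vf X F u → P.g.Bulk X →
      ∀ v0 ∈ P.g.sites X, ∀ q : ℤ, q = 1 ∨ q = -1 → ∀ H, H = conv Γ (chargeProj p.ω q F) →
        (‖H 0‖₊ : ℝ≥0∞) ≤ C * u * ENNReal.ofReal (Real.exp (-(2 * Real.pi / p.ω) ^ 2 * Γ v0 v0 / 2)) ∧
        fnSize p P.g' Vc (P.N.cl X) (fun z => H z - H 0 * chiX P.g (2 * Real.pi / p.ω) q X z)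
          ≤ C * u * ENNReal.ofReal (Real.exp (-(2 * Real.pi / p.ω) ^ 2 * Γ v0 v0 / 2)) * (2 ^ ℓ : ℝ≥0∞)⁻¹ :=
  Fund.fund_localization c hc

/- `fund_even` (false as stated: helper281 16:45Z; no consumer) is DELETED; the strip version is `w_Hq_neg` (`Map/WInt.lean`). -/

/-- complete Gaussian expectation of the energy singleton -/
theorem conv_eBC (g : Grid G) (Γ : Matrix G.V G.V ℝ) (hΓ : Γ.PosSemidef) (B : g.I) (z : G.V → ℂ) :
    conv Γ (eBC g B) z = eBC g B z + conv Γ (eBC g B) 0 :=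
  w_conv_eBC g Γ hΓ B z

/-- complete Gaussian expectation of the cosine singleton (constant diagonal) -/
theorem conv_cBC (g : Grid G) (Γ : Matrix G.V G.V ℝ) (hΓ : Γ.PosSemidef) (γ0 : ℝ) (hd : ∀ v, Γ v v = γ0) (α : ℝ) (B : g.I) (z : G.V → ℂ) :
    conv Γ (cBC g α B) z = (Real.exp (-α ^ 2 * γ0 / 2) : ℝ) * cBC g α B z :=
  w_conv_cBC g Γ hΓ γ0 hd α B z

/-! ## 3. The weak map: the EXPLICIT definitions (`single`, `Kof`, `Step`, `Step.desig`, `Step.Phi`, `Step.Clin`, `StepOK`, `WeakOK`, ..) are in `Map/Defs.lean` -/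

/-- **Proposition 8.3, marginal window** `k₀ ≤ a' ≤ k₀ + δ_ref` (here `a' ≤ 4 k₀`, `L² e^{-k₀ Γ(0,0)/2} ≤ 2`, which is `λ_j ≤ 2` at `a' = k₀`), with the cosine coordinate.
Order: (radii, kernels, `n₀`, `cst`), `δ, κ`, `h₀ ≥ C₁`, `θ`, `L = 2^ℓ`, `A`, then `C_{L,A}`, `ε₀`.  Uniform in the volume, the scale, the extra regulators. -/
theorem weak_step (c : Geo) (hc : c.Ok) : ∃ C1 : ℝ≥0, ∀ (δ κ : ℝ) (h0 : ℝ≥0), 0 < δ → 0 < κ → C1 ≤ h0 → ∀ θ : ℝ≥0, 0 < θ →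
    ∃ (ℓ0 D1 : ℕ), ∀ ℓ ≥ ℓ0, ∃ A0 : ℝ, ∀ A ≥ A0, ∃ (C ε0 : ℝ≥0), 0 < ε0 ∧ ∀ D0 ≥ D1, ∀ (ω : ℝ) (G : Geom) (gs : Grid G) (S : Step G D0 ℓ),
      0 < ω → k0 ≤ Step.alpha ω ^ 2 → Step.alpha ω ^ 2 ≤ 4 * k0 → ((2 : ℝ) ^ ℓ) ^ 2 * Real.exp (-k0 * S.Γ (org G) (org G) / 2) ≤ 2 →
      StepOK c ⟨δ, κ, h0, A, ω⟩ gs S →
      WeakOK c ⟨δ, κ, h0, A, ω⟩ gs S true θ C ε0 :=
  wk_step c hc

/-- **Proposition 8.3, gapped window** `a' ∈ [a₁, a₂] ⊂ (k₀, ∞)`, no cosine coordinate; `L` depends on the gap.  ([C] s5.) -/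
theorem weak_step_gapped (c : Geo) (hc : c.Ok) (a1 a2 : ℝ) (h1 : k0 < a1) (h2 : a1 ≤ a2) :
    ∃ C1 : ℝ≥0, ∀ (δ κ : ℝ) (h0 : ℝ≥0), 0 < δ → 0 < κ → C1 ≤ h0 → ∀ θ : ℝ≥0, 0 < θ →
    ∃ (ℓ0 D1 : ℕ), ∀ ℓ ≥ ℓ0, ∃ A0 : ℝ, ∀ A ≥ A0, ∃ (C ε0 : ℝ≥0), 0 < ε0 ∧ ∀ D0 ≥ D1, ∀ (ω : ℝ) (G : Geom) (gs : Grid G) (S : Step G D0 ℓ),
      0 < ω → a1 ≤ Step.alpha ω ^ 2 → Step.alpha ω ^ 2 ≤ a2 →
      -- the diagonal is within a fixed small error of `log L / 2π` (`entry_diag`)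
      (1 - (a1 - k0) / (2 * a1)) * (ℓ * Real.log 2 / (2 * Real.pi)) ≤ S.Γ (org G) (org G) →
      StepOK c ⟨δ, κ, h0, A, ω⟩ gs S → WeakOK c ⟨δ, κ, h0, A, ω⟩ gs S false θ C ε0 :=
  wk_step_gapped c hc a1 a2 h1 h2

/-- **Proposition 8.3, high frequency** (`a'` large AFTER `L`; enough for P8.6 (ii)), no cosine coordinate; from `B4.charged_contraction`. -/
theorem weak_step_high (c : Geo) (hc : c.Ok) (δ κ : ℝ) (hδ : 0 < δ) (hκ : 0 < κ) : ∃ h0 : ℝ≥0, 0 < h0 ∧ ∀ θ : ℝ≥0, 0 < θ →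
    ∃ (ℓ0 D1 : ℕ), ∀ ℓ ≥ ℓ0, ∃ (α0 A0 : ℝ), ∀ A ≥ A0, ∃ (C ε0 : ℝ≥0), 0 < ε0 ∧ ∀ D0 ≥ D1, ∀ (ω : ℝ) (G : Geom) (gs : Grid G) (S : Step G D0 ℓ),
      0 < ω → α0 ≤ Step.alpha ω → StepOK c ⟨δ, κ, h0, A, ω⟩ gs S → WeakOK c ⟨δ, κ, h0, A, ω⟩ gs S false θ C ε0 :=
  wk_step_high c hc δ κ hδ hκ

/-! ## 4. Plane = torus on unwrapped supports (last paragraph of P8.3)

There is NO plane object (`Base/Spaces.lean`, S2).  Two activities at the same block side on two tori are copies (`RG.Copy h₀ c0`) if they agree on every support which unwraps, with `c0` blocks of padding, in both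
tori.  A CONSTANT padding is stable under the map: `K'(Y)` only uses `K (X)`, `\bar X ⊆ N_1 (Y)`, and covariance entries inside `N_{1+ρ} (Y)`; `c0 ≥ 2 (ρ + 4)` works for `L ≥ 2`. -/

/-- **P8.3, last paragraph**: the scalars are copied and the copy relation is preserved.  Pure locality (no estimate): only finiteness of the integrals is used.
PROVED modulo the leaves `W-COPY-*`: `Map/WCopy.lean` (helper21).  Extra hypotheses of 18:00Z: `0 < ω`, `0 < h₀` (for `h₀ = 0` the relation `Copy` is empty and the statement is false), `1 ≤ A`, `R ≤ c0`,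
`pp + 4 ≤ c0` (`StepCopy.cov` needs `pp + 1` coarse blocks of room). -/
theorem weak_copy (c : Geo) (hc : c.Ok) (c0 : ℕ) (hcR : c.R ≤ c0) (hpp : pp + 4 ≤ c0) (p : Par) (hω : 0 < p.ω) (hh : 0 < p.h0) (hA : 1 ≤ p.A)
    {G G' : Geom} {D0 ℓ : ℕ} (hℓ : c.R * c.n0 ≤ 2 ^ ℓ)
    (hD : 2 * c0 + 4 ≤ D0) (gs : Grid G) (gs' : Grid G') (S : Step G D0 ℓ) (S' : Step G' D0 ℓ) (hS : StepOK c p gs S) (hS' : StepOK c p gs' S')
    (hc' : StepCopy S S') (cosOn : Bool) (t z : ℂ) (Rm : Act S.P.g) (Rm' : Act S'.P.g) (hR : Adm p c gs Rm) (hR' : Adm p c gs' Rm')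
    (hf : actNorm p S.P.g S.Vf Rm ≠ ⊤) (hf' : actNorm p S'.P.g S'.Vf Rm' ≠ ⊤) (h : Copy p.h0 c0 S.P.g S'.P.g Rm Rm') :
    (S.Phi c p.ω cosOn (t, z, Rm)).1 = (S'.Phi c p.ω cosOn (t, z, Rm')).1 ∧
    (S.Phi c p.ω cosOn (t, z, Rm)).2.1 = (S'.Phi c p.ω cosOn (t, z, Rm')).2.1 ∧
    Copy p.h0 c0 S.P.g' S'.P.g' (S.Phi c p.ω cosOn (t, z, Rm)).2.2 (S'.Phi c p.ω cosOn (t, z, Rm')).2.2 ∧
    Copy p.h0 c0 S.P.g' S'.P.g' (S.Clin c p.ω cosOn Rm) (S'.Clin c p.ω cosOn Rm') :=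
  weak_copy' c hc c0 hcR hpp p hω hh hA hℓ hD gs gs' S S' hS hS' hc' cosOn t z Rm Rm' hR hR' hf hf' h

/-- wrapped supports do not feed the scalars, nor the unwrapped supports of the next level: the plane map "componentwise `Phi`, then `cutW`" is consistent with the torus maps.
PROVED modulo the leaves `W-COPY-*`: `Map/WCopy.lean` (= `weak_copy` between the torus and itself). -/
theorem weak_cut (c : Geo) (hc : c.Ok) (c0 : ℕ) (hcR : c.R ≤ c0) (hpp : pp + 4 ≤ c0) (p : Par) (hω : 0 < p.ω) (hh : 0 < p.h0) (hA : 1 ≤ p.A)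
    {D0 ℓ : ℕ} (hℓ : c.R * c.n0 ≤ 2 ^ ℓ) (hD : 2 * c0 + 4 ≤ D0)
    (gs : Grid G) (S : Step G D0 ℓ) (hS : StepOK c p gs S) (cosOn : Bool) (t z : ℂ) (Rm : Act S.P.g) (hR : Adm p c gs Rm) (hf : actNorm p S.P.g S.Vf Rm ≠ ⊤) :
    (S.Phi c p.ω cosOn (t, z, cutW c0 Rm)).1 = (S.Phi c p.ω cosOn (t, z, Rm)).1 ∧
    (S.Phi c p.ω cosOn (t, z, cutW c0 Rm)).2.1 = (S.Phi c p.ω cosOn (t, z, Rm)).2.1 ∧
    EqOn p.h0 (cutW c0 (S.Phi c p.ω cosOn (t, z, cutW c0 Rm)).2.2) (cutW c0 (S.Phi c p.ω cosOn (t, z, Rm)).2.2) :=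
  weak_cut' c hc c0 hcR hpp p hω hh hA hℓ hD gs S hS cosOn t z Rm hR hf

/-! ## 5. The towers of tori: `Sc`, `Sc.T`, `Sc.lev`, `Sc.nest`, `Sc.pair` are in `Map/Defs.lean` -/

/-! ## 6. Proposition 8.2 (`wh:uv`), case "fixed `J`, `a'` large" (`J` = the four nearest steps), and the discrete Gaussian model -/

/-- the Gaussian density of variance `v`, entire in the argument -/
def gdenC (v : ℝ) (w : ℂ) : ℂ := Complex.exp (-w ^ 2 / (2 * v)) / (Real.sqrt (2 * Real.pi * v) : ℝ)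

/-- `(σ, A σ)` -/
def enZ (G : Geom) (σ : G.V → ℤ) : ℝ := (fun v => (σ v : ℝ)) ⬝ᵥ (lap G).mulVec fun v => (σ v : ℝ)

/-- **the two ultraviolet integrations**: comb (heights `ω σ`, `σ ∈ ℤ^V`), independent normals of variance `γ/4` (integrated explicitly: density at the comb points),
compensation `exp (s (φ, A φ)/2)`, then `C_uv = C_{<u}` of the family `famUV γ` -/
def Zuv (G : Geom) (γ ω : ℝ) (u : ℕ) (s : ℂ) : Fn G := fun z =>
  ∫ ζ, (∑' σ : G.V → ℤ, (∏ x, (ω : ℂ) * gdenC (γ / 4) ((ω * σ x : ℝ) - z x - (ζ x : ℝ))) * Complex.exp (s / 2 * (ω ^ 2 * enZ G σ : ℝ)))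
    ∂(gauss G (low G (famUV γ) u))

/-- `δ₀ = e^{-γ' a' v²/2}`, `v² = 1/4` -/
def del0 (γ' ω : ℝ) : ℝ := Real.exp (-γ' * Step.alpha ω ^ 2 / 8)

/-- **Proposition 8.2, fixed `J`** ("weaker bounds"): exact block representation at the side `u = L^{j0}`, all site occupations in the remainder.
`K₀ = 1_{X={B}} s e_B^0/2 + 𝓡₀`, `‖𝓡₀‖ ≤ C (|s|² + δ₀)` on a COMPLEX disc `|s| ≤ s₁` (so `∂_s` is controlled by Cauchy), for `a' ≥ a₀`.
Order: `γ' < γ ≤ 1/4`, norm parameters `p` (any `A`!), the side `u`; then `C, s₁, a₀`. -/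
theorem uv_rep (c : Geo) (hc : c.Ok) (γ γ' : ℝ) (h0 : 0 < γ') (h1 : γ' < γ) (h2 : γ ≤ 1 / 4) (δ κ : ℝ) (hh : ℝ≥0) (A : ℝ) (hδ : 0 < δ) (hκ : 0 < κ)
    (hA : 1 ≤ A) (sc : Sc) (j0 : ℕ) (c0 : ℕ) (hc0 : 2 * (c.ρ + 4) ≤ c0) : ∃ (C s1 α0 : ℝ), 0 < s1 ∧ ∀ ω : ℝ, 0 < ω → α0 ≤ Step.alpha ω →
    ∃ (R0 : ∀ h : ℕ, ℂ → Act (sc.lev h j0)) (cst : ℕ → ℂ → ℂ), ∀ h, j0 ≤ h →
      (∀ s : ℂ, ‖s‖ ≤ s1 → cst h s ≠ 0 ∧ Adm ⟨δ, κ, hh, A, ω⟩ c (sc.lev h j0) (R0 h s) ∧
        actNorm ⟨δ, κ, hh, A, ω⟩ (sc.lev h j0) (Extra.zero _) (R0 h s) ≤ ENNReal.ofReal (C * (‖s‖ ^ 2 + del0 γ' ω)) ∧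
        (s.im = 0 → (R0 h s).Real) ∧
        (∀ z ∈ strip hh (sc.lev h j0) Finset.univ,
          Zuv (sc.T h) γ ω (sc.L ^ j0) s z = cst h s * ZA (sc.lev h j0) c.R (Kof (sc.lev h j0) (Step.alpha ω) (s, 0, R0 h s)) z) ∧
        ∀ h', j0 ≤ h' → Copy hh c0 (sc.lev h j0) (sc.lev h' j0) (R0 h s) (R0 h' s)) ∧
      ∀ X, ∀ z ∈ strip hh (sc.lev h j0) X, DifferentiableOn ℂ (fun s => R0 h s X z) (Metric.ball 0 s1) := by
  sorry

/-- discrete Gaussian heights on the torus `G` modulo constants, precision `κ` in integer units; unnormalised Laplace transform of `∑ f_v 2π h_v` -/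
def dgZ (G : Geom) (κ : ℝ) (f : G.V → ℂ) : ℂ :=
  ∑' h : {h : G.V → ℤ // h (org G) = 0}, Complex.exp (∑ v, f v * (2 * Real.pi * h.1 v : ℝ)) * (Real.exp (-κ / 2 * enZ G h.1) : ℝ)

/-- the full interaction integral at the background `F`: total covariance `Γ` (everything above the side `u`), uniform common phase -/
def Iuv (G : Geom) (γ ω : ℝ) (u : ℕ) (s : ℂ) (Γ : Matrix G.V G.V ℝ) (F : G.V → ℂ) : ℂ :=
  ∫ θ in (0 : ℝ)..ω, conv Γ (Zuv G γ ω u s) fun v => F v + (θ : ℂ)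

/-- **completion of the square in the comb integral** (proof of P8.6, l.1100-1110).  `k = a'/(1 - s)`, `κ = 4π²/k = ω² (1 - s)`; `F = α A⁺ f`, i.e. `A F = α f`. -/
theorem dg_complete (G : Geom) (hG : G.bc = BC.per) (γ ω : ℝ) (h0 : 0 < γ) (h2 : γ ≤ 1 / 4) (hω : 0 < ω) (u : ℕ) (hu : 1 ≤ u) (s : ℝ) (hs : |s| ≤ 1 / 16)
    (Γ : Matrix G.V G.V ℝ) (hΓ : Γ.PosSemidef)
    (hT : ∀ f : G.V → ℝ, ∑ v, f v = 0 → (lap G * Γ).mulVec f = (cov G ((famUV γ).termP u)).mulVec f)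
    (f F : G.V → ℂ) (hf : ∑ v, f v = 0) (hF : ∀ v, ∑ w, ((lap G v w : ℝ) : ℂ) * F w = (Step.alpha ω : ℂ) * f v) :
    dgZ G (ω ^ 2 * (1 - s)) f * Iuv G γ ω u s Γ 0
      = Complex.exp ((Step.alpha ω : ℂ) * (∑ v, f v * F v) / 2) * Iuv G γ ω u s Γ F * dgZ G (ω ^ 2 * (1 - s)) 0 := by
  sorry

/-! ## 7. Proposition 8.6 (ii): shooting, terminal integration, roughness of ONE discrete Gaussian model -/

/-- **the shooting lemma** (abstract form of l.1043-1098).  `T j s`, `ρ j s` = balanced gradient coordinate and remainder norm at step `j` for the input `s ∈ [-a, a]`, defined as long as the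
history stays in the domain (`dom j s`).  Survivor by connectedness. -/
theorem shooting (θ θ3 Cq x D a : ℝ) (hθ : 0 < θ) (hθ3 : θ < θ3) (h31 : θ3 < 1) (hx : 0 < x) (hD : 0 < D) (hCq : 0 ≤ Cq)
    (hsmall : Cq * (D + 1 + Cq) ^ 2 * x ≤ (1 - θ3) * (θ3 - θ) * min D 1 / 4)
    (T : ℕ → ℝ → ℝ) (ρ : ℕ → ℝ → ℝ) (hρ0 : ∀ j s, 0 ≤ ρ j s)
    (hcont : ∀ j, ∀ s ∈ Set.Icc (-a) a, (∀ i < j, |T i s| ≤ D * x * θ3 ^ i) → ContinuousWithinAt (T j) (Set.Icc (-a) a) s)
    (hinit : ∀ s ∈ Set.Icc (-a) a, ρ 0 s ≤ x) (hl : T 0 (-a) < -(D * x)) (hr : D * x < T 0 a)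
    (hT : ∀ j, ∀ s ∈ Set.Icc (-a) a, (∀ i ≤ j, |T i s| ≤ D * x * θ3 ^ i) → |T (j + 1) s - T j s| ≤ Cq * (|T j s| + ρ j s) ^ 2)
    (hR : ∀ j, ∀ s ∈ Set.Icc (-a) a, (∀ i ≤ j, |T i s| ≤ D * x * θ3 ^ i) → ρ (j + 1) s ≤ θ * ρ j s + Cq * (|T j s| + ρ j s) ^ 2) :
    ∃ s ∈ Set.Icc (-a) a, ∀ j, |T j s| ≤ D * x * θ3 ^ j ∧ ρ j s ≤ (1 + Cq) * x * θ3 ^ j := by
  sorry

/-- the first cosine on the torus -/
def cos1 (G : Geom) (v : G.V) : ℝ := Real.cos (2 * Real.pi * (v.1 : ℕ) / G.M)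

/-- **terminal integration** (l.1110-1120; = [B] (10.1)-(10.3) without read-out): boundedly many blocks, small activity, background `w q_n` with `|w| ≤ w₁` complex:
the terminal average is within `C ‖K‖` of one. -/
theorem terminal_small (c : Geo) (hc : c.Ok) (Ct : ℝ) (nb : ℕ) : ∃ δ0 > (0 : ℝ), ∀ δ ∈ Set.Ioc 0 δ0, ∃ κ0 > (0 : ℝ), ∀ κ ∈ Set.Ioc 0 κ0, ∀ hh : ℝ≥0, 0 < hh →
    ∀ A : ℝ, 1 ≤ A → ∃ (C w1 ε1 : ℝ), 0 < w1 ∧ 0 < ε1 ∧ ∀ (ω : ℝ) (G : Geom) (g : Grid G), 0 < ω → G.bc = BC.per → g.Ok → g.n ≤ nb →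
      ∀ Γ : Matrix G.V G.V ℝ, Γ.PosSemidef → TermBounds G Ct g.m Γ → ∀ K : Act g, Act.Ok ⟨δ, κ, hh, A, ω⟩ c.col c.R K →
      ∀ ε : ℝ, ε ≤ ε1 → actNorm ⟨δ, κ, hh, A, ω⟩ g (Extra.zero g) K ≤ ENNReal.ofReal ε → ∀ (w θ : ℂ), ‖w‖ ≤ w1 → θ.im = 0 →
        ‖conv Γ (ZA g c.R K) (fun v => w * (cos1 G v : ℝ) + θ) - 1‖ ≤ C * ε := by
  sorry

/-- variance of `n⁻² ∑ 2π h_v cos (2π v₁/n)` in the discrete Gaussian torus law, on the vertex type of `Base/RG` -/
def dgVarG (G : Geom) (κ : ℝ) : ℝ :=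
  (iteratedDeriv 2 (fun w : ℝ => Real.log (dgZ G κ fun v => ((w * ((G.M : ℝ)⁻¹ ^ 2 * cos1 G v) : ℝ) : ℂ)).re) 0)

/-- bridge to `BC1.dgTorVar` (`ZMod n × ZMod n` against `Fin n × Fin n`; variance = second logarithmic derivative) -/
theorem dgVarG_eq (G : Geom) (hG : G.bc = BC.per) (κ : ℝ) (hκ : 0 < κ) : dgVarG G κ = BC1.dgTorVar κ G.M := by
  sorry

/-- **Proposition 8.6 (ii), Laplace part**: for every large `a'` there is an input `s`, `|s| ≤ C e^{-c a'}`, at which the torus variance of the first cosine converges to the Gaussian value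
`a' 𝔤`, `𝔤 = 1/(8π²)`.  (The identification `a (k) = a'` of the paper is NOT needed by the chain.) -/
theorem dg_shot : ∃ (sc : Sc) (C cc a0 : ℝ), 0 < cc ∧ 2 ≤ sc.L ∧ (∃ d : ℕ, sc.D0 = sc.L ^ d) ∧ ∀ a' : ℝ, a0 ≤ a' → ∃ s : ℝ, |s| ≤ C * Real.exp (-cc * a') ∧
    Tendsto (fun h : ℕ => dgVarG (sc.T h) (4 * Real.pi ^ 2 / a' * (1 - s))) atTop (𝓝 (a' / (8 * Real.pi ^ 2))) := by
  sorry

/-- **the contract `BC1.bc1_dg_rough`**, PROVED from `dg_shot` and the bridge. -/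
theorem dg_rough : ∃ (κ : ℝ) (L : ℕ) (c : ℝ), 0 < κ ∧ 2 ≤ L ∧ 0 < c ∧ ∀ᶠ N : ℕ in atTop, c ≤ BC1.dgTorVar κ (L ^ N) := by
  obtain ⟨sc, C, cc, a0, hcc, hL, ⟨d, hd⟩, H⟩ := dg_shot
  -- choose `a'` so large that `|s| ≤ 1/2`
  have hlim : Tendsto (fun a' : ℝ => C * Real.exp (-cc * a')) atTop (𝓝 (C * 0)) := by
    apply Tendsto.const_mul
    have : Tendsto (fun a' : ℝ => -(cc * a')) atTop atBot :=
      tendsto_neg_atTop_atBot.comp (Tendsto.const_mul_atTop hcc tendsto_id)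
    have h := Real.tendsto_exp_atBot.comp this
    refine h.congr fun a' => ?_
    show Real.exp (-(cc * a')) = Real.exp (-cc * a')
    rw [neg_mul]
  rw [mul_zero] at hlim
  have hev : ∀ᶠ a' : ℝ in atTop, C * Real.exp (-cc * a') < 1 / 2 := hlim.eventually (gt_mem_nhds (by norm_num))
  obtain ⟨a', h1, h2, h3⟩ := (hev.and ((eventually_ge_atTop a0).and (eventually_gt_atTop 0))).exists
  obtain ⟨s, hs, hT⟩ := H a' h2
  have hs' : s < 1 := lt_of_le_of_lt (le_abs_self s) (by linarith)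
  have hκ : 0 < 4 * Real.pi ^ 2 / a' * (1 - s) := by
    have := Real.pi_pos
    apply mul_pos (by positivity) (by linarith)
  have hc : 0 < a' / (8 * Real.pi ^ 2) := by have := Real.pi_pos; positivity
  refine ⟨_, sc.L, a' / (8 * Real.pi ^ 2) / 2, hκ, hL, by positivity, ?_⟩
  have h4 : ∀ᶠ h : ℕ in atTop, a' / (8 * Real.pi ^ 2) / 2 < dgVarG (sc.T h) (4 * Real.pi ^ 2 / a' * (1 - s)) :=
    hT.eventually (lt_mem_nhds (by linarith))
  obtain ⟨h0, hh0⟩ := eventually_atTop.1 h4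
  refine eventually_atTop.2 ⟨h0 + d, fun N hN => ?_⟩
  have h5 := hh0 (N - d) (by omega)
  rw [dgVarG_eq _ rfl _ hκ] at h5
  have h6 : (sc.T (N - d)).M = sc.L ^ N := by
    show sc.D0 * sc.L ^ (N - d) = sc.L ^ N
    rw [hd, ← pow_add]; congr 1; omega
  rw [h6] at h5
  exact h5.le

end

end Claimed.Agent.R285.B8
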