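import Claimed.Agent.R285.Mass.Glue
import Claimed.Agent.R285.Mass.Sharp
import Claimed.Agent.R285.Mass.Tilt
import Claimed.Agent.R285.TopXY

/-!
# ROW 285, BP-READ-E6 (helper164): [E] Section 6 = `mass.tex` (from the height profile to the spin mass)

## RESULT: NO FATAL.  `Top.mass_of_profile` stays VERBATIM and follows from `ProfileStep` ALONE (`mass_of_profile` below; `ProfileStep L T` unfolds to `Mass.StepA xyCritical L T (8π) aCoef`).
E5 owes NOTHING else to E6: no pinned limit, no Gaussian limit, no C5.6.  The unit MASS = `R285/Mass/{Grid,Sharp,Tilt,Glue}.lean`.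

## K1 verdicts (every numbered item of mass.tex)
* (6.1), (6.2) frame: OK.  The extraction of a subsequence is not needed (`ProfileStep` is in sequence form); the final "every sequence has a subsequence" argument disappears (`Mass.mass_limit`: `tendsto_of_seq_tendsto` + `tendsto_order`).
* L6.1 (lem:mass-correlation-bounds; (6.3) `C_b(x) ≤ e^{-m|x|_∞}`, (6.4) charge two): OK.  (6.3) = `latCorr_le_exp` (Xy/Mass, PROVED by helper177).  (6.4) is used only for the loops: NOT NEEDED.
* s6.2, (6.5)-(6.9) (currents, loops, winding heights, vEL L8, P7): statements correct as far as checked, but vEL is not in the box: LEAVES THE CHAIN (helper30's Mag package: Bessel recurrence + duality + Dunlop-Newman).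
* L6.2 (lem:mass-loop-covariance, (6.9) `n^{12} e^{-cnm} + e^{-c n⁴ log n}`): OK as a statement; NOT NEEDED.  Replaced by `sq_cov_decay` (bond covariances of the FREE height square).
* (6.10) (eq:mass-positive-pinned): rests on [E] P5.5 (prop:gaussian-profile, grounded inverse form: pinned rim, smears of non-zero mass) at MOVING temperature = moving version of [C]T3.1.  Repairable but VERY expensive, and it is NOT contained in `ProfileStep`.  REPLACED, see P6.4.
* P6.4 (prop:mass-lower-length, `liminf ≥ T`): OK in the paper (given (6.10)).  NEW PROOF, from `ProfileStep` only: `Mass.sq_aCoef_sharp`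
      `a_m(b) ≤ A m² e^{-μR} + (2R/m) (2π)² b · 20 (1 + log m)`      (far rows: `sq_row_row`; near rows: Cauchy-Schwarz + logarithmic variance of a height difference),
  so `a_m(b) → 0` along `m ≥ ξ^{1+η}`; with `a_{n_k}(b_k) → 8π` at every scale `w < T` this gives `ξ_k ≥ n_k^{1-η}`.   REMARK: `C4.coef_le` (`R²ξ/m`, i.e. `m ≥ ξ^{3+η}`) would only give `T/3`.
* P6.5 (prop:mass-polynomial): OK.  Three simplifications: (a) sup norm annuli and a piecewise linear stream function instead of `χ(|z|)∇arg z` (no Riemann sums, `D_R = 1` exactly; the error term `C_λ t²` of (6.17) becomes the reference cost of the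
  diagonal cells, `8 b λ²/G`); no Hölder step (6.17), no (2.x) bounded-flow-mgf; (b) the statement is FINITE and uniform in `b ≤ β` (`Mass.tilt_decay`): "coefficient `≤ ε` on the dyadic scales `j₁ ≤ j < j₂`" ⟹ `C_{Λ,b}(0,y) ≤ e^{-λ(j₂-j₁)}`;
  it is at the same time the core of [C]P2.6, `a = 0` (`Mass.xyCorr_tilt` ⟹ `C2.spin_upper_zero'`); (c) it is applied in the box `H_r` itself (the quantity `S_{r,b}` of L6.6 is a finite volume quantity): no thermodynamic limit.
* C5.6 (cor:profile-zero-uniform), as used in P6.5: = `C2.affine_small` (finite) + `Mass.coef_uniform` (compactness of the interval of scales; pure glue).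
* (6.20) Lieb-Rivasseau, L6.6 (lem:mass-finite-size): OK; = `xyMass_ge_of_latS` (Xy/Mass, PROVED by helper177).
* P6.7 (prop:mass-upper-length), proof of the main theorem: OK; pure glue (`Mass.mass_upper`, `Mass.mass_limit`).

## Imports from other posts
(i) C4/Mag (helper30): `sq_aCoef_eq`, `sq_row_row`, `sq_exact`, `sq_sum_edges`, `magEx_*`, `mag_ratio_eq`.   C2 (helper200, helper60): `spin_tilt`, `affine_small`, `rc_translate`, `aCoef_nonneg`.
    XY (helper177): `xyMass_ge_of_latS`, `latBdry_card_le`, `latNorm_of_mem_bdry`, `xyMass_anti`, `xy_mass_pos`, `xy_critical_pos`.   Glue/E5a,b (helper286): `Below`, `Scale`, `refS`.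
(ii) external theorems: NONE (Lieb-Rivasseau and Ginibre are reproved in R285/Xy; vEL is not used).
-/

set_option autoImplicit false

namespace Claimed.Agent.R285.E6

open Filter Topology Claims.C0459

/-- the finite inputs of [E] Section 6 for the XY model. -/
theorem massHyp : Mass.MassHyp xyCritical aCoef xyMass latS where
  bc_pos := xy_critical_pos
  mu_pos := fun _ h0 h1 => xy_mass_pos h0 h1
  sharp := by
    have hc := xy_critical_pos
    refine ⟨(2 * Real.pi) ^ 2 * (xyCritical + 2 * xyCritical ^ 2) * Real.exp (xyMass (xyCritical / 2)),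
      2 * ((2 * Real.pi) ^ 2 * xyCritical * 20), fun b h1 h2 m R hm => ?_⟩
    have hb : 0 < b := lt_of_lt_of_le (by positivity) h1
    refine (Mass.sq_aCoef_sharp b hb m hm R).trans (add_le_add ?_ ?_)
    · have hA : magA b ≤ (2 * Real.pi) ^ 2 * (xyCritical + 2 * xyCritical ^ 2) * Real.exp (xyMass (xyCritical / 2)) := by
        unfold magA
        have e1 : Real.exp (xyMass b) ≤ Real.exp (xyMass (xyCritical / 2)) := Real.exp_le_exp.2 (xyMass_anti (by positivity) h1)
        have e2 : b + 2 * b ^ 2 ≤ xyCritical + 2 * xyCritical ^ 2 := by nlinarith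
        have e3 : 0 ≤ b + 2 * b ^ 2 := by positivity
        gcongr
      gcongr
    · have hm' : (1 : ℝ) ≤ m := by exact_mod_cast hm
      have hl : 0 ≤ 1 + Real.log m := by have := Real.log_nonneg hm'; linarith
      have hR : 0 ≤ (R : ℝ) / m := by positivity
      have e : 2 * (R : ℝ) / m * ((2 * Real.pi) ^ 2 * b * (20 * (1 + Real.log m)))
          = 2 * ((2 * Real.pi) ^ 2 * b * 20) * ((R : ℝ) / m) * (1 + Real.log m) := by ring
      rw [e]
      gcongr
  tilt := fun lam hlam => Mass.latS_tilt xyCritical lam xy_critical_pos hlam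
  fs := fun _ hb r hr h => xyMass_ge_of_latS hb r hr h

/-- **[E] Props 6.4 + 6.7** = `mass_of_profile` of Top.lean (`ProfileStep L T` is, by definition, the hypothesis `h`). -/
theorem mass_of_profile (L : ℕ) (hL : 2 ≤ L) (T : ℝ) (hT : 0 < T) (h : Mass.StepA xyCritical L T (8 * Real.pi) aCoef) :
    Tendsto (fun b => Real.sqrt (xyCritical - b) * Real.logb L (xyMass b)⁻¹) (𝓝[<] xyCritical) (𝓝 T) :=
  Mass.mass_limit massHyp hL hT (by positivity) h

end Claimed.Agent.R285.E6
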