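import Claimed.Agent.R285.F5.Splice

/-!
# ROW 285, post BP-READ-F5: [F] Section 5 = `trajectory.tex` (the critical bulk trajectory) + [E] P3.6 (critical histories)      (owner helper94)

Vocabulary: `R285/Base/Flow.lean` (helper27, helper94; parity, mixed phase read-out and pure Gaussian tori were merged there at 14:10Z).
Output: `crit_histories : Nonempty (E4.Crit κ κe H ρt)` (consumer: E4) and `trajectory` = [F] P5.1 in unbalanced scalars (consumer: F6, F7).

## K1 verdicts ([F] numbering: P5.1, L5.2 parity, L5.3 rate, L5.4 physical torus, L5.5 vanishing, L5.6 cone, L5.7 overlap).  NO FATAL ITEM.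
* **s5.1, (trj:triangular)-(trj:normal-coordinates), Gaussian curve, L5.2: OK.**  Pure Banach-space analysis (producer: post B10, helper21: raw map -> normal form).
  I checked L5.2 monomial by monomial: in multidegree `(a,b,c,d)` in `(u; Z; Q_e; Q_o)` the `u`-row has `b+d` even, no `(a,0,0,0)` (Gaussian curve), no linear term; every other
  monomial is dominated by a term of (trj:u-map); same for the three other rows (`|Z| |Q_o|² ≤ (Z² + |Q_o|²)|Q_o|`).  So L5.2 follows from: holomorphy + bound on a ball, parity,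
  `N (u,0,0) = (u,0,0)`, the linear part, and the two quadratic coefficients: `fine_of_coarse` below.
* **L5.3 (rate `j⁻²` of `H_j`, `b_j`): REPAIRABLE / the weakest point of the section.**  The proof is a complexity count (`exp C (h+1)^4` terms, each with error `L^{-cj}`) for the truncated
  balancing rows; plausible but long to formalise.  WEAKENING: s5.4 only needs `|H_j|, |b_j| ≤ C` and BOUNDED BLOCK SUMS `|∑_{j ≤ i < j'} (H_i - H)| + |∑ (b_i - b_*)| ≤ C` (`j' ≤ 2j`):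
  see `RecOK` (I re-derived the barriers with `∑_{block} H_i = K H + O(1)`, the invariant `I_j` by Abel summation on dyadic blocks, and `1/Y_j`).
  ALTERNATIVE PROOF of the block sums, no complexity count, no continuum evaluation ([B] P8.5 not needed): the second order Taylor coefficients of the COMPOSED map are exact sums,
  `[Z²] T_j = -∑_{m ≤ i < j} H_i`, `[TZ] Z_j = -∑ b_i` (balanced linear part = identity on `T`, `Z`); the read-outs change them by `O(1)`; and the exact partition identity evaluates them in the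
  Gaussian measure `C_{≥ m}`:  `[tz] / [z]` of the phase `= -(α²/2) (C A C)(0,0) + O(1) = -(a/4π) log (n_j/m) + O(1)`;  `[z²] ∂_w²` of the variance response
  `= -(α² γ²/4) ∑_{x,y} (q_x - q_y)² e^{-α² (C(0) - C(x-y))}` (blocks `B ≠ B'`) `= -κ H log_L (n_j/m) + O(1)`, `H > 0`.  Only kernel asymptotics (layer Ker/Pot).
* **L5.4 (torus diagnostics): OK.**  Variance: upper bound by cutting ([C] L2.2, L2.3, T2.4), lower bound by pinned rims ([C] T3.1) + positive semidefinite defect.  Factorisation: replica ODE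
  `F F'' - F'² = -a𝔤 F²`; I checked `-2 (F F'' - F'²) = E[V e^{..}]`, `E V = 2 Var`, `Var V = 2 κ₄`; needs the doubling identity on the subdivided/Bessel law (Base/Height).  `F'(0) = 0` uses EVEN `n`.
* **L5.5 (confinement, vanishing): OK.**  First exit; `z` is confined by the MIXED diagnostic (trj:mixed-diagnostic), NOT by the plain phase:
  `torPhase b_c n → 0` is a COROLLARY (`tor_crit_phase'` below), not an input ([C] T2.5 is for free squares; periodic bonds INCREASE characteristic coefficients).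
  The `q_* ≤ C q_*²` argument: iterate `q(c,c') ≤ C q(c/2,c')²` instead of taking a supremum of limsups.
* **(trj:phase-lower): OK** given [C] (2.15) at `a = 8π`, (2.2), L2.2(iii).
* **L5.6 (odd cone): OK.**  Cone `|Q_o| ≤ ε|Z|` invariant; outside: geometric decay of the odd pair, of the odd torus remainder, hence of the phase: contradiction with (trj:phase-lower).
* **L5.7 (overlap): OK.**  Needs the pure tori and the exact response (trj:pure-response); moving parameter `u_i` (an `O(u²)` bound of the pure remainder is not enough, as the paper says).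
* **s5.4 (recurrence with switches) and P5.1: OK**, every display re-derived.  `c_-` is chosen before `K`.

## Imports
(i) from other posts: `Flow.rg_system` (construction side: B8 P8.3, B9 L9.2, B10 normal form, F4 T4.6 bulk part, [F] (97)-(98), (116)-(119), (130));
`tor_crit_var`, `tor_crit_mix` (L5.4; from C2: L2.2, L2.3, T2.4, (2.12); C3: T3.1); `tor_phase_lower` (C2: (2.15), (2.2)); `aLim_critical`.
(ii) external theorems: none.

## NEEDS (a)-(d) of the first version are merged in `Base/Flow.lean` (F6 there).  Still open: (e) F6 = OBS needs the unbalanced plane remainder `R_j` itself, which Flow hides (helper271: `CenterOK`).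
-/

set_option autoImplicit false

namespace Claimed.Agent.R285.F5

open Filter Topology Claims.C0459
open Claimed.Agent.R285.Flow

noncomputable section

/-! The definitions (`IsSw`, `RecOK`, `Fine`, `Hyp`, `Diag`, `Win`, `Fam`, `xr yr qe qo dE dO`) are in `R285/F5/Rec.lean`, `FineP.lean`, `Bridge.lean`. -/


/-! ## A. The scalar recurrence with dyadic switches ([F] s5.4), normalised: `x = b_* u`, `y = √(b_* H) Y` -/

/-! `rec_asymptotic` : PROVED in `R285/F5/Rec.lean` (helper181, helper94). -/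

/-! ## B. (merged into `Base/Flow.lean`, 14:10Z: `ev`, `od`, `parY`, `parX`, `Hist.σQ σT G pG rM kM cM`, `torMix`, the new fields of `MapOK`, `ReadOK`; `w0 = κ.w0`) -/

/-! ## C. [F] L5.2 in the normalised coordinates -/

/-! `fine_of_coarse` : PROVED in `R285/F5/FineP.lean` (toolkit: first part of that file); rows slightly weaker than [F] (trj:u-map)-(trj:odd-map), coefficients `1 + O(j⁻²)`. -/

/-! ## D. Physical inputs (height side): `Flow.tor_crit_var`, `Flow.tor_crit_mix`, `Flow.tor_phase_lower`, `Flow.tor_phase_pos` -/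

/-! ## E. The critical histories -/

/-! The intermediate layers live in `R285/F5/`:  `Bridge.lean` (definitions `Hyp Diag Win Fam xr yr qe qo dE dO`, contracts BR-*, AS-*), `Conf.lean` (glue: `confine`, ...),
`FineP.lean`, `FineT.lean` (L5.2 for plane and torus rows), `Sc.lean` (scalar lemmas: first exit, window master), `Rec.lean` (s5.4). -/

/-- **[E] P3.6 = [F] P5.1 + L5.5** in the vocabulary of `E4`.  Order of the choices: tube, then (entry, `P0`). -/
theorem crit_histories (κ : MapC) : ∃ ρt1 : ℝ, 0 < ρt1 ∧ ∀ ρt : ℝ, 0 < ρt → ρt ≤ ρt1 → ∃ δ : ℝ, 0 < δ ∧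
    ∀ (κe : EntC) (ρe : ℝ) (H : ℕ → Hist), Hyp κ κe ρe H →
      ρe * κe.P0 ≤ δ → 1 / (κe.P0 : ℝ) ≤ δ → Nonempty (E4.Crit κ κe H ρt) := by
  obtain ⟨ρa, hρa, hconf⟩ := conf_all κ
  obtain ⟨ρb, δ1, hρb, hδ1, hasym⟩ := crit_asym κ
  refine ⟨min ρa ρb, lt_min hρa hρb, ?_⟩
  intro ρt hρt hρt1
  obtain ⟨δ, hδ, hc⟩ := hconf ρt hρt (hρt1.trans (min_le_left _ _))
  refine ⟨min δ δ1, lt_min hδ hδ1, ?_⟩
  intro κe ρe H hy h1 h2
  obtain ⟨sk, hadm, c1, C1, hc1, hsize⟩ := sides_k κ κe hy.dvd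
  have hs : Sk κ κe sk := ⟨hadm, c1, C1, hc1, hsize⟩
  have hcf := hc κe ρe H hy (h1.trans (min_le_left _ _)) (h2.trans (min_le_left _ _))
  have hF : Fam κ κe H ρt sk := fam_of_conf hs hcf
  exact ⟨{ sk := sk, c1 := c1, C1 := C1, hc1 := hc1, adm := hadm, size := hsize,
           asym := hasym κe ρe H sk hy (h2.trans (min_le_right _ _)) (hF.mono (hρt1.trans (min_le_right _ _))),
           conf := fun Jm hJ => (hcf Jm hJ).mono fun s hs' hA i hi =>
             ⟨(hs' hA i hi).1, fun h a b _ => (hs' hA i hi).2 h a b⟩ }⟩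

theorem traj_crit_mono {H : Hist} {C C' : ℝ} {i : ℕ} (h : E4.CritAt H C i) (hC : C ≤ C') : E4.CritAt H C' i := by
  obtain ⟨h1, h2, h3⟩ := h
  have hlg : 0 ≤ Real.log (2 + ((H.j0 + i : ℕ) : ℝ)) := Real.log_nonneg (by
    have : (0 : ℝ) ≤ ((H.j0 + i : ℕ) : ℝ) := Nat.cast_nonneg _
    linarith)
  have hm : C * Real.log (2 + ((H.j0 + i : ℕ) : ℝ)) / ((H.j0 + i : ℕ) : ℝ) ^ 2
      ≤ C' * Real.log (2 + ((H.j0 + i : ℕ) : ℝ)) / ((H.j0 + i : ℕ) : ℝ) ^ 2 := by gcongr
  exact ⟨h1.trans hm, h2.trans hm, h3.trans (by gcongr)⟩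

set_option maxHeartbeats 1000000 in
/-- one stage: the unbalanced scalars at a point with the critical asymptotics -/
theorem traj_at (κ : MapC) (A : ℝ) (hA : 0 ≤ A) : ∃ C J : ℝ, ∀ (H : Hist) (i : ℕ), MapOK κ H → E4.CritAt H A i →
    J ≤ ((H.j0 + i : ℕ) : ℝ) →
    ‖(H.sc _ (H.st xyCritical i)).1 - 1 / (2 * Real.log κ.L * (H.j0 + i : ℕ))‖
      ≤ C * Real.log (2 + (H.j0 + i : ℕ)) / ((H.j0 + i : ℕ) : ℝ) ^ 2 ∧
    ‖(H.sc _ (H.st xyCritical i)).2‖ ≤ C / ((H.j0 + i : ℕ) : ℝ) := by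
  have hbs := br_bs_pos κ
  obtain ⟨S, hSdef⟩ : ∃ S : ℝ, S = Real.sqrt (κ.bs * κ.Hq) := ⟨_, rfl⟩
  have hS : 0 < S := by rw [hSdef]; exact Real.sqrt_pos.mpr (mul_pos hbs κ.hH)
  obtain ⟨B, hB⟩ : ∃ B : ℝ, B = 1 + 2 * A := ⟨_, rfl⟩
  have hB1 : 1 ≤ B := by rw [hB]; linarith
  have hAB : A ≤ B := by rw [hB]; linarith
  have hκC := κ.hC
  have hρ := κ.hρ
  have hκc := κ.hc
  obtain ⟨Ca, hCa⟩ : ∃ Ca : ℝ, Ca = 2 * κ.C * (B ^ 2 + A) + A / κ.bs := ⟨_, rfl⟩
  obtain ⟨Cb, hCb⟩ : ∃ Cb : ℝ, Cb = B / S + κ.C * (B + B ^ 2 + A) := ⟨_, rfl⟩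
  have hCa0 : 0 ≤ Ca := by rw [hCa]; positivity
  have hCb0 : 0 ≤ Cb := by rw [hCb]; positivity
  refine ⟨Ca + Cb, max 1 (B / κ.ρ + 1), ?_⟩
  intro H i hmap hcrit hJ
  obtain ⟨hx, hy, hq⟩ := hcrit
  obtain ⟨j, hj⟩ : ∃ j : ℝ, j = ((H.j0 + i : ℕ) : ℝ) := ⟨_, rfl⟩
  have hjc : ((H.j0 + i : ℕ) : ℂ) = ((j : ℝ) : ℂ) := by rw [hj]; simp
  rw [hjc, ← hj] at hx hy
  rw [← hj] at hq hJ
  rw [hjc, ← hj]
  have hst := hmap.sc_t (H.j0 + i) (Nat.le_add_right _ _) (H.st xyCritical i)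
  have hsz := hmap.sc_z (H.j0 + i) (Nat.le_add_right _ _) (H.st xyCritical i)
  rw [← hj, ← hSdef] at hsz
  change ‖(H.st xyCritical i).1 - _‖ ≤ _ at hx
  change ‖(H.st xyCritical i).2.1 - _‖ ≤ _ at hy
  change ‖(H.st xyCritical i).2.2‖ ≤ _ at hq
  generalize H.sc (H.j0 + i) (H.st xyCritical i) = tz at hst hsz ⊢
  generalize H.st xyCritical i = Y at hx hy hq hst hsz
  obtain ⟨lg, hlg⟩ : ∃ lg : ℝ, lg = Real.log (2 + j) := ⟨_, rfl⟩
  rw [← hlg] at hx hy ⊢
  have hj1 : 1 ≤ j := (le_max_left _ _).trans hJ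
  have hj0 : 0 < j := by linarith
  have hjρ : B / j < κ.ρ := by
    have h1 : B / κ.ρ + 1 ≤ j := (le_max_right _ _).trans hJ
    have h2 : B / κ.ρ < j := by linarith
    rw [div_lt_iff₀ hρ] at h2
    rw [div_lt_iff₀ hj0]
    linarith
  have hlg1 : 1 / 2 ≤ lg := by
    have h1 : Real.log 2 ≤ Real.log (2 + j) := Real.log_le_log (by norm_num) (by linarith)
    have h2 := Real.log_two_gt_d9
    rw [hlg]
    linarith
  have hlg2 : lg ≤ 2 * j := by
    have := Real.log_le_sub_one_of_pos (show 0 < 2 + j by linarith)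
    rw [hlg]
    linarith
  have hn1 : ‖(1 : ℂ) / ((j : ℝ) : ℂ)‖ = 1 / j := by
    rw [norm_div, norm_one, Complex.norm_real, Real.norm_of_nonneg hj0.le]
  have hAl : A * lg / j ^ 2 ≤ 2 * A / j := by
    rw [div_le_div_iff₀ (by positivity) hj0]
    have : A * lg ≤ A * (2 * j) := mul_le_mul_of_nonneg_left hlg2 hA
    nlinarith
  have hBj : 2 * A / j + 1 / j = B / j := by rw [hB]; ring
  have hx' : ‖Y.1‖ ≤ B / j := by
    have h1 : ‖Y.1‖ ≤ ‖Y.1 - 1 / ((j : ℝ) : ℂ)‖ + ‖(1 : ℂ) / ((j : ℝ) : ℂ)‖ := by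
      have := norm_add_le (Y.1 - 1 / ((j : ℝ) : ℂ)) ((1 : ℂ) / ((j : ℝ) : ℂ))
      simpa using this
    rw [hn1] at h1
    linarith
  have hy' : ‖Y.2.1‖ ≤ B / j := by
    have h1 : ‖Y.2.1‖ ≤ ‖Y.2.1 - 1 / ((j : ℝ) : ℂ)‖ + ‖(1 : ℂ) / ((j : ℝ) : ℂ)‖ := by
      have := norm_add_le (Y.2.1 - 1 / ((j : ℝ) : ℂ)) ((1 : ℂ) / ((j : ℝ) : ℂ))
      simpa using this
    rw [hn1] at h1
    linarith
  have hjj : 1 / j ^ 2 ≤ 1 / j := by
    rw [div_le_div_iff₀ (by positivity) hj0]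
    nlinarith
  have hq' : ‖Y.2.2‖ ≤ B / j := by
    refine hq.trans ?_
    have h1 : A / j ^ 2 = A * (1 / j ^ 2) := by ring
    have h2 : B / j = B * (1 / j) := by ring
    rw [h1, h2]
    exact mul_le_mul hAB hjj (by positivity) (by linarith)
  have hw : wn Y ≤ B / j := max_le hx' hy'
  have hw0 : 0 ≤ wn Y := le_max_of_le_left (norm_nonneg _)
  have hw2 : wn Y ^ 2 ≤ B ^ 2 / j ^ 2 := by
    have := pow_le_pow_left₀ hw0 hw 2
    rwa [div_pow] at this
  have hball : Y ∈ Metric.ball (0 : ℂ × ℂ × H.Q (H.j0 + i)) κ.ρ := by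
    rw [mem_ball_zero_iff, Prod.norm_def, Prod.norm_def]
    exact max_lt (lt_of_le_of_lt hx' hjρ) (max_lt (lt_of_le_of_lt hy' hjρ) (lt_of_le_of_lt hq' hjρ))
  have hst' := hst hball
  have hsz' := hsz hball
  have hjC : ((j : ℝ) : ℂ) ≠ 0 := by exact_mod_cast hj0.ne'
  have hbsC : ((κ.bs : ℝ) : ℂ) ≠ 0 := by exact_mod_cast hbs.ne'
  have hbsE : (2 : ℂ) * ((Real.log κ.L : ℝ) : ℂ) = ((κ.bs : ℝ) : ℂ) := by
    unfold MapC.bs
    push_cast
    ring
  constructor
  · rw [hbsE]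
    have e1 : tz.1 - 1 / (((κ.bs : ℝ) : ℂ) * ((j : ℝ) : ℂ)) = (tz.1 - Y.1 / ((κ.bs : ℝ) : ℂ)) + (Y.1 - 1 / ((j : ℝ) : ℂ)) / ((κ.bs : ℝ) : ℂ) := by
      field_simp
      ring
    rw [e1]
    refine (norm_add_le _ _).trans ?_
    rw [norm_div, Complex.norm_real, Real.norm_of_nonneg hbs.le]
    have a1 : κ.C * (wn Y ^ 2 + ‖Y.2.2‖) ≤ κ.C * ((B ^ 2 + A) / j ^ 2) := by
      refine mul_le_mul_of_nonneg_left ?_ (by linarith)
      rw [add_div]
      linarith
    have a2 : (B ^ 2 + A) / j ^ 2 ≤ 2 * (B ^ 2 + A) * lg / j ^ 2 := by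
      refine div_le_div_of_nonneg_right ?_ (by positivity)
      have : 0 ≤ B ^ 2 + A := by positivity
      nlinarith
    have a3 : ‖Y.1 - 1 / ((j : ℝ) : ℂ)‖ / κ.bs ≤ A * lg / j ^ 2 / κ.bs := div_le_div_of_nonneg_right hx hbs.le
    have a4 : κ.C * (2 * (B ^ 2 + A) * lg / j ^ 2) + A * lg / j ^ 2 / κ.bs = Ca * lg / j ^ 2 := by
      rw [hCa]
      ring
    have a5 : Ca * lg / j ^ 2 ≤ (Ca + Cb) * lg / j ^ 2 := by
      refine div_le_div_of_nonneg_right ?_ (by positivity)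
      refine mul_le_mul_of_nonneg_right (by linarith) (by linarith)
    have a6 : κ.C * ((B ^ 2 + A) / j ^ 2) ≤ κ.C * (2 * (B ^ 2 + A) * lg / j ^ 2) := mul_le_mul_of_nonneg_left a2 (by linarith)
    linarith
  · have e1 : tz.2 = (tz.2 - Y.2.1 / ((S : ℝ) : ℂ)) + Y.2.1 / ((S : ℝ) : ℂ) := by ring
    rw [e1]
    refine (norm_add_le _ _).trans ?_
    rw [norm_div, Complex.norm_real, Real.norm_of_nonneg hS.le]
    have b0 : Real.exp (-κ.c * j) ≤ 1 := by
      rw [Real.exp_le_one_iff]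
      nlinarith
    have b1 : Real.exp (-κ.c * j) * ‖Y.2.1‖ ≤ B / j := by
      calc Real.exp (-κ.c * j) * ‖Y.2.1‖ ≤ 1 * ‖Y.2.1‖ := mul_le_mul_of_nonneg_right b0 (norm_nonneg _)
        _ ≤ B / j := by rw [one_mul]; exact hy'
    have b2 : B ^ 2 / j ^ 2 ≤ B ^ 2 / j := by
      have h1 : B ^ 2 / j ^ 2 = B ^ 2 * (1 / j ^ 2) := by ring
      have h2 : B ^ 2 / j = B ^ 2 * (1 / j) := by ring
      rw [h1, h2]
      exact mul_le_mul_of_nonneg_left hjj (by positivity)
    have b3 : A / j ^ 2 ≤ A / j := by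
      have h1 : A / j ^ 2 = A * (1 / j ^ 2) := by ring
      have h2 : A / j = A * (1 / j) := by ring
      rw [h1, h2]
      exact mul_le_mul_of_nonneg_left hjj hA
    have b4 : κ.C * (Real.exp (-κ.c * j) * ‖Y.2.1‖ + wn Y ^ 2 + ‖Y.2.2‖) ≤ κ.C * ((B + B ^ 2 + A) / j) := by
      refine mul_le_mul_of_nonneg_left ?_ (by linarith)
      rw [add_div, add_div]
      linarith
    have b5 : ‖Y.2.1‖ / S ≤ B / j / S := div_le_div_of_nonneg_right hy' hS.le
    have b6 : κ.C * ((B + B ^ 2 + A) / j) + B / j / S = Cb / j := by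
      rw [hCb]
      ring
    have b7 : Cb / j ≤ (Ca + Cb) / j := div_le_div_of_nonneg_right (by linarith) hj0.le
    linarith

/-- **[F] P5.1** (trj:unbalanced-conclusion): the unbalanced scalars -/
theorem trajectory (κ : MapC) (κe : EntC) (ρe ρt : ℝ) (H : ℕ → Hist) (hρt : ρt ≤ κ.ρ)
    (sys : ∀ s, Adm κ κe s → SysOK κ κe ρe s (H s)) (cr : E4.Crit κ κe H ρt) (c c' : ℝ) (hc : 0 < c) (hcc : c < c') (hc' : c' < 3) :
    ∃ C : ℝ, ∀ᶠ k : ℕ in atTop, ∀ i : ℕ, Win c c' k ((H (cr.sk k)).j0 + i) →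
      ‖((H (cr.sk k)).sc _ ((H (cr.sk k)).st xyCritical i)).1 - 1 / (2 * Real.log κ.L * ((H (cr.sk k)).j0 + i : ℕ))‖
        ≤ C * Real.log (2 + ((H (cr.sk k)).j0 + i : ℕ)) / (((H (cr.sk k)).j0 + i : ℕ) : ℝ) ^ 2 ∧
      ‖((H (cr.sk k)).sc _ ((H (cr.sk k)).st xyCritical i)).2‖ ≤ C / (((H (cr.sk k)).j0 + i : ℕ) : ℝ) := by
  obtain ⟨C0, hC0⟩ := cr.asym c c' hc hcc hc'
  obtain ⟨C, J, hCJ⟩ := traj_at κ (max C0 0) (le_max_right _ _)
  refine ⟨C, ?_⟩
  have hbig : ∀ᶠ k : ℕ in atTop, J ≤ c * 2 ^ k := by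
    have : Tendsto (fun k : ℕ => c * (2 : ℝ) ^ k) atTop atTop :=
      (tendsto_pow_atTop_atTop_of_one_lt one_lt_two).const_mul_atTop hc
    exact this.eventually_ge_atTop J
  filter_upwards [hC0, hbig] with k hk hJ i hwin
  have h1 := (hk i hwin.1 hwin.2).1
  exact hCJ (H (cr.sk k)) i (sys _ (cr.adm k)).map (traj_crit_mono h1 (le_max_left _ _)) (hJ.trans hwin.1)

end

end Claimed.Agent.R285.F5

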