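import Claimed.Agent.R285.Base.Flow
import Claimed.Agent.R285.Read.B4
import Claimed.Agent.R285.Read.F4a
import Claimed.Agent.R285.Read.F5
import Claimed.Agent.R285.Obs.Green
import Claimed.Agent.R285.Obs.Defs
import Claimed.Agent.R285.Obs.CenterFlow
import Claimed.Agent.R285.Obs.StopAlg
import Claimed.Agent.R285.Asm.RawGlue

/-!
# ROW 285, post BP-READ-F6: [F] Section 6 = `observable.tex` (the centre observable) + Section 7 (conclusion)      (owner helper271, unit OBS; member helper49)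

Consumer: ONLY S0531 (through `Glue.green_constant`, `Glue.center_consecutive` of `Glue/Wire.lean`; s7 itself is already glued in `Glue/F7.lean`).  [E] never cites [F] s6.
Second half (L6.3, L6.4, s6.3, proofs cut into leaves): `Read/F6b.lean` (helper49), imports this file.

## K1 verdicts.  I read s6 and s7 to the end and re-derived every display.  NO FATAL ITEM.
* **(obs:stream-energy) OK.**  Discrete Hodge duality, checked against the geometry of `centerMag` / `F4a.tauU`: the minimiser of the unit energy is `2π` times the rotated gradient of the killed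
  Green function of the primal square, hence `g_n = 4π² G_n(0,0)`.  `Obs.unitEnergy_eq`.
* **(obs:green-constant) TRUE, proof REPLACED.**  The paper quotes finite-range-decomposition symbols.  Paper-free proof, valid along ALL integers `n`: mixed sine / sinh form of the Green function,
  `G_n(0,0) = n⁻¹ ∑_{k odd < 2n} tanh (n α_k) / (2 sinh α_k)`, then 1D asymptotics (odd harmonic sums, one midpoint Riemann sum, Tannery).  Package GREEN = `R285/Obs/Green*.lean`.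
* **P6.1 OK given its inputs.**  Algebra (obs:cutoff-relative)-(obs:after-cancellation) re-derived: `consecutive_of_stop`.
* **L6.2 (paired histories) = SCHEMA, REPAIRABLE; the only large item.**  The prose on tags and witnesses says exactly: (a) `Kprime` is LOCAL (the value on `X` depends on the data in the causal neighbourhood
  of `X`), (b) the entries of T4.6 are copies of each other on congruent neighbourhoods, (c) the designations `F`, `a` are chosen by a rule which only looks at the zone of the block: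
  BULK (plane rule, all of `t e/2 + z c` kept), WALL (constants only), UNIT (constants only + the label).  What has to be added to the paper: a COPY CALCULUS for `Kprime`
  (partial isomorphisms of `(Geom, grids)`, translations by a real field), dual-number scalars for the labelled history (obs:labelled-step), and the remark that the plane object
  can be ELIMINATED: only pairs of squares are compared (`PairOk`), so `δ_n = (v_n - v_∞)/α` never occurs.  The recurrences (obs:wall-recurrence), (obs:defect-recurrence),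
  (obs:label-stop), (obs:scalar-log-bound) are then the standard estimate of P4.8 with the zone-wise designation; power counting re-checked (wall: perimeter `L` against
  contraction `L^{-2}`... `θ`; unit: one block).  Formal contract: `Read/F6a.lean` after B8, F4b, B9.EntryOut are stable.  Output of L6.2 = structure `Stop` below.
* **L6.3 (terminal regulator) OK.**  Matrix argument `S_o S_o^* + S_t S_t^* ≤ I`, trace `≤ C|X|` re-checked.  `terminal_regulator` (uses `B4.regulator_terminal`, `B4.obs_extra`).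
* **L6.4 (terminal expansion) OK.**  `terminal_moment`, `terminal_expansion`.
* **s6.3, classes 𝔊 (shift-good wall-free), 𝔚 (wall), ℭ (central defects), 𝔏 (large): OK**, all four power countings re-derived: `D⁴ν²` (second order), `ν/D` (wall: `D` blocks, lift gradient
  `1/D` squared times ... see F6b), `D²ν₂` (remainders), copies cancel exactly between the two sizes.  `terminal_energy`.
* **lower bound of `c_ex`: OK** (from `center_rough`: `M_n = n^{-1/8+o(1)}`, only `e^{-εN}` is needed).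
* **s7 OK** (glued by helper286).  Remark: `Top.center_increment` is stronger than what s6 gives (only a summable error); `Glue.center_consecutive` is the right target.

## Imports
(i) other posts: F4a `center_background`, `unit_lift`, `cutoff_loss`, `noisy_reference`, `StepOK`, `local_map_input`, `centerMag_eq`; F4b T4.6 (entries + copy statements, labelled entry);
F5 `E4.Crit`, `F5.trajectory`; B4 `regulator_terminal`, `terminal_bounds`, `obs_extra`, `Kprime` estimate; `geometry_center` (Top).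
(ii) external theorems: NONE.

## Structure
Definitions (no sorry): `Obs/Defs.lean` (aligned squares; `Stop` = the interface s6.1 | s6.2-6.3, no plane object), `Obs/CenterFlow.lean` (`StepIneq` = P6.1 as an inequality between sequences, `SeqDyn`, `Rough`, `Consec`, `RawCenterOK` against `Asm.RawSys`, `CenterOK` against `Flow.Hist`; `center_rough_proof`; leaf L-OBS-SEQ `center_seq`).   Proof files: `Obs/Green*.lean` (package GREEN).
This file: §1 reference energy.  §4 terminal estimates and the deterministic form of P6.1.  §5 the construction contracts `raw_system_center`, `rg_system_center` and the derivation of `Glue.center_consecutive`.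
-/

set_option autoImplicit false

namespace Claimed.Agent.R285.F6

open scoped BigOperators ENNReal NNReal
open MeasureTheory ProbabilityTheory Filter Topology
open Claimed.Agent.R285 Claimed.Agent.R285.RG Claimed.Agent.R285.B4 Claimed.Agent.R285.F4a Claims.C0459

noncomputable section

/-! ## 1. The reference energy, (obs:stream-energy), (obs:green-constant): package GREEN = `R285/Obs/Green*.lean`

`Obs.unitEnergy_eq` (discrete Hodge duality: `g_n = 4π² f (n, n)` for any solution `f` of the killed Poisson equation with a unit source at the centre),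
`Obs.unitEnergy_tanhSum` (`g_n = 4π² n⁻¹ ∑_{k odd < 2n} tanh (n α_k) / (2 sinh α_k)`), `Obs.tanhSum_asymp`.  `RG.greenD` is not needed. -/

/-- **(obs:green-constant)** along ALL integers -/
theorem green_constant_all : ∃ cG : ℝ,
    Tendsto (fun n : ℕ => Glue.unitEnergy n - 2 * Real.pi * Real.log n) atTop (𝓝 cG) := Obs.green_constant_all

/-- the statement of `Glue.green_constant` -/
theorem green_constant (L : ℕ) (hL : 2 ≤ L) : ∃ cG : ℝ,
    Tendsto (fun N : ℕ => Glue.unitEnergy (L ^ N) - 2 * Real.pi * Real.log L * N) atTop (𝓝 cG) := Obs.green_constant L hL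

/-! ## 2-3. Aligned squares, the stopped representation `Stop` = the interface between Section 6.1 and Sections 6.2-6.3: see `R285/Obs/Defs.lean` -/

/-! ## 4. Sections 6.2-6.3: terminal integration -/

/-- **Lemma 6.3** (`ent:terminal-regulator`).  Uniform in the volume (`M / u` arbitrary), the scale, the cell side, both boundary conventions. -/
theorem terminal_regulator (o : ObsPar) : ∃ δ0 > (0 : ℝ), ∀ δ ∈ Set.Ioc 0 δ0, ∃ κ0 > (0 : ℝ), ∃ C : ℝ≥0,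
    ∀ κ ∈ Set.Ioc 0 κ0, ∀ (G : Geom) (c g : Grid G), Whole c → g.Ok → Nonempty (Nest c g) → 2 * g.m ≤ G.M →
    ∀ Γ : Matrix G.V G.V ℝ, IsTerminal G Fam.entry g.m Γ → ∀ V : Extra g, IsObs o c g V →
    ∀ X : Finset g.I, ∫⁻ ζ, ENNReal.ofReal (Wt g δ κ V X ζ) ∂(gauss G Γ) ≤ (C : ℝ≥0∞) ^ X.card :=
  Obs.terminal_regulator o

/-- **Lemma 6.4**, (obs:terminal-translation) ⟹ (obs:terminal-moment): a moment of order `p_seg > 1` of the regulator at translated terminal fields. -/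
theorem terminal_moment (o : ObsPar) : ∃ pseg > (1 : ℝ), ∃ δ0 > (0 : ℝ), ∀ δ ∈ Set.Ioc 0 δ0, ∃ κ0 > (0 : ℝ), ∀ Ctr : ℝ, ∃ C : ℝ≥0,
    ∀ κ ∈ Set.Ioc 0 κ0, ∀ (G : Geom) (c g : Grid G), Whole c → g.Ok → Nonempty (Nest c g) → 2 * g.m ≤ G.M →
    ∀ Γ : Matrix G.V G.V ℝ, IsTerminal G Fam.entry g.m Γ → ∀ V : Extra g, IsObs o c g V →
    ∀ (X : Finset g.I) (h : G.V → ℝ), U g δ X h + bondE (g.Dm X) h ≤ Ctr * X.card →
      ∫⁻ ζ, ENNReal.ofReal (Wt g δ κ V X (ζ + h) ^ pseg) ∂(gauss G Γ) ≤ (C : ℝ≥0∞) ^ X.card :=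
  Obs.terminal_moment o

/-- **Lemma 6.4**, (obs:terminal-expansion), (obs:terminal-derivative).  `b_N = C H_N ν`, `H_N` = number of terminal blocks. -/
theorem terminal_expansion (o : ObsPar) : ∃ δ0 > (0 : ℝ), ∀ δ ∈ Set.Ioc 0 δ0, ∃ κ0 > (0 : ℝ), ∀ κ ∈ Set.Ioc 0 κ0, ∃ (A0 C : ℝ),
    ∀ (h0 : ℝ≥0) (A ω : ℝ), 0 < h0 → A0 ≤ A → 0 < ω →
    ∀ (G : Geom) (c g : Grid G), Whole c → g.Ok → Nonempty (Nest c g) → 2 * g.m ≤ G.M →
    ∀ Γ : Matrix G.V G.V ℝ, IsTerminal G Fam.entry g.m Γ → ∀ V : Extra g, IsObs o c g V →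
    ∀ (col : ℕ) (K J : Act g), Act.Ok ⟨δ, κ, h0, A, ω⟩ col RR K → Act.Ok ⟨δ, κ, h0, A, ω⟩ col RR J →
    ∀ ν v : ℝ, 0 ≤ ν → 0 ≤ v → actNorm ⟨δ, κ, h0, A, ω⟩ g V K ≤ ENNReal.ofReal ν → actNorm ⟨δ, κ, h0, A, ω⟩ g V J ≤ ENNReal.ofReal v →
      C * (Fintype.card g.I : ℝ) * ν ≤ 1 →
      ‖∑ X : Finset g.I, term ω Γ (K X)‖ ≤ C * (Fintype.card g.I : ℝ) * ν ∧
      ‖term ω Γ (ZA g RR K) - 1 - ∑ X : Finset g.I, term ω Γ (K X)‖ ≤ (C * (Fintype.card g.I : ℝ) * ν) ^ 2 ∧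
      ‖term ω Γ (ZA1 g RR K J)‖ ≤ C * (Fintype.card g.I : ℝ) * v :=
  Obs.terminal_expansion o

/-- **(obs:terminal-energy)** in deterministic form.  `D = D_N`, `ν = C/N`, `ν2 = C/N²` give the error `O (D_N⁴/N² + 1/(N D_N))`.
Order of the constants: regulator reserves; `δ`; `κ_b`; `h₀`; clearances and the ratio `L = 2^ℓ` of the two sizes; `A_w`; then `C, c₁, D₁`. -/
theorem terminal_energy (o : ObsPar) : ∃ δ0 > (0 : ℝ), ∀ δ ∈ Set.Ioc 0 δ0, ∃ κ0 > (0 : ℝ), ∀ κ ∈ Set.Ioc 0 κ0, ∀ h0 > (0 : ℝ≥0),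
    ∀ H0 H1 ℓ : ℕ, 3 ≤ H0 → 3 ≤ H1 → ∃ A0 : ℝ, ∀ A ≥ A0, ∃ (C c1 : ℝ) (D1 : ℕ), 0 < c1 ∧
    ∀ P : SqPair, P.Q1.D = 2 ^ ℓ * P.Q0.D → D1 ≤ P.Q0.D → ∀ b t z ν ν2 vJ Dex cex : ℝ,
    ∀ S : Stop ⟨⟨δ, κ, h0, A, 2 * Real.pi / Real.sqrt o.a⟩, o, H0, H1⟩ b P t z ν ν2 vJ Dex cex,
      |t| ≤ ν → 0 ≤ ν2 → ν2 ≤ ν → 0 ≤ vJ → (P.Q0.D : ℝ) ^ 2 * ν ≤ c1 →
      let ω := 2 * Real.pi / Real.sqrt o.a
      (1 / 2 ≤ S.d0.T0 ω ∧ 1 / 2 ≤ S.d0.Tt ω ∧ 1 / 2 ≤ S.d1.T0 ω ∧ 1 / 2 ≤ S.d1.Tt ω) ∧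
      (S.d0.T0 ω ≤ 2 ∧ S.d1.T0 ω ≤ 2) ∧
      (|S.d0.Td ω| ≤ C * (P.Q0.D : ℝ) ^ 2 * vJ ∧ |S.d1.Td ω| ≤ C * (P.Q0.D : ℝ) ^ 2 * vJ) ∧
      |(Real.log (S.d1.Tt ω / S.d1.T0 ω) - Real.log (S.d0.Tt ω / S.d0.T0 ω))
          - t / (2 * o.a) * (Glue.unitEnergy P.Q1.n - Glue.unitEnergy P.Q0.n)|
        ≤ C * ((P.Q0.D : ℝ) ^ 4 * ν ^ 2 + ν / P.Q0.D + (P.Q0.D : ℝ) ^ 2 * ν2) := by
  obtain ⟨δ0, hδ0, h⟩ := Obs.terminal_energy o
  refine ⟨δ0, hδ0, fun δ hδ => ?_⟩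
  obtain ⟨κ0, hκ0, h⟩ := h δ hδ
  refine ⟨κ0, hκ0, fun κ hκ h0 hh0 H0 H1 ℓ hH0 hH1 => ?_⟩
  obtain ⟨A0, h⟩ := h κ hκ h0 hh0 H0 H1 ℓ hH0 hH1
  refine ⟨A0, fun A hA => ?_⟩
  obtain ⟨C, c1, D1, hc1, h⟩ := h A hA
  exact ⟨C, c1, D1, hc1, fun P hP hD b t z ν ν2 vJ Dex cex S => h P hP hD S.ok0.m_ge b t z ν ν2 vJ Dex cex S⟩

/-- **Proposition 6.1 from the stopped representation**, deterministic form of (obs:cutoff-relative)-(obs:after-cancellation) + (obs:terminal-energy).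
`εc` = relative cutoff loss; `εJ` = relative size of the surviving label: `D² ‖J‖ D_ex ≤ εJ Q_n`, `Q_n = M_n e^{g_n/2a}`.
PURE ALGEBRA from `terminal_energy`: `c_ex T^τ_n = Q̂_n T^0_n / D_ex - \dot T_n`, the same `c_ex` for both `n`. -/
theorem consecutive_of_stop (o : ObsPar) : ∃ δ0 > (0 : ℝ), ∀ δ ∈ Set.Ioc 0 δ0, ∃ κ0 > (0 : ℝ), ∀ κ ∈ Set.Ioc 0 κ0, ∀ h0 > (0 : ℝ≥0),
    ∀ H0 H1 ℓ : ℕ, 3 ≤ H0 → 3 ≤ H1 → ∃ A0 : ℝ, ∀ A ≥ A0, ∃ (C c1 : ℝ) (D1 : ℕ), 0 < c1 ∧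
    ∀ P : SqPair, P.Q1.D = 2 ^ ℓ * P.Q0.D → D1 ≤ P.Q0.D → ∀ b t z ν ν2 vJ Dex cex : ℝ,
    Stop ⟨⟨δ, κ, h0, A, 2 * Real.pi / Real.sqrt o.a⟩, o, H0, H1⟩ b P t z ν ν2 vJ Dex cex →
      |t| ≤ ν → 0 ≤ ν2 → ν2 ≤ ν → 0 ≤ vJ → (P.Q0.D : ℝ) ^ 2 * ν ≤ c1 →
      ∀ εc εJ : ℝ, εc ≤ c1 → εJ ≤ c1 →
      0 < centerMag b P.Q0.n → 0 < centerMag b P.Q1.n →
      |P.Q0.Mhat b - centerMag b P.Q0.n| ≤ εc * centerMag b P.Q0.n →
      |P.Q1.Mhat b - centerMag b P.Q1.n| ≤ εc * centerMag b P.Q1.n →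
      (P.Q0.D : ℝ) ^ 2 * vJ * Dex ≤ εJ * (centerMag b P.Q0.n * Real.exp (Glue.unitEnergy P.Q0.n / (2 * o.a))) →
      (P.Q0.D : ℝ) ^ 2 * vJ * Dex ≤ εJ * (centerMag b P.Q1.n * Real.exp (Glue.unitEnergy P.Q1.n / (2 * o.a))) →
      |Real.log (centerMag b P.Q1.n) - Real.log (centerMag b P.Q0.n)
          + (1 - t) / (2 * o.a) * (Glue.unitEnergy P.Q1.n - Glue.unitEnergy P.Q0.n)|
        ≤ C * ((P.Q0.D : ℝ) ^ 4 * ν ^ 2 + ν / P.Q0.D + (P.Q0.D : ℝ) ^ 2 * ν2 + εc + εJ) :=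
  Obs.consecutive_of_stop o

/-- (obs:cutoff-relative) before division by `M_n`: from `F4a.cutoff_loss`, `F4a.Pint_one`, `F4a.centerMag_eq` -/
theorem cutoff_absolute (b1 : ℝ) : ∃ (C cc : ℝ), 0 < cc ∧ ∀ (Q : Sq) (b : ℝ), 0 < b → b ≤ b1 →
    C * (Q.n : ℝ) ^ 2 * Real.exp (-cc * (Q.s : ℝ) ^ 2) ≤ 1 →
    |Q.Mhat b - centerMag b Q.n| ≤ C * (Q.n : ℝ) ^ 2 * Real.exp (-cc * (Q.s : ℝ) ^ 2) :=
  Obs.cutoff_absolute b1

/-! ## 5. The export and the derivation of `Glue.center_consecutive` -/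

open Claimed.Agent.R285.Flow

/-- **THE CONSTRUCTION CONTRACT IN RAW COORDINATES with the centre observable** = `Asm.raw_system_center` (ROOT contract of the construction side, `R285/Asm/Concrete.lean`).
Producers: MAP, ENTRY, READOUT, CUTGRID (`RawSysOK`), OBS (`RawCenterOK`: L6.2 gives `Stop`, then `consecutive_of_stop`, `cutoff_absolute`). -/
theorem raw_system_center : ∃ (K : Asm.RawK) (κo : ObsC), ∀ δ : ℝ, 0 < δ → ∃ (ε : ℝ) (κe : EntC) (S : ℕ → Asm.RawSys),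
    0 < ε ∧ ε * κe.P0 ≤ δ ∧ 1 / (κe.P0 : ℝ) ≤ δ ∧ κe.C ≥ K.κ.C ∧ (∃ j1, κe.q0 ∣ K.L ^ j1) ∧
    ∀ s, κe.s0 ≤ s → (∃ j : ℕ, κe.q0 * s = K.L ^ j) → Asm.RawSysOK K κe ε s (S s) ∧ RawCenterOK K κo κe ε s (S s) :=
  Asm.raw_system_center

/-- **THE RG CONTRACT with the centre observable** = `Flow.rg_system` + `CenterOK` for the SAME system: `Asm.rg_system_center` (`R285/Asm/RawGlue.lean`, proved from the root contract + leaves `glue_*`). -/
theorem rg_system_center : ∃ (κ : MapC) (κo : ObsC), ∀ δ : ℝ, 0 < δ → ∃ (ρe : ℝ) (κe : EntC) (H : ℕ → Hist),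
    0 < ρe ∧ ρe * κe.P0 ≤ δ ∧ 1 / (κe.P0 : ℝ) ≤ δ ∧
    (∃ j1, κe.q0 ∣ κ.L ^ j1) ∧ ∀ s, Adm κ κe s → SysOK κ κe ρe s (H s) ∧ CenterOK κ κo κe ρe s (H s) :=
  Asm.rg_system_center

/-- the rough centre asymptotics, from `geometry_center` and `green_constant_all` -/
theorem center_rough (L : ℕ) (hL : 2 ≤ L) : Rough L := center_rough_proof L hL

theorem sdc_log_tendsto : Tendsto (fun N : ℕ => Nat.log 2 N) atTop atTop := by
  refine tendsto_atTop.2 fun b => ?_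
  filter_upwards [eventually_ge_atTop (2 ^ b)] with N hN
  exact Nat.le_log_of_pow_le (by norm_num) hN

theorem sdc_pow_le (N : ℕ) (hN : 1 ≤ N) : (2 : ℝ) ^ Nat.log 2 N ≤ N := by
  exact_mod_cast Nat.pow_log_le_self 2 (by omega)

theorem sdc_lt_pow (N : ℕ) : (N : ℝ) < 2 * 2 ^ Nat.log 2 N := by
  have := Nat.lt_pow_succ_log_self (b := 2) (by norm_num) N
  have h2 : (N : ℝ) < ((2 ^ (Nat.log 2 N + 1) : ℕ) : ℝ) := by exact_mod_cast this
  rw [pow_succ] at h2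
  push_cast at h2
  linarith

theorem sdc_norm_aux {E : Type} [NormedAddCommGroup E] (Y : ℂ × ℂ × E) (C : ℝ) (j : ℕ) (hj : 1 ≤ j)
    (h1 : ‖Y.1 - 1 / (j : ℂ)‖ ≤ C * Real.log (2 + (j : ℝ)) / (j : ℝ) ^ 2)
    (h2 : ‖Y.2.1 - 1 / (j : ℂ)‖ ≤ C * Real.log (2 + (j : ℝ)) / (j : ℝ) ^ 2)
    (h3 : ‖Y.2.2‖ ≤ C / (j : ℝ) ^ 2) :
    ‖Y‖ ≤ (1 + 2 * |C|) / (j : ℝ) ∧ ‖Y.2.2‖ ≤ |C| / (j : ℝ) ^ 2 := by
  have hj0 : (1 : ℝ) ≤ j := by exact_mod_cast hj
  have hjp : (0 : ℝ) < j := by linarith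
  have hlog : Real.log (2 + (j : ℝ)) ≤ 2 * j := by
    have := Real.log_le_sub_one_of_pos (show (0 : ℝ) < 2 + j by linarith)
    linarith
  have hlog0 : 0 ≤ Real.log (2 + (j : ℝ)) := Real.log_nonneg (by linarith)
  have hb : C * Real.log (2 + (j : ℝ)) / (j : ℝ) ^ 2 ≤ 2 * |C| / j := by
    rw [div_le_div_iff₀ (by positivity) hjp]
    have : C * Real.log (2 + (j : ℝ)) ≤ |C| * (2 * j) :=
      mul_le_mul (le_abs_self C) hlog hlog0 (abs_nonneg C)
    calc C * Real.log (2 + (j : ℝ)) * j ≤ |C| * (2 * j) * j := by gcongr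
      _ = 2 * |C| * (j : ℝ) ^ 2 := by ring
  have hinv : ‖(1 : ℂ) / (j : ℂ)‖ = 1 / (j : ℝ) := by
    rw [norm_div, norm_one, Complex.norm_natCast]
  have key : ∀ z : ℂ, ‖z - 1 / (j : ℂ)‖ ≤ C * Real.log (2 + (j : ℝ)) / (j : ℝ) ^ 2 → ‖z‖ ≤ (1 + 2 * |C|) / j := by
    intro z hz
    have : ‖z‖ ≤ ‖z - 1 / (j : ℂ)‖ + ‖(1 : ℂ) / (j : ℂ)‖ := by
      simpa using norm_add_le (z - 1 / (j : ℂ)) (1 / (j : ℂ))
    rw [hinv] at this
    calc ‖z‖ ≤ 2 * |C| / j + 1 / j := by linarith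
      _ = _ := by ring
  have hq : ‖Y.2.2‖ ≤ |C| / (j : ℝ) ^ 2 :=
    h3.trans (by gcongr; exact le_abs_self C)
  refine ⟨?_, hq⟩
  rw [Prod.norm_def, Prod.norm_def]
  refine max_le (key _ h1) (max_le (key _ h2) (hq.trans ?_))
  rw [div_le_div_iff₀ (by positivity) hjp]
  have := abs_nonneg C
  nlinarith [mul_nonneg this (sub_nonneg.2 hj0), mul_nonneg this hjp.le, sq_nonneg (j : ℝ)]

/-- sizes from the critical asymptotics at one stage -/
theorem sdc_norm_le (H0 : Hist) (C : ℝ) (i : ℕ) (h : E4.CritAt H0 C i) (hj : 1 ≤ H0.j0 + i) :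
    ‖H0.st xyCritical i‖ ≤ (1 + 2 * |C|) / ((H0.j0 + i : ℕ) : ℝ) ∧
      ‖(H0.st xyCritical i).2.2‖ ≤ |C| / ((H0.j0 + i : ℕ) : ℝ) ^ 2 :=
  sdc_norm_aux _ C _ hj h.1 h.2.1 h.2.2


theorem sdc_sk_tendsto {κ : MapC} {κe : EntC} {H : ℕ → Hist} {ρt : ℝ} (cr : E4.Crit κ κe H ρt) :
    Tendsto (fun N : ℕ => cr.sk (Nat.log 2 N)) atTop atTop := by
  have h1 : Tendsto cr.sk atTop atTop := by
    rw [← tendsto_natCast_atTop_iff (R := ℝ)]
    exact tendsto_atTop_mono (fun k => (cr.size k).1)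
      (Tendsto.const_mul_atTop cr.hc1 (tendsto_pow_atTop_atTop_of_one_lt one_lt_two))
  exact h1.comp sdc_log_tendsto

theorem sdc_ceil_tendsto (c : ℝ) (hc : 0 < c) :
    Tendsto (fun s : ℕ => ((⌈2 * (s : ℝ) / c⌉₊ : ℕ) : ℝ) / (s : ℝ) ^ 2) atTop (𝓝 0) := by
  have h0 : Tendsto (fun s : ℕ => 2 / c * (1 / (s : ℝ)) + (1 / (s : ℝ)) ^ 2) atTop (𝓝 0) := by
    have h := tendsto_one_div_atTop_nhds_zero_nat (𝕜 := ℝ)
    simpa using (h.const_mul (2 / c)).add (h.pow 2)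
  refine squeeze_zero' (Eventually.of_forall fun s => by positivity) ?_ h0
  filter_upwards [eventually_ge_atTop 1] with s hs
  have hs0 : (0 : ℝ) < s := by exact_mod_cast hs
  have h1 : ((⌈2 * (s : ℝ) / c⌉₊ : ℕ) : ℝ) ≤ 2 * (s : ℝ) / c + 1 :=
    (Nat.ceil_lt_add_one (by positivity)).le
  calc ((⌈2 * (s : ℝ) / c⌉₊ : ℕ) : ℝ) / (s : ℝ) ^ 2 ≤ (2 * (s : ℝ) / c + 1) / (s : ℝ) ^ 2 := by gcongr
    _ = _ := by field_simp

theorem sdc_late_aux (a b C N j : ℝ) (hN : 1 ≤ N) (hj : N / 2 ≤ j) (ha : 0 ≤ a)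
    (h1 : a ≤ (1 + 2 * |C|) / j) (h2 : b ≤ |C| / j ^ 2) :
    a ≤ 4 * (|C| + (1 + 2 * |C|) ^ 2) / N ∧ b + a ^ 2 ≤ 4 * (|C| + (1 + 2 * |C|) ^ 2) / N ^ 2 := by
  have hC := abs_nonneg C
  have hj0 : 0 < j := by linarith
  have hN0 : 0 < N := by linarith
  have e1 : (1 + 2 * |C|) / j ≤ 2 * (1 + 2 * |C|) / N := by
    rw [div_le_div_iff₀ hj0 hN0]
    nlinarith
  have e2 : |C| / j ^ 2 ≤ 4 * |C| / N ^ 2 := by
    rw [div_le_div_iff₀ (by positivity) (by positivity)]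
    have : N ^ 2 ≤ 4 * j ^ 2 := by nlinarith
    nlinarith
  constructor
  · refine h1.trans (e1.trans ?_)
    apply div_le_div_of_nonneg_right _ hN0.le
    nlinarith
  · have h3 : a ^ 2 ≤ (2 * (1 + 2 * |C|) / N) ^ 2 := by
      gcongr
      exact h1.trans e1
    calc b + a ^ 2 ≤ 4 * |C| / N ^ 2 + (2 * (1 + 2 * |C|) / N) ^ 2 := add_le_add (h2.trans e2) h3
      _ = _ := by ring

theorem sdc_grad_aux (z : ℂ) (l C : ℝ) (N j : ℕ) (hN : (2 : ℝ) ≤ N) (hj : (N : ℝ) / 2 ≤ j) (hjN : (j : ℝ) ≤ N)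
    (h : ‖z - 1 / (2 * (l : ℂ) * (j : ℂ))‖ ≤ C * Real.log (2 + (j : ℝ)) / (j : ℝ) ^ 2) :
    |z.re - 1 / (2 * l * (j : ℝ))| ≤ 8 * |C| * Real.log N / (N : ℝ) ^ 2 := by
  have hC := abs_nonneg C
  have hj0 : (0 : ℝ) < j := by linarith
  have hN0 : (0 : ℝ) < N := by linarith
  have e0 : z.re - 1 / (2 * l * (j : ℝ)) = (z - 1 / (2 * (l : ℂ) * (j : ℂ))).re := by
    have : (1 / (2 * (l : ℂ) * (j : ℂ))) = ((1 / (2 * l * (j : ℝ)) : ℝ) : ℂ) := by push_cast; ring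
    rw [this, Complex.sub_re, Complex.ofReal_re]
  rw [e0]
  refine (Complex.abs_re_le_norm _).trans (h.trans ?_)
  have hl1 : Real.log (2 + (j : ℝ)) ≤ 2 * Real.log N := by
    have : Real.log ((N : ℝ) ^ 2) = 2 * Real.log N := by rw [Real.log_pow]; norm_num
    rw [← this]
    apply Real.log_le_log (by linarith)
    nlinarith
  have hl0 : 0 ≤ Real.log (2 + (j : ℝ)) := Real.log_nonneg (by linarith)
  have hlN : 0 ≤ Real.log N := Real.log_nonneg (by linarith)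
  have e1 : C * Real.log (2 + (j : ℝ)) ≤ |C| * (2 * Real.log N) :=
    mul_le_mul (le_abs_self C) hl1 hl0 hC
  rw [div_le_div_iff₀ (by positivity) (by positivity)]
  have e2 : (N : ℝ) ^ 2 ≤ 4 * (j : ℝ) ^ 2 := by nlinarith
  have e3 : 0 ≤ |C| * (2 * Real.log N) := by positivity
  calc C * Real.log (2 + (j : ℝ)) * (N : ℝ) ^ 2 ≤ |C| * (2 * Real.log N) * (4 * (j : ℝ) ^ 2) :=
        mul_le_mul e1 e2 (by positivity) e3
    _ = _ := by ring

/-- `SeqDyn` from [E] P3.6 / [F] P5.1 as exported by the posts E4, F5.  Epoch of `N`: `2^k ≤ N < 2^{k+1}`.  Pure bookkeeping: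
`tube` from `cr.conf` with `Jm s = ⌈2 s / c₁⌉`; `vanish`, `late` from `cr.asym` on the windows `[δ 2^k, (5/2) 2^k]`, `[2^k / 2, (5/2) 2^k]`; `grad` from `F5.trajectory`; `entry` from `EntryOK.side`. -/
theorem seqDyn_of_crit (κ : MapC) (κe : EntC) (ρe ρt ct : ℝ) (H : ℕ → Hist) (hρt : ρt ≤ κ.ρ) (hρc : ρt ≤ ct)
    (sys : ∀ s, Adm κ κe s → SysOK κ κe ρe s (H s)) (cr : E4.Crit κ κe H ρt) :
    SeqDyn κ.L ct (fun N => cr.sk (Nat.log 2 N)) (fun N => (H (cr.sk (Nat.log 2 N))).j0)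
      (fun N k => ‖(H (cr.sk (Nat.log 2 N))).st xyCritical k‖)
      (fun N k => ‖((H (cr.sk (Nat.log 2 N))).st xyCritical k).2.2‖ + ‖(H (cr.sk (Nat.log 2 N))).st xyCritical k‖ ^ 2)
      (fun N k => (((H (cr.sk (Nat.log 2 N))).sc ((H (cr.sk (Nat.log 2 N))).j0 + k)
        ((H (cr.sk (Nat.log 2 N))).st xyCritical k)).1).re) := by
  have hlt := sdc_log_tendsto
  have hc1 := cr.hc1
  refine { side := ?_, entry := ?_, u_nonneg := fun _ _ => norm_nonneg _, tube := ?_, vanish := ?_, late := ?_, grad := ?_ }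
  · refine ⟨cr.c1 / 2, cr.C1, by positivity, ?_⟩
    filter_upwards [eventually_ge_atTop 1] with N hN
    have h1 := cr.size (Nat.log 2 N)
    have h2 := sdc_pow_le N hN
    have h3 := sdc_lt_pow N
    have hp : (0 : ℝ) < 2 ^ Nat.log 2 N := by positivity
    have hC1 : 0 < cr.C1 := by
      have h4 : 0 < cr.C1 * 2 ^ Nat.log 2 N := lt_of_lt_of_le (by positivity) (h1.1.trans h1.2)
      exact (pos_iff_pos_of_mul_pos h4).2 hp
    constructor
    · refine le_trans ?_ h1.1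
      nlinarith
    · refine h1.2.trans ?_
      gcongr
  · exact ⟨κe.q0, Eventually.of_forall fun N => (sys _ (cr.adm _)).entry.side⟩
  · have h1 := (sdc_sk_tendsto cr).eventually (cr.conf _ (sdc_ceil_tendsto cr.c1 hc1))
    filter_upwards [h1] with N hN k hk
    refine ((hN (cr.adm _) k (hk.trans ?_)).1).trans_le hρc
    have h2 := cr.size (Nat.log 2 N)
    have h3 := sdc_lt_pow N
    have h4 : (N : ℝ) ≤ 2 * (cr.sk (Nat.log 2 N) : ℝ) / cr.c1 := by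
      rw [le_div_iff₀ hc1]
      nlinarith
    exact_mod_cast h4.trans (Nat.le_ceil _)
  · intro δ hδ ε hε
    obtain ⟨C, hC⟩ := cr.asym (min δ 1) (5 / 2) (lt_min hδ one_pos)
      (lt_of_le_of_lt (min_le_right _ _) (by norm_num)) (by norm_num)
    filter_upwards [hlt.eventually hC, eventually_ge_atTop 1,
      eventually_ge_atTop ⌈(1 + 2 * |C|) / (δ * ε)⌉₊] with N hN hN1 hN2 k hk1 hk2
    have hNr : (1 : ℝ) ≤ N := by exact_mod_cast hN1
    have h2 := sdc_pow_le N hN1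
    have h3 := sdc_lt_pow N
    have hp : (0 : ℝ) < 2 ^ Nat.log 2 N := by positivity
    have hk2r : (((H (cr.sk (Nat.log 2 N))).j0 + k : ℕ) : ℝ) ≤ N := by exact_mod_cast hk2
    have hjr : (0 : ℝ) < (((H (cr.sk (Nat.log 2 N))).j0 + k : ℕ) : ℝ) := lt_of_lt_of_le (by positivity) hk1
    have hj1 : 1 ≤ (H (cr.sk (Nat.log 2 N))).j0 + k := by exact_mod_cast hjr
    have hcrit := (hN k ?_ (by linarith)).1
    · refine (sdc_norm_le _ C k hcrit hj1).1.trans ?_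
      have h5 : (1 + 2 * |C|) / (δ * ε) ≤ N := (Nat.le_ceil _).trans (by exact_mod_cast hN2)
      rw [div_le_iff₀ (by positivity)] at h5
      rw [div_le_iff₀ hjr]
      calc 1 + 2 * |C| ≤ N * (δ * ε) := h5
        _ = ε * (δ * N) := by ring
        _ ≤ _ := by gcongr
    · refine le_trans ?_ hk1
      exact mul_le_mul (min_le_left _ _) h2 hp.le hδ.le
  · obtain ⟨C, hC⟩ := cr.asym (1 / 2) (5 / 2) (by norm_num) (by norm_num) (by norm_num)
    refine ⟨4 * (|C| + (1 + 2 * |C|) ^ 2), ?_⟩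
    filter_upwards [hlt.eventually hC, eventually_ge_atTop 1] with N hN hN1 k hk1 hk2
    have hNr : (1 : ℝ) ≤ N := by exact_mod_cast hN1
    have h2 := sdc_pow_le N hN1
    have h3 := sdc_lt_pow N
    have hk2r : (((H (cr.sk (Nat.log 2 N))).j0 + k : ℕ) : ℝ) ≤ N := by exact_mod_cast hk2
    have hjr : (0 : ℝ) < (((H (cr.sk (Nat.log 2 N))).j0 + k : ℕ) : ℝ) := lt_of_lt_of_le (by positivity) hk1
    have hj1 : 1 ≤ (H (cr.sk (Nat.log 2 N))).j0 + k := by exact_mod_cast hjr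
    have hcrit := (hN k (by linarith) (by linarith)).1
    obtain ⟨h5, h6⟩ := sdc_norm_le _ C k hcrit hj1
    exact sdc_late_aux _ _ _ _ _ hNr hk1 (norm_nonneg _) h5 h6
  · obtain ⟨C, hC⟩ := F5.trajectory κ κe ρe ρt H hρt sys cr (1 / 2) (5 / 2) (by norm_num) (by norm_num) (by norm_num)
    refine ⟨8 * |C|, ?_⟩
    filter_upwards [hlt.eventually hC, eventually_ge_atTop 2] with N hN hN1 k hk1 hk2
    have hNr : (2 : ℝ) ≤ N := by exact_mod_cast hN1
    have h2 := sdc_pow_le N (by omega)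
    have h3 := sdc_lt_pow N
    have hk2r : (((H (cr.sk (Nat.log 2 N))).j0 + k : ℕ) : ℝ) ≤ N := by exact_mod_cast hk2
    have h5 := (hN k ⟨by linarith, by linarith⟩).1
    exact sdc_grad_aux _ _ _ _ _ hNr hk1 hk2r h5

/-- the statement of `Glue.center_consecutive`, PROVED from the contracts above, `F5.crit_histories` and `center_seq` -/
theorem center_consecutive : ∃ (L : ℕ) (t ε : ℕ → ℝ) (C : ℝ), 2 ≤ L ∧ Summable ε ∧
    (∀ᶠ N : ℕ in atTop, |t N - 1 / (2 * Real.log L * (N : ℝ))| ≤ C * Real.log N / (N : ℝ) ^ 2) ∧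
    ∀ᶠ N : ℕ in atTop,
      Real.log (centerMag xyCritical (L ^ (N + 1))) - Real.log (centerMag xyCritical (L ^ N))
        = -((1 - t N) / (16 * Real.pi)) * (Glue.unitEnergy (L ^ (N + 1)) - Glue.unitEnergy (L ^ N)) + ε N := by
  obtain ⟨κ, κo, hsys⟩ := rg_system_center
  obtain ⟨ρt1, hρt1, hcr⟩ := F5.crit_histories κ
  have hρt : 0 < min ρt1 (min κ.ρ κo.c) := lt_min hρt1 (lt_min κ.hρ κo.hc)
  obtain ⟨δ, hδ, hcr⟩ := hcr _ hρt (min_le_left _ _)
  obtain ⟨ρe, κe, H, hρe, h1, h2, hdvd, hC⟩ := hsys δ hδ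
  obtain ⟨cr⟩ := hcr κe ρe H ⟨hρe, hdvd, fun s hs => (hC s hs).1⟩ h1 h2
  obtain ⟨t, ε, C, h3, h4, h5⟩ := center_seq κ.L κ.hL κo κe.C κe.c κe.hC κe.hc κe.P0 ρe hρe _ _ _ _ _
    (Eventually.of_forall fun N => (hC _ (cr.adm (Nat.log 2 N))).2)
    (seqDyn_of_crit κ κe ρe _ κo.c H ((min_le_right _ _).trans (min_le_left _ _))
      ((min_le_right _ _).trans (min_le_right _ _)) (fun s hs => (hC s hs).1) cr)
    (center_rough κ.L κ.hL)
  exact ⟨κ.L, t, ε, C, κ.hL, h3, h4, h5⟩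

end

end Claimed.Agent.R285.F6
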